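import Crest.Agent.R191.Upper

/-! Approximating a generating graphing by a finite local one that generates everywhere. -/

namespace Crest.Agent.R191

open MeasureTheory Relation Crest.Dynamics Filter

theorem lift_eqv {Φ : ℕ → G × Set Om} (y : Om) {x x' : Om} (h : EqvGen (GraphingStep Φ) x x') :
    (∀ γ, x = γ • y → ∃ γ', x' = γ' • y ∧
      EqvGen (fun γ γ' => ∃ i, γ • y ∈ (Φ i).2 ∧ γ' = (Φ i).1 * γ) γ γ') ∧
    (∀ γ', x' = γ' • y → ∃ γ, x = γ • y ∧
      EqvGen (fun γ γ' => ∃ i, γ • y ∈ (Φ i).2 ∧ γ' = (Φ i).1 * γ) γ γ') := by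
  induction h with
  | rel a b h =>
    obtain ⟨i, h, rfl⟩ := h
    constructor
    · rintro γ rfl
      exact ⟨(Φ i).1 * γ, (mul_smul _ _ _).symm, EqvGen.rel _ _ ⟨i, h, rfl⟩⟩
    · intro γ' e
      have : a = ((Φ i).1⁻¹ * γ') • y := by rw [mul_smul, ← e, inv_smul_smul]
      exact ⟨_, this, EqvGen.rel _ _ ⟨i, this ▸ h, by simp⟩⟩
  | refl => exact ⟨fun γ e => ⟨γ, e, EqvGen.refl _⟩, fun γ e => ⟨γ, e, EqvGen.refl _⟩⟩
  | symm _ _ _ ih =>
    constructor
    · intro γ e
      obtain ⟨γ', a, b⟩ := ih.2 γ e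
      exact ⟨γ', a, b.symm _ _⟩
    · intro γ e
      obtain ⟨γ', a, b⟩ := ih.1 γ e
      exact ⟨γ', a, b.symm _ _⟩
  | trans _ _ _ _ _ ih1 ih2 =>
    constructor
    · intro γ e
      obtain ⟨γ', a, b⟩ := ih1.1 γ e
      obtain ⟨γ'', a', b'⟩ := ih2.1 γ' a
      exact ⟨γ'', a', b.trans _ _ _ b'⟩
    · intro γ e
      obtain ⟨γ', a, b⟩ := ih2.2 γ e
      obtain ⟨γ'', a', b'⟩ := ih1.2 γ' a
      exact ⟨γ'', a', b'.trans _ _ _ b⟩

theorem eqv_eventually {X : Type} {R : X → X → Prop} {Rk : ℕ → X → X → Prop}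
    (h : ∀ a b, R a b → ∀ᶠ k in atTop, Rk k a b) {a b : X} (hab : EqvGen R a b) :
    ∀ᶠ k in atTop, EqvGen (Rk k) a b := by
  induction hab with
  | rel a b hab => exact (h a b hab).mono fun k hk => EqvGen.rel _ _ hk
  | refl => exact Eventually.of_forall fun _ => EqvGen.refl _
  | symm _ _ _ ih => exact ih.mono fun k hk => hk.symm _ _
  | trans _ _ _ _ _ ih1 ih2 => filter_upwards [ih1, ih2] with k h1 h2 using h1.trans _ _ _ h2

theorem exists_large {S : ℕ → Set Om} {N : Set Om} (hN : mu N = 0)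
    (h : ∀ y, y ∉ N → ∀ᶠ k in atTop, y ∈ S k) {ε : ℝ} (hε : 0 < ε) :
    ∃ k, 1 - ε ≤ mu.real (S k) := by
  let E : ℕ → Set Om := fun n => {y | ∀ k ≥ n, y ∈ S k}
  have hm : Monotone E := fun m n hmn y hy k hk => hy k (hmn.trans hk)
  have h1 := tendsto_measure_iUnion_atTop (μ := mu) hm
  have h2 : mu (⋃ n, E n) = 1 := by
    refine le_antisymm prob_le_one ?_
    calc 1 = mu Set.univ := measure_univ.symm
      _ ≤ mu ((⋃ n, E n) ∪ N) := measure_mono fun y _ => by
          by_cases hy : y ∈ N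
          · exact Or.inr hy
          · exact Or.inl (Set.mem_iUnion.mpr (eventually_atTop.mp (h y hy)))
      _ ≤ _ := (measure_union_le _ _).trans (by rw [hN, add_zero])
  rw [h2] at h1
  have h3 := (ENNReal.tendsto_toReal ENNReal.one_ne_top).comp h1
  obtain ⟨k, hk⟩ := (h3.eventually (lt_mem_nhds (show 1 - ε < ENNReal.toReal 1 by simpa))).exists
  exact ⟨k, hk.le.trans (measureReal_mono fun y hy => hy k le_rfl)⟩

theorem approx {Φ : ℕ → G × Set Om} (hΦ : Generates mu Φ) (hfin : graphingCost mu Φ ≠ ⊤)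
    {ε : ℝ} (hε : 0 < ε) :
    ∃ (Gl : Type) (_ : Fintype Gl) (g : Gl → G) (B : Gl → Set Om), (∀ j, Loc (B j)) ∧
      ∑ j, mu.real (B j) ≤ (graphingCost mu Φ).toReal + 7 * ε ∧
      ∀ (y : Om) γ, EqvGen (fun γ γ' => ∃ j, γ • y ∈ B j ∧ γ' = g j * γ) 1 γ := by
  classical
  obtain ⟨hm, N, hN, hgen⟩ := hΦ
  obtain ⟨e, he⟩ := exists_injective_nat G
  let Rk : (ℕ → Set Om) → ℕ → Om → G → G → Prop := fun A k y γ γ' =>
    e γ < k ∧ ∃ i < k, γ • y ∈ A i ∧ γ' = (Φ i).1 * γ
  let Re : (ℕ → Set Om) → ℕ → Set Om := fun A k => {y | ∀ o, EqvGen (Rk A k y) 1 (gen o)}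
  obtain ⟨k, hk⟩ := exists_large (S := Re fun i => (Φ i).2)
    (N := N ∪ ⋃ g : {g : G // g ≠ 1}, {y | g.1 • y = y})
    (measure_union_null hN (measure_iUnion_null fun g => fix_null g.1 g.2)) (by
      intro y hy
      simp only [Set.mem_union, Set.mem_iUnion, not_or, not_exists] at hy
      refine eventually_all.mpr fun o => ?_
      obtain ⟨γ', h1, h2⟩ := (lift_eqv y (hgen y hy.1 (gen o))).1 1 (one_smul _ _).symm
      have : γ' = gen o := by
        by_contra hne
        refine hy.2 ⟨γ'⁻¹ * gen o, fun h => hne (inv_mul_eq_one.mp h)⟩ ?_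
        change (γ'⁻¹ * gen o) • y = y
        rw [mul_smul, h1, inv_smul_smul]
      subst this
      refine eqv_eventually ?_ h2
      rintro a b ⟨i, h, rfl⟩
      filter_upwards [eventually_gt_atTop (e a), eventually_gt_atTop i] with k k1 k2
      exact ⟨k1, i, k2, h, rfl⟩) hε
  have hK : {γ | e γ < k}.Finite := (Set.finite_lt_nat k).preimage he.injOn
  let K := hK.toFinset
  let δ : ℝ := ε / ((K.card + 1) * (k + 1))
  have hδ : 0 < δ := by positivity
  have hδ1 : (K.card + 1) * (k + 1) * δ = ε := by simp only [δ]; field_simp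
  choose B hB hAB using fun i => exists_loc_approx (hm i) hδ
  have hAB' : ∀ i, mu.real (symmDiff (Φ i).2 (B i)) ≤ δ := fun i =>
    ENNReal.toReal_le_of_le_ofReal hδ.le (hAB i).le
  have hRe : Loc (Re B k) := by
    obtain ⟨F, hF⟩ := exists_locOn (B := fun z : K × Fin k => {y | z.1.1 • y ∈ B z.2})
      fun z => (hB z.2).comp fun g => g * z.1.1
    refine ⟨F, fun y y' hy h o => EqvGen.mono ?_ _ _ (h o)⟩
    rintro a b ⟨h1, i, h2, h3, rfl⟩
    exact ⟨h1, i, h2, hF (⟨a, by simpa [K] using h1⟩, ⟨i, h2⟩) y y' hy h3, rfl⟩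
  have hsub : Re (fun i => (Φ i).2) k ⊆ Re B k ∪ ⋃ z ∈ K ×ˢ Finset.range k,
      (fun y : Om => z.1 • y) ⁻¹' symmDiff (Φ z.2).2 (B z.2) := by
    intro y hy
    by_contra hn
    simp only [Set.mem_union, Set.mem_iUnion, not_or, not_exists] at hn
    refine hn.1 fun o => EqvGen.mono ?_ _ _ (hy o)
    rintro a b ⟨h1, i, h2, h3, rfl⟩
    refine ⟨h1, i, h2, ?_, rfl⟩
    by_contra h4
    exact hn.2 (a, i) (by simpa [K] using ⟨h1, h2⟩) (Or.inl ⟨h3, h4⟩)
  have hbad : mu.real (Re B k)ᶜ ≤ 2 * ε := by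
    rw [probReal_compl_eq_one_sub hRe.meas]
    have h1 := (measureReal_mono (μ := mu) hsub).trans (measureReal_union_le _ _)
    have h2 := measureReal_biUnion_finset_le (μ := mu) (K ×ˢ Finset.range k)
      fun z => (fun y : Om => z.1 • y) ⁻¹' symmDiff (Φ z.2).2 (B z.2)
    have h3 : ∑ z ∈ K ×ˢ Finset.range k,
        mu.real ((fun y : Om => z.1 • y) ⁻¹' symmDiff (Φ z.2).2 (B z.2)) ≤
        ∑ z ∈ K ×ˢ Finset.range k, δ := Finset.sum_le_sum fun z _ => by
      rw [(mp_smul z.1).measureReal_preimage ((hm _).symmDiff (hB _).meas).nullMeasurableSet]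
      exact hAB' _
    simp only [Finset.sum_const, Finset.card_product, Finset.card_range, nsmul_eq_mul,
      Nat.cast_mul] at h3
    have : (0 : ℝ) ≤ K.card * δ := by positivity
    have : (0 : ℝ) ≤ k * δ := by positivity
    nlinarith
  refine ⟨Fin k ⊕ Option Bool, inferInstance, Sum.elim (fun i => (Φ i).1) gen,
    Sum.elim (fun i => B i) fun _ => (Re B k)ᶜ, ?_, ?_, ?_⟩
  · rintro (i | o)
    · exact hB i
    · exact hRe.compl
  · simp only [Fintype.sum_sum_type, Sum.elim_inl, Sum.elim_inr, Finset.sum_const,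
      Finset.card_univ, Fintype.card_option, Fintype.card_bool, nsmul_eq_mul]
    have h1 : ∑ i : Fin k, mu.real (B i) ≤ ∑ i : Fin k, (mu.real (Φ i).2 + δ) :=
      Finset.sum_le_sum fun i _ => by
        refine le_trans ((measureReal_mono (fun y hy => ?_)).trans (measureReal_union_le _ _))
          (add_le_add le_rfl (hAB' i))
        by_cases h : y ∈ (Φ i).2
        · exact Or.inl h
        · exact Or.inr (Or.inr ⟨hy, h⟩)
    have h2 : ∑ i : Fin k, mu.real (Φ i).2 ≤ (graphingCost mu Φ).toReal := by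
      rw [Fin.sum_univ_eq_sum_range (fun i => mu.real (Φ i).2)]
      simp only [Measure.real]
      rw [← ENNReal.toReal_sum fun i _ => measure_ne_top _ _]
      exact ENNReal.toReal_mono hfin (ENNReal.sum_le_tsum _)
    simp only [Finset.sum_add_distrib, Finset.sum_const, Finset.card_univ, Fintype.card_fin,
      nsmul_eq_mul] at h1
    have : (0 : ℝ) ≤ K.card * δ := by positivity
    have : (0 : ℝ) ≤ K.card * k * δ := by positivity
    push_cast
    nlinarith
  · intro y γ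
    set R := fun γ γ' => ∃ j : Fin k ⊕ Option Bool,
      γ • y ∈ Sum.elim (fun i : Fin k => B i) (fun _ => (Re B k)ᶜ) j ∧
        γ' = Sum.elim (fun i : Fin k => (Φ i).1) gen j * γ
    have h1 : ∀ γ o, EqvGen R γ (gen o * γ) := by
      intro γ o
      by_cases h : γ • y ∈ Re B k
      · have : ∀ a b, EqvGen (Rk B k (γ • y)) a b → EqvGen R (a * γ) (b * γ) := by
          intro a b hab
          induction hab with
          | rel a b h =>
            obtain ⟨-, i, h2, h3, rfl⟩ := h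
            exact EqvGen.rel _ _ ⟨.inl ⟨i, h2⟩, by rw [mul_smul]; exact h3, mul_assoc _ _ _⟩
          | refl => exact EqvGen.refl _
          | symm _ _ _ ih => exact ih.symm _ _
          | trans _ _ _ _ _ ih1 ih2 => exact ih1.trans _ _ _ ih2
        simpa using this _ _ (h o)
      · exact EqvGen.rel _ _ ⟨.inr o, h, rfl⟩
    obtain ⟨u, rfl⟩ := exists_wv γ
    induction u with
    | nil => exact EqvGen.refl _
    | cons l u ih =>
      refine ih.trans _ _ _ ?_
      obtain ⟨o, s⟩ := l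
      cases s
      · have := h1 ((gen o)⁻¹ * wv u) o
        simpa [ltr] using this.symm _ _
      · simpa [ltr] using h1 (wv u) o

end Crest.Agent.R191
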