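import Crest.Agent.R191.Grp

/-! The Bernoulli shift: local sets, Walsh expansion. -/

namespace Crest.Agent.R191

open MeasureTheory ProbabilityTheory

abbrev Om := G → Bool

instance : MulAction G Om where
  smul γ y := fun g => y (g * γ)
  one_smul y := by funext g; change y (g * 1) = y g; rw [mul_one]
  mul_smul a b y := by funext g; change y (g * (a * b)) = y (g * a * b); rw [mul_assoc]

theorem smul_app (γ : G) (y : Om) (g : G) : (γ • y) g = y (g * γ) := rfl

noncomputable def ub : Measure Bool := uniformOn Set.univ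

instance : IsProbabilityMeasure ub := by unfold ub; infer_instance

noncomputable def mu : Measure Om := Measure.infinitePi fun _ => ub

instance : IsProbabilityMeasure mu := by unfold mu; infer_instance

theorem ub_single (b : Bool) : ub {b} = 2⁻¹ := by
  rw [ub, uniformOn_univ]; simp

theorem mp_smul (γ : G) : MeasurePreserving (fun y : Om => γ • y) mu mu where
  measurable := measurable_pi_lambda _ fun g => measurable_pi_apply (g * γ)
  map_eq := Measure.map_infinitePi_infinitePi_of_inj (P := fun _ : G => ub)
    (mul_left_injective γ)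

/-- `B` depends only on the coordinates in `F` -/
def LocOn (F : Finset G) (B : Set Om) : Prop :=
  ∀ y y' : Om, (∀ g ∈ F, y g = y' g) → y ∈ B → y' ∈ B

def Loc (B : Set Om) : Prop := ∃ F, LocOn F B

theorem LocOn.eq {F : Finset G} {B : Set Om} (h : LocOn F B) :
    B = F.restrict ⁻¹' (F.restrict '' B) := by
  ext y
  refine ⟨fun hy => ⟨y, hy, rfl⟩, ?_⟩
  rintro ⟨y', hy, e⟩
  exact h y' y (fun g hg => congrFun e ⟨g, hg⟩) hy

theorem Loc.meas {B : Set Om} (h : Loc B) : MeasurableSet B := by
  obtain ⟨F, h⟩ := h
  rw [h.eq]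
  exact F.measurable_restrict (MeasurableSet.of_discrete)

theorem LocOn.map {F : Finset G} {B : Set Om} (h : LocOn F B) {ι : G → G}
    (hι : Set.InjOn ι F) : mu {y | (fun g => y (ι g)) ∈ B} = mu B := by
  have h1 := Measure.map_infinitePi_infinitePi_of_inj (P := fun _ : G => ub)
    (f := fun g : F => ι g) (fun a b e => Subtype.ext (hι a.2 b.2 e))
  have h2 := Measure.map_infinitePi_infinitePi_of_inj (P := fun _ : G => ub)
    (f := fun g : F => (g : G)) Subtype.val_injective
  have hS : MeasurableSet (F.restrict '' B) := MeasurableSet.of_discrete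
  have e1 := congrArg (fun m => m (F.restrict '' B)) (h1.trans h2.symm)
  simp only at e1
  rw [Measure.map_apply (by fun_prop) hS, Measure.map_apply (by fun_prop) hS] at e1
  conv_lhs => rw [h.eq]
  conv_rhs => rw [h.eq]
  exact e1

theorem Loc.of_finite {T : Set G} (hT : T.Finite) {B : Set Om}
    (h : ∀ y y' : Om, (∀ g ∈ T, y g = y' g) → y ∈ B → y' ∈ B) : Loc B :=
  ⟨hT.toFinset, fun y y' hy => h y y' fun g hg => hy g (by simpa using hg)⟩

theorem Loc.comp {B : Set Om} (h : Loc B) (ι : G → G) : Loc {y | (fun g => y (ι g)) ∈ B} := by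
  classical
  obtain ⟨F, h⟩ := h
  exact ⟨F.image ι, fun y y' hy => h _ _ fun g hg => hy _ (Finset.mem_image_of_mem _ hg)⟩

theorem Loc.compl {B : Set Om} (h : Loc B) : Loc Bᶜ := by
  obtain ⟨F, h⟩ := h
  exact ⟨F, fun y y' hy hB hB' => hB (h _ _ (fun g hg => (hy g hg).symm) hB')⟩

theorem Loc.inter {B C : Set Om} (h : Loc B) (h' : Loc C) : Loc (B ∩ C) := by
  classical
  obtain ⟨F, h⟩ := h
  obtain ⟨F', h'⟩ := h'
  exact ⟨F ∪ F', fun y y' hy hB => ⟨h _ _ (fun g hg => hy g (by simp [hg])) hB.1,
    h' _ _ (fun g hg => hy g (by simp [hg])) hB.2⟩⟩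

theorem exists_locOn {J : Type} [Finite J] {B : J → Set Om} (h : ∀ j, Loc (B j)) :
    ∃ F, ∀ j, LocOn F (B j) := by
  classical
  have := Fintype.ofFinite J
  choose F hF using h
  exact ⟨Finset.univ.biUnion F, fun j y y' hy => hF j y y' fun g hg =>
    hy g (Finset.mem_biUnion.mpr ⟨j, Finset.mem_univ _, hg⟩)⟩

theorem exists_loc_approx {A : Set Om} (hA : MeasurableSet A) {ε : ℝ} (hε : 0 < ε) :
    ∃ B, Loc B ∧ mu (symmDiff A B) < ENNReal.ofReal ε := by
  obtain ⟨B, hB, h⟩ := (Measure.MeasureDense.of_generateFrom_isSetAlgebra_finite (μ := mu)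
    isSetAlgebra_measurableCylinders generateFrom_measurableCylinders.symm).approx A hA
    (measure_ne_top _ _) ε hε
  refine ⟨B, ?_, h⟩
  obtain ⟨F, S, -, rfl⟩ := (mem_measurableCylinders _).mp hB
  refine ⟨F, fun y y' hy h => ?_⟩
  have : F.restrict y = F.restrict y' := funext fun g => hy g g.2
  rw [mem_cylinder] at h ⊢
  rwa [← this]

/-! Walsh characters -/

def sg (b : Bool) : ℝ := if b then 1 else -1

noncomputable def chi (T : Finset G) (y : Om) : ℝ := ∏ g ∈ T, sg (y g)

theorem chi_sq (T : Finset G) (y : Om) : chi T y * chi T y = 1 := by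
  rw [chi, ← Finset.prod_mul_distrib]
  exact Finset.prod_eq_one fun g _ => by cases y g <;> simp [sg]

theorem chi_meas (T : Finset G) : Measurable (chi T) :=
  Finset.measurable_prod _ fun g _ => (measurable_of_finite sg).comp (measurable_pi_apply g)

theorem chi_abs (T : Finset G) (y : Om) : |chi T y| = 1 := by
  have := congrArg abs (chi_sq T y)
  rw [abs_mul, abs_one] at this
  nlinarith [abs_nonneg (chi T y)]

theorem chi_int (S T : Finset G) : Integrable (fun y => chi S y * chi T y) mu :=
  Integrable.of_bound ((chi_meas S).mul (chi_meas T)).aestronglyMeasurable 1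
    (Filter.Eventually.of_forall fun y => by simp [chi_abs])

open Classical in
noncomputable def flip (g0 : G) (y : Om) : Om := fun g => if g = g0 then !(y g) else y g

theorem mp_flip (g0 : G) : MeasurePreserving (flip g0) mu mu := by
  classical
  have h := Measure.infinitePi_map_pi (fun _ : G => ub)
    (f := fun g b => if g = g0 then !b else b) (fun _ => measurable_of_finite _)
  have h2 : (fun i : G => ub.map fun b => if i = g0 then !b else b) = fun _ => ub := by
    funext i
    split_ifs
    · apply Measure.ext_of_singleton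
      intro b
      rw [Measure.map_apply (measurable_of_finite _) (measurableSet_singleton _)]
      have : (fun b : Bool => !b) ⁻¹' {b} = {!b} := by ext x; cases x <;> cases b <;> simp
      rw [this, ub_single, ub_single]
    · exact Measure.map_id
  refine ⟨measurable_pi_lambda _ fun g => ?_, ?_⟩
  · exact (measurable_of_finite fun b => if g = g0 then !b else b).comp (measurable_pi_apply g)
  · simp only [h2] at h
    exact h

theorem chi_flip_mem {g0 : G} {T : Finset G} (h : g0 ∈ T) (y : Om) :
    chi T (flip g0 y) = - chi T y := by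
  classical
  rw [chi, chi, ← Finset.mul_prod_erase _ _ h, ← Finset.mul_prod_erase _ _ h, ← neg_mul]
  congr 1
  · simp only [flip, if_true]; cases y g0 <;> simp [sg]
  · exact Finset.prod_congr rfl fun g hg => by simp [flip, (Finset.mem_erase.mp hg).1]

theorem chi_flip_not {g0 : G} {T : Finset G} (h : g0 ∉ T) (y : Om) :
    chi T (flip g0 y) = chi T y :=
  Finset.prod_congr rfl fun g hg => by
    have : g ≠ g0 := fun e => h (e ▸ hg)
    simp [flip, this]

theorem chi_orth {S T : Finset G} (h : S ≠ T) : ∫ y, chi S y * chi T y ∂mu = 0 := by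
  have key : ∀ {S T : Finset G} (g : G), g ∈ S → g ∉ T → ∫ y, chi S y * chi T y ∂mu = 0 := by
    intro S T g h1 h2
    have := integral_map (μ := mu) (mp_flip g).measurable.aemeasurable
      (f := fun y => chi S y * chi T y) ((chi_meas S).mul (chi_meas T)).aestronglyMeasurable
    rw [(mp_flip g).map_eq] at this
    simp only [chi_flip_mem h1, chi_flip_not h2, neg_mul, integral_neg] at this
    linarith
  by_contra hne
  apply h
  ext g
  by_contra hg
  by_cases h1 : g ∈ S
  · exact hne (key g h1 (by tauto))
  · exact hne (by simpa only [mul_comm] using key g (by tauto : g ∈ T) h1)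

theorem sum_chi_sq (𝒯 : Finset (Finset G)) (a : Finset G → ℝ) :
    ∫ y, (∑ T ∈ 𝒯, a T * chi T y) ^ 2 ∂mu = ∑ T ∈ 𝒯, a T ^ 2 := by
  classical
  have : ∀ y, (∑ T ∈ 𝒯, a T * chi T y) ^ 2 =
      ∑ S ∈ 𝒯, ∑ T ∈ 𝒯, a S * a T * (chi S y * chi T y) := by
    intro y
    rw [sq, Finset.sum_mul_sum]
    exact Finset.sum_congr rfl fun S _ => Finset.sum_congr rfl fun T _ => by ring
  simp only [this]
  rw [integral_finsetSum _ fun S _ => integrable_finsetSum _ fun T _ => (chi_int S T).const_mul _]
  refine Finset.sum_congr rfl fun S hS => ?_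
  rw [integral_finsetSum _ fun T _ => (chi_int S T).const_mul _, Finset.sum_eq_single S]
  · simp [chi_sq, sq]
  · intro T _ hT
    rw [integral_const_mul, chi_orth hT.symm, mul_zero]
  · exact fun h => absurd hS h

noncomputable def wal : (Finset G →₀ ℝ) →ₗ[ℝ] (Om → ℝ) := Finsupp.linearCombination ℝ chi

theorem wal_apply (a : Finset G →₀ ℝ) (y : Om) : wal a y = ∑ T ∈ a.support, a T * chi T y := by
  simp [wal, Finsupp.linearCombination_apply, Finsupp.sum]

theorem parseval (a : Finset G →₀ ℝ) : ∫ y, wal a y ^ 2 ∂mu = ∑' T, a T ^ 2 := by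
  simp only [wal_apply, sum_chi_sq]
  rw [tsum_eq_sum]
  intro T hT
  simp [Finsupp.notMem_support_iff.mp hT]

theorem wal_integral (a : Finset G →₀ ℝ) : ∫ y, wal a y ∂mu = a ∅ := by
  classical
  have h0 : ∀ y, chi ∅ y = 1 := fun y => rfl
  simp only [wal_apply]
  rw [integral_finsetSum _ fun T _ => by simpa [h0] using (chi_int T ∅).const_mul (a T),
    Finset.sum_eq_single ∅]
  · simp [h0]
  · intro T _ hT
    have := chi_orth hT
    simp only [h0, mul_one] at this
    rw [integral_const_mul, this, mul_zero]
  · intro h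
    simp [Finsupp.notMem_support_iff.mp h]

theorem exists_wal {B : Set Om} (h : Loc B) : ∃ a, wal a = B.indicator 1 := by
  classical
  obtain ⟨F, h⟩ := h
  let ex : (F → Bool) → Om := fun ω g => if hg : g ∈ F then ω ⟨g, hg⟩ else false
  have h1 : B.indicator (1 : Om → ℝ) = ∑ ω : F → Bool, (B.indicator 1 (ex ω) * 2⁻¹ ^ F.card : ℝ) •
      ∑ T ∈ F.powerset, chi T (ex ω) • chi T := by
    funext y
    have h2 : ∀ ω, 2⁻¹ ^ F.card * ∑ T ∈ F.powerset, chi T (ex ω) * chi T y =
        if ω = F.restrict y then (1 : ℝ) else 0 := by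
      intro ω
      simp only [chi, ← Finset.prod_mul_distrib]
      rw [← Finset.prod_one_add, ← Finset.prod_const, ← Finset.prod_mul_distrib]
      split_ifs with hω
      · refine Finset.prod_eq_one fun g hg => ?_
        have : ex ω g = y g := by simp [ex, hg, hω]
        rw [this]; cases y g <;> norm_num [sg]
      · obtain ⟨g, hg⟩ := Function.ne_iff.mp hω
        refine Finset.prod_eq_zero g.2 ?_
        have : ex ω g = ω g := by simp [ex]
        rw [this]
        simp only [Finset.restrict] at hg
        revert hg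
        cases ω g <;> cases y g <;> simp [sg]
    simp only [Finset.sum_apply, Pi.smul_apply, smul_eq_mul, mul_assoc, h2, mul_ite, mul_one,
      mul_zero, Finset.sum_ite_eq', Finset.mem_univ, if_true]
    have e : ∀ g ∈ F, y g = ex (F.restrict y) g := fun g hg => by simp [ex, hg]
    by_cases hy : y ∈ B
    · simp [hy, h _ _ e hy]
    · have : ex (F.restrict y) ∉ B := fun hh => hy (h _ _ (fun g hg => (e g hg).symm) hh)
      simp [hy, this]
  change _ ∈ LinearMap.range wal
  rw [h1]
  refine Submodule.sum_mem _ fun ω _ => Submodule.smul_mem _ _ (Submodule.sum_mem _ fun T _ =>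
    Submodule.smul_mem _ _ ⟨Finsupp.single T 1, by simp [wal]⟩)

/-- essential freeness -/
theorem fix_null (γ : G) (hγ : γ ≠ 1) : mu {y : Om | γ • y = y} = 0 := by
  classical
  have hm : MeasurableSet {y : Om | γ • y = y} :=
    measurableSet_eq_fun (mp_smul γ).measurable measurable_id
  have hinf : (Set.range fun h : G => ({h, h * γ} : Finset G)).Infinite := by
    intro hf
    have := hf.biUnion (t := fun T => (T : Set G)) fun T _ => T.finite_toSet
    refine Set.infinite_univ (this.subset fun h _ => ?_)
    simp only [Set.mem_iUnion]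
    exact ⟨_, ⟨h, rfl⟩, by simp⟩
  have key : ∀ N : ℕ, mu.real {y : Om | γ • y = y} * N ^ 2 ≤ N := by
    intro N
    obtain ⟨𝒯, h1, h2⟩ := hinf.exists_subset_card_eq N
    have h3 := sum_chi_sq 𝒯 fun _ => 1
    simp only [one_mul, one_pow, Finset.sum_const, h2, nsmul_eq_mul, mul_one] at h3
    rw [← h3, ← smul_eq_mul, ← integral_indicator_const _ hm]
    refine integral_mono ((integrable_const _).indicator hm) ?_ fun y => ?_
    · simp only [sq, Finset.sum_mul_sum]
      exact integrable_finsetSum _ fun S _ => integrable_finsetSum _ fun T _ => chi_int S T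
    · by_cases hy : γ • y = y
      · rw [Set.indicator_of_mem (by exact hy)]
        have : ∀ T ∈ 𝒯, chi T y = 1 := by
          intro T hT
          obtain ⟨h, rfl⟩ := h1 hT
          have e : y (h * γ) = y h := congrFun hy h
          rw [chi, Finset.prod_pair (by simpa using hγ), e]
          cases y h <;> simp [sg]
        rw [Finset.sum_congr rfl this]
        simp [h2, h3]
      · rw [Set.indicator_of_notMem (by exact hy)]
        positivity
  rw [← measureReal_eq_zero_iff]
  by_contra hne
  have hpos : 0 < mu.real {y : Om | γ • y = y} := lt_of_le_of_ne measureReal_nonneg (Ne.symm hne)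
  obtain ⟨N, hN⟩ := exists_nat_gt (mu.real {y : Om | γ • y = y})⁻¹
  have h1 := key N
  have hN0 : (0 : ℝ) < N := (inv_pos.mpr hpos).trans hN
  rw [inv_lt_iff_one_lt_mul₀ hpos] at hN
  nlinarith

end Crest.Agent.R191
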