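import Crest.Agent.R191.Full

/-! The concrete pieces. -/

namespace Crest.Agent.R191

open Relation Filter

inductive RV
  | tr (u : List Ltr)
  | bl (u : List Ltr) (s : Bool)
  | ex (u : List Ltr) (s d : Bool) (m : Fin 3) (π : List (Fin 3))

inductive RE
  | tr (u : List Ltr) (x s : Bool)
  | co (u : List Ltr) (s d : Bool) (π : List (Fin 3))
  | eh (u : List Ltr) (s d : Bool) (m : Fin 3) (π : List (Fin 3))

structure RT where
  u : List Ltr
  s : Bool
  d : Bool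
  m : Fin 3
  π : List (Fin 3)

def mv : Fin 3 → Fin 3 → Fin 4 × Bool :=
  ![![(3, true), (0, false), (2, false)], ![(0, true), (1, false), (3, false)],
    ![(1, true), (2, true), (2, true)]]

def nx (τ m : Fin 3) : Fin 3 := if (mv τ m).2 then tt (mv τ m).1 else st (mv τ m).1

theorem mv_self (τ m : Fin 3) : (if (mv τ m).2 then st (mv τ m).1 else tt (mv τ m).1) = τ := by
  revert τ m; decide

def ty : List (Fin 3) → Fin 3
  | [] => 0
  | m :: π => nx (ty π) m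

def aoff : List (Fin 3) → G
  | [] => 1
  | m :: π => ltr (some (lt (mv (ty π) m).1), (mv (ty π) m).2) * aoff π

def bs (u : List Ltr) (s d : Bool) : List Ltr := if d then (none, s) :: u else u

def cv (u : List Ltr) (s d : Bool) : List (Fin 3) → RV
  | [] => .tr (bs u s d)
  | m :: π => .ex u s d m π

def RV.blob : RV → Prop
  | .bl _ _ => True
  | _ => False

def RV.off : RV → G
  | .tr u => wv u
  | .bl _ _ => 1
  | .ex u s d m π => aoff (m :: π) * wv (bs u s d)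

theorem cv_nb (u s d π) : ¬ (cv u s d π).blob := by cases π <;> simp [cv, RV.blob]

theorem cv_off (u s d π) : (cv u s d π).off = aoff π * wv (bs u s d) := by
  cases π <;> simp [cv, RV.off, aoff]

def RE.src : RE → RV
  | .tr u x s => if s then .tr u else .tr ((some x, s) :: u)
  | .co u s d π => cv u s d π
  | .eh u s d m π => if (mv (ty π) m).2 then cv u s d π else cv u s d (m :: π)

def RE.tgt : RE → RV
  | .tr u x s => if s then .tr ((some x, s) :: u) else .tr u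
  | .co u s _ _ => .bl u s
  | .eh u s d m π => if (mv (ty π) m).2 then cv u s d (m :: π) else cv u s d π

def RE.kind : RE → Bool ⊕ Fin 3
  | .tr _ x _ => .inl x
  | .co _ _ _ π => .inr (ty π)
  | .eh _ _ _ m π => .inl (lt (mv (ty π) m).1)

def RT.th (t : RT) : RE := .eh t.u t.s t.d t.m t.π
def RT.c1 (t : RT) : RE :=
  if (mv (ty t.π) t.m).2 then .co t.u t.s t.d t.π else .co t.u t.s t.d (t.m :: t.π)
def RT.c2 (t : RT) : RE :=
  if (mv (ty t.π) t.m).2 then .co t.u t.s t.d (t.m :: t.π) else .co t.u t.s t.d t.π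

def raw (Gl : Type) (w : Gl → List Ltr) : Piece where
  V := RV
  E := RE
  T := RT
  Gl := Gl
  root := .tr []
  blob := RV.blob
  off := RV.off
  src := RE.src
  tgt := RE.tgt
  kind := RE.kind
  src_nb := by
    rintro (⟨u, x, s⟩ | ⟨u, s, d, π⟩ | ⟨u, s, d, m, π⟩) <;> simp only [RE.src]
    · split_ifs <;> simp [RV.blob]
    · exact cv_nb _ _ _ _
    · split_ifs <;> exact cv_nb _ _ _ _
  kind_h := by
    rintro (⟨u, x, s⟩ | ⟨u, s, d, π⟩ | ⟨u, s, d, m, π⟩) y h <;>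
      simp only [RE.kind, Sum.inl.injEq, reduceCtorEq] at h
    · subst h
      cases s <;> simp [RE.src, RE.tgt, RV.blob, RV.off, ltr, ga]
    · subst h
      simp only [RE.src, RE.tgt]
      split_ifs with h
      · exact ⟨cv_nb _ _ _ _, by simp [cv_off, aoff, h, ltr, ga, mul_assoc]⟩
      · exact ⟨cv_nb _ _ _ _, by simp [cv_off, aoff, h, ltr, ga, mul_assoc]⟩
  kind_c := by
    rintro (⟨u, x, s⟩ | ⟨u, s, d, π⟩ | ⟨u, s, d, m, π⟩) y h <;>
      simp only [RE.kind, reduceCtorEq] at h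
    trivial
  tk t := (mv (ty t.π) t.m).1
  th := RT.th
  c1 := RT.c1
  c2 := RT.c2
  th_kind _ := rfl
  c1_kind t := by
    have := mv_self (ty t.π) t.m
    simp only [RT.c1]
    split_ifs at this ⊢ with h
    · simp [RE.kind, this]
    · simp [RE.kind, ty, nx, h]
  c2_kind t := by
    have := mv_self (ty t.π) t.m
    simp only [RT.c2]
    split_ifs at this ⊢ with h
    · simp [RE.kind, ty, nx, h]
    · simp [RE.kind, this]
  src_c1 t := by simp only [RT.c1, RT.th, RE.src]; split_ifs <;> rfl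
  src_c2 t := by simp only [RT.c2, RT.th, RE.src, RE.tgt]; split_ifs <;> rfl
  tgt_c t := by simp only [RT.c1, RT.c2]; split_ifs <;> rfl
  ge j := .tr (w j)
  ge_nb _ := by simp [RV.blob]
  root_nb := by simp [RV.blob]
  off_root := rfl

def RV.ok (L : ℕ) (bd : ℕ∞) : RV → Prop
  | .tr u => u.length ≤ L
  | .bl u _ => u.length + 1 ≤ L
  | .ex u _ _ _ π => u.length + 1 ≤ L ∧ ((π.length + 1 : ℕ) : ℕ∞) ≤ bd

def RE.ok (L : ℕ) (bd : ℕ∞) : RE → Prop
  | .tr u _ _ => u.length + 1 ≤ L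
  | .co u _ _ π => u.length + 1 ≤ L ∧ (π.length : ℕ∞) ≤ bd
  | .eh u _ _ _ π => u.length + 1 ≤ L ∧ ((π.length + 1 : ℕ) : ℕ∞) ≤ bd

def RT.ok (L : ℕ) (bd : ℕ∞) (t : RT) : Prop :=
  t.u.length + 1 ≤ L ∧ ((t.π.length + 1 : ℕ) : ℕ∞) ≤ bd

theorem le_of_succ {n : ℕ} {bd : ℕ∞} (h : ((n + 1 : ℕ) : ℕ∞) ≤ bd) : (n : ℕ∞) ≤ bd :=
  le_trans (by exact_mod_cast Nat.le_succ n) h

theorem cv_ok {L : ℕ} {bd : ℕ∞} {u : List Ltr} (h : u.length + 1 ≤ L) (s d : Bool)
    {π : List (Fin 3)} (h' : (π.length : ℕ∞) ≤ bd) : (cv u s d π).ok L bd := by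
  cases π with
  | nil => cases d <;> simp [cv, bs, RV.ok] <;> omega
  | cons m π => exact ⟨h, h'⟩

def rsub {Gl : Type} {w : Gl → List Ltr} {L : ℕ} (hL : ∀ j, (w j).length ≤ L) (bd : ℕ∞) :
    (raw Gl w).Sub where
  sV := RV.ok L bd
  sE := RE.ok L bd
  sT := RT.ok L bd
  src := by
    rintro (⟨u, x, s⟩ | ⟨u, s, d, π⟩ | ⟨u, s, d, m, π⟩) h <;> simp only [raw, RE.src]
    · simp only [RE.ok] at h
      split_ifs <;> simp [RV.ok] <;> omega
    · exact cv_ok h.1 _ _ h.2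
    · split_ifs
      · exact cv_ok h.1 _ _ (le_of_succ h.2)
      · exact cv_ok h.1 _ _ h.2
  tgt := by
    rintro (⟨u, x, s⟩ | ⟨u, s, d, π⟩ | ⟨u, s, d, m, π⟩) h <;> simp only [raw, RE.tgt]
    · simp only [RE.ok] at h
      split_ifs <;> simp [RV.ok] <;> omega
    · exact h.1
    · split_ifs
      · exact cv_ok h.1 _ _ h.2
      · exact cv_ok h.1 _ _ (le_of_succ h.2)
  th _ h := h
  c1 t h := by
    simp only [raw, RT.c1]
    split_ifs
    · exact ⟨h.1, le_of_succ h.2⟩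
    · exact h
  c2 t h := by
    simp only [raw, RT.c2]
    split_ifs
    · exact h
    · exact ⟨h.1, le_of_succ h.2⟩
  root := Nat.zero_le L
  ge := hL

theorem finV (L R : ℕ) : {v : RV | v.ok L R}.Finite := by
  have hU := List.finite_length_le Ltr L
  have hP := List.finite_length_le (Fin 3) R
  refine (((hU.image RV.tr).union ((hU.prod (Set.finite_univ (α := Bool))).image
    fun p => RV.bl p.1 p.2)).union (((hU.prod (Set.finite_univ (α := Bool × Bool × Fin 3))).prod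
      hP).image fun p => RV.ex p.1.1 p.1.2.1 p.1.2.2.1 p.1.2.2.2 p.2)).subset ?_
  rintro (u | ⟨u, s⟩ | ⟨u, s, d, m, π⟩) h
  · exact Or.inl (Or.inl ⟨u, h, rfl⟩)
  · exact Or.inl (Or.inr ⟨(u, s), ⟨Nat.le_of_succ_le h, trivial⟩, rfl⟩)
  · exact Or.inr ⟨((u, s, d, m), π), ⟨⟨Nat.le_of_succ_le h.1, trivial⟩,
      by simpa using le_of_succ h.2⟩, rfl⟩

theorem finE (L R : ℕ) : {v : RE | v.ok L R}.Finite := by
  have hU := List.finite_length_le Ltr L
  have hP := List.finite_length_le (Fin 3) R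
  refine ((((hU.prod (Set.finite_univ (α := Bool × Bool))).image
    fun p => RE.tr p.1 p.2.1 p.2.2).union
    (((hU.prod (Set.finite_univ (α := Bool × Bool))).prod hP).image
    fun p => RE.co p.1.1 p.1.2.1 p.1.2.2 p.2)).union
    (((hU.prod (Set.finite_univ (α := Bool × Bool × Fin 3))).prod
      hP).image fun p => RE.eh p.1.1 p.1.2.1 p.1.2.2.1 p.1.2.2.2 p.2)).subset ?_
  rintro (⟨u, x, s⟩ | ⟨u, s, d, π⟩ | ⟨u, s, d, m, π⟩) h
  · exact Or.inl (Or.inl ⟨(u, x, s), ⟨Nat.le_of_succ_le h, trivial⟩, rfl⟩)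
  · exact Or.inl (Or.inr ⟨((u, s, d), π), ⟨⟨Nat.le_of_succ_le h.1, trivial⟩,
      by simpa using h.2⟩, rfl⟩)
  · exact Or.inr ⟨((u, s, d, m), π), ⟨⟨Nat.le_of_succ_le h.1, trivial⟩,
      by simpa using le_of_succ h.2⟩, rfl⟩

theorem finT (L R : ℕ) : {v : RT | v.ok L R}.Finite := by
  have hU := List.finite_length_le Ltr L
  have hP := List.finite_length_le (Fin 3) R
  refine (((hU.prod (Set.finite_univ (α := Bool × Bool × Fin 3))).prod
      hP).image fun p => RT.mk p.1.1 p.1.2.1 p.1.2.2.1 p.1.2.2.2 p.2).subset ?_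
  rintro ⟨u, s, d, m, π⟩ h
  exact ⟨((u, s, d, m), π), ⟨⟨Nat.le_of_succ_le h.1, trivial⟩,
      by simpa using le_of_succ h.2⟩, rfl⟩

theorem finB (L : ℕ) : {v : RV | v.blob ∧ v.ok L 0}.Finite :=
  (finV L 0).subset fun _ h => h.2

theorem raw_con (L : ℕ) (bd : ℕ∞) (ψ : RV → ZMod 2) (h : ∀ e : RE, e.ok L bd → ψ e.src = ψ e.tgt)
    (v : RV) (hv : v.ok L bd) : ψ v = ψ (.tr []) := by
  have h1 : ∀ u : List Ltr, u.length ≤ L → ψ (.tr u) = ψ (.tr []) := by
    intro u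
    induction u with
    | nil => intro; rfl
    | cons l u ih =>
      intro hu
      rw [← ih (Nat.le_of_succ_le hu)]
      obtain ⟨_ | x, s⟩ := l
      · exact (h (.co u s true []) ⟨hu, by simp⟩).trans (h (.co u s false []) ⟨hu, by simp⟩).symm
      · have := h (.tr u x s) hu
        cases s
        · exact this
        · exact this.symm
  have h2 : ∀ (u : List Ltr) s, u.length + 1 ≤ L → ψ (.bl u s) = ψ (.tr []) := fun u s hu =>
    (h (.co u s false []) ⟨hu, by simp⟩).symm.trans (h1 u (Nat.le_of_succ_le hu))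
  rcases v with u | ⟨u, s⟩ | ⟨u, s, d, m, π⟩
  · exact h1 u hv
  · exact h2 u s hv
  · exact (h (.co u s d (m :: π)) hv).trans (h2 u s hv.1)

def phiTr (ω : RE → ZMod 2) : List Ltr → ZMod 2
  | [] => 0
  | (some x, s) :: u => phiTr ω u + ω (.tr u x s)
  | (none, s) :: u => phiTr ω u + ω (.co u s false []) + ω (.co u s true [])

def phiV (ω : RE → ZMod 2) : RV → ZMod 2
  | .tr u => phiTr ω u
  | .bl u s => phiTr ω u + ω (.co u s false [])
  | .ex u s d m π => phiTr ω u + ω (.co u s false []) + ω (.co u s d (m :: π))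

theorem raw_ex (L : ℕ) (bd : ℕ∞) (ω : RE → ZMod 2)
    (h : ∀ t : RT, t.ok L bd → ω t.th = ω t.c1 + ω t.c2) :
    ∃ φ : RV → ZMod 2, ∀ e : RE, e.ok L bd → ω e = φ e.src + φ e.tgt := by
  have z1 : ∀ a b : ZMod 2, b = a + (a + b) := by decide
  have z2 : ∀ a b : ZMod 2, b = (a + b) + a := by decide
  have z3 : ∀ a b c : ZMod 2, (a + c) + (b + c) = a + b := by decide
  have hc : ∀ u s d π, ω (.co u s d π) = phiV ω (cv u s d π) + phiV ω (.bl u s) := by
    intro u s d π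
    cases π with
    | nil =>
      cases d
      · exact z1 _ _
      · exact z2 _ _
    | cons m π => exact z2 _ _
  refine ⟨phiV ω, ?_⟩
  rintro (⟨u, x, s⟩ | ⟨u, s, d, π⟩ | ⟨u, s, d, m, π⟩) he
  · cases s
    · exact z2 _ _
    · exact z1 _ _
  · exact hc _ _ _ _
  · have := h ⟨u, s, d, m, π⟩ he
    simp only [RT.th, RT.c1, RT.c2, RE.src, RE.tgt] at this ⊢
    split_ifs at this ⊢ <;> rw [this, hc, hc, z3]

section
variable {Gl : Type} {w : Gl → List Ltr} {L : ℕ} (hL : ∀ j, (w j).length ≤ L)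

/-- the concrete piece -/
abbrev PC (bd : ℕ∞) : Piece := Piece.sub (rsub hL bd)

theorem PC_tr (u : List Ltr) (h : u.length ≤ L) :
    GR (PC hL ⊤).St0 (PC hL ⊤).root (wv u) ⟨.tr u, h⟩ := by
  induction u with
  | nil => exact GR.refl _
  | cons l u ih =>
    refine GR.step l (ih (Nat.le_of_succ_le h)) ?_
    obtain ⟨_ | x, s⟩ := l
    · cases s
      · exact ⟨⟨.co u false true [], h, le_top⟩, ⟨.co u false false [], h, le_top⟩, rfl, rfl, rfl,
          rfl, rfl, by change wv u = zz * wv (_ :: u); simp [ltr, gen]⟩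
      · exact ⟨⟨.co u true false [], h, le_top⟩, ⟨.co u true true [], h, le_top⟩, rfl, rfl, rfl,
          rfl, rfl, by change wv (_ :: u) = zz * wv u; simp [ltr, gen]⟩
    · cases s
      · exact ⟨⟨.tr u x false, h⟩, rfl, rfl, rfl⟩
      · exact ⟨⟨.tr u x true, h⟩, rfl, rfl, rfl⟩

theorem PC_step {u : List Ltr} (h : u.length + 1 ≤ L) (s d : Bool) (π : List (Fin 3)) (m : Fin 3) :
    SS (PC hL ⊤).St0 (some (lt (mv (ty π) m).1), (mv (ty π) m).2) ⟨cv u s d π, cv_ok h s d le_top⟩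
      ⟨cv u s d (m :: π), cv_ok (π := m :: π) h s d le_top⟩ := by
  unfold SS
  split_ifs with hm
  · exact ⟨⟨.eh u s d m π, h, le_top⟩, rfl, Subtype.ext (if_pos hm), Subtype.ext (if_pos hm)⟩
  · exact ⟨⟨.eh u s d m π, h, le_top⟩, rfl, Subtype.ext (if_neg hm), Subtype.ext (if_neg hm)⟩

theorem PC_W {u : List Ltr} (h : u.length + 1 ≤ L) (s d : Bool) (a : A) (ha : a ∈ W)
    (π : List (Fin 3)) (hπ : ty π = 0) : ∃ π', ty π' = 0 ∧
      AR (PC hL ⊤).St0 ⟨cv u s d π, cv_ok h s d le_top⟩ a ⟨cv u s d π', cv_ok h s d le_top⟩ := by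
  have st : ∀ {q a π τ} (m : Fin 3), ty π = τ →
      AR (PC hL ⊤).St0 q a ⟨cv u s d π, cv_ok h s d le_top⟩ →
      ty (m :: π) = nx τ m ∧ AR (PC hL ⊤).St0 q (FreeGroup.mk [(lt (mv τ m).1, (mv τ m).2)] * a)
        ⟨cv u s d (m :: π), cv_ok (π := m :: π) h s d le_top⟩ := by
    rintro q a π τ m rfl h'
    exact ⟨rfl, AR.step _ _ h' (PC_step hL h s d π m)⟩
  induction ha using Subgroup.closure_induction_left with
  | one => exact ⟨π, hπ, AR.refl _⟩
  | mul_left x hx y _ ih =>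
    obtain ⟨π', h1, h2⟩ := ih
    rcases hx with rfl | rfl
    · obtain ⟨a1, a2⟩ := st 0 h1 h2
      obtain ⟨b1, b2⟩ := st 0 a1 a2
      refine ⟨_, b1, ?_⟩
      convert b2 using 1
      rw [mul_assoc]; rfl
    · obtain ⟨a1, a2⟩ := st 2 h1 h2
      obtain ⟨b1, b2⟩ := st 0 a1 a2
      obtain ⟨c1, c2⟩ := st 0 b1 b2
      refine ⟨_, c1, ?_⟩
      convert c2 using 1
      rw [mul_assoc, mul_assoc, be, ← mk_single_false]; rfl
  | inv_mul_cancel x hx y _ ih =>
    obtain ⟨π', h1, h2⟩ := ih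
    rcases hx with rfl | rfl
    · obtain ⟨a1, a2⟩ := st 1 h1 h2
      obtain ⟨b1, b2⟩ := st 2 a1 a2
      refine ⟨_, b1, ?_⟩
      convert b2 using 1
      rw [mul_inv_rev, mul_assoc, al, be, ← mk_single_false, ← mk_single_false]; rfl
    · obtain ⟨a1, a2⟩ := st 1 h1 h2
      obtain ⟨b1, b2⟩ := st 1 a1 a2
      obtain ⟨c1, c2⟩ := st 1 b1 b2
      refine ⟨_, c1, ?_⟩
      convert c2 using 1
      rw [mul_inv_rev, mul_inv_rev, inv_inv, mul_assoc, mul_assoc, al, ← mk_single_false]; rfl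

theorem PC_hW (e : (PC hL ⊤).E) (he : (PC hL ⊤).kind e = .inr 0) (a : A) (ha : a ∈ W) :
    ∃ e', (PC hL ⊤).kind e' = .inr 0 ∧ (PC hL ⊤).tgt e' = (PC hL ⊤).tgt e ∧
      AR (PC hL ⊤).St0 ((PC hL ⊤).src e) a ((PC hL ⊤).src e') := by
  obtain ⟨⟨u, x, s⟩ | ⟨u, s, d, π⟩ | ⟨u, s, d, m, π⟩, h⟩ := e
  · cases he
  · obtain ⟨π', h1, h2⟩ := PC_W hL h.1 s d a ha π (Sum.inr.inj he)
    exact ⟨⟨.co u s d π', h.1, le_top⟩, congrArg Sum.inr h1, rfl, h2⟩
  · cases he

theorem PC_Sig (hL1 : 1 ≤ L) (H : ℕ) (c : G → (Gl → Prop) × Prop) (hc : ∀ γ, (c γ).2)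
    (hgen : ∀ γ, EqvGen (fun γ γ' => ∃ j, (c γ).1 j ∧ γ' = wv (w j) * γ) 1 γ) :
    ∀ᶠ R : ℕ in atTop, (PC hL R).Sig c R H 1 := by
  have full : ∀ {g : G} {v : (PC hL ⊤).V}, GR (PC hL ⊤).St0 (PC hL ⊤).root g v →
      ∀ γ, (PC hL ⊤).Ap c (γ, v) (g * γ, (PC hL ⊤).root) := fun h γ =>
    Piece.full_fold hc (PC_hW hL) (fun j => PC_tr hL (w j) (hL j)) hgen h γ
  have up : ∀ {u u' : G × (PC hL ⊤).V}, (PC hL ⊤).Ap c u u' → ∀ᶠ R : ℕ in atTop, ∀ h1 h2,
      (PC hL R).Vr c R (u.1, ⟨u.2.1, h1⟩) (u'.1, ⟨u'.2.1, h2⟩) := by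
    rintro u u' ⟨r, h⟩
    have := Piece.sub_up (rsub hL ⊤) (fun R => rsub hL R) ?_ ?_ c h
    · filter_upwards [this, eventually_ge_atTop r] with R h1 h2 a b
      exact Piece.Vr_mono h2 (h1 a b)
    · rintro (u | ⟨u, s⟩ | ⟨u, s, d, m, π⟩) h
      · exact Eventually.of_forall fun _ => h
      · exact Eventually.of_forall fun _ => h
      · filter_upwards [eventually_ge_atTop (π.length + 1)] with R hR
        exact ⟨h.1, by exact_mod_cast hR⟩
    · rintro (⟨u, x, s⟩ | ⟨u, s, d, π⟩ | ⟨u, s, d, m, π⟩) h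
      · exact Eventually.of_forall fun _ => h
      · filter_upwards [eventually_ge_atTop π.length] with R hR
        exact ⟨h.1, by exact_mod_cast hR⟩
      · filter_upwards [eventually_ge_atTop (π.length + 1)] with R hR
        exact ⟨h.1, by exact_mod_cast hR⟩
  have b1 : ∀ γ, (PC hL ⊤).Ap c (γ, ⟨.bl [] true, hL1⟩) (zz * γ, ⟨.bl [] true, hL1⟩) := by
    intro γ
    have := full (PC_tr hL [(none, true)] hL1) γ
    simp only [wv_cons, wv_nil, mul_one, ltr, if_true, gen] at this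
    exact Piece.Ap.foldT (P := PC hL ⊤) hc (e := ⟨.co [] true true [], hL1, le_top⟩)
      (e' := ⟨.co [] true false [], hL1, le_top⟩) rfl this
  have b2 : (PC hL ⊤).Ap c (ga false, ⟨.ex [] true false 1 [], hL1, le_top⟩)
      (1, (PC hL ⊤).root) := by
    have := full (GR.single (PC_step hL (u := []) hL1 true false [] 1)) (ga false)
    have e : ltr (some (lt (mv (ty []) 1).1), (mv (ty []) 1).2) * ga false = 1 := by
      change ltr (some false, false) * _ = _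
      simp [ltr, ga]
    rw [e] at this
    exact this
  have c1 : ∀ γ, ∀ᶠ R : ℕ in atTop, ∀ i < H, ∀ h1 h2, (PC hL R).Vr c R
      (zz ^ i * γ, ⟨.bl [] true, h1⟩) (zz ^ (i + 1) * γ, ⟨.bl [] true, h2⟩) := by
    intro γ
    have := (eventually_all_finset (Finset.range H) (l := atTop)).mpr
      fun i _ => up (b1 (zz ^ i * γ))
    filter_upwards [this] with R hR i hi h1 h2
    have := hR i (Finset.mem_range.mpr hi) h1 h2
    rw [pow_succ', mul_assoc]
    exact this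
  filter_upwards [c1 1, c1 (ga false), up b2, eventually_ge_atTop 1] with R h1 h2 h3 h4
  refine Piece.Sig_of (P := PC hL R) (e0 := ⟨.co [] true false [], hL1, by simp⟩)
    (e1 := ⟨.co [] true false [1], hL1, by exact_mod_cast h4⟩) rfl rfl rfl rfl ?_
    (fun i hi => h1 i hi _ _) (fun i hi => h2 i hi _ _) (h3 _ _)
  change ltr (some false, false) * 1 * 1 = _
  simp [ltr, ga]

end

/-- the combinatorial core, in the form used by the measure-theoretic argument -/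
theorem comb (Gl : Type) [Finite Gl] (g : Gl → G) :
    ∃ Kb : ℕ, ∀ H : ℕ, 2 ≤ H → ∃ Sg : ℕ → (G → (Gl → Prop) × Prop) → G → Prop,
      (∀ R, ∃ T : Set G, T.Finite ∧ ∀ c c' a p, (∀ t ∈ T, c (t * p) = c' (t * p * a)) →
        (Sg R c p ↔ Sg R c' (p * a))) ∧
      (∀ R c, (∀ γ, ¬ (c γ).2) → ¬ Sg R c 1) ∧
      (∀ c, (∀ γ, (c γ).2) → (∀ γ, EqvGen (fun γ γ' => ∃ j, (c γ).1 j ∧ γ' = g j * γ) 1 γ) →
        ∀ᶠ R in atTop, Sg R c 1) ∧
      ∀ R, ∃ D : Set G, D.Finite ∧ ∀ (Pi : Subgroup G) [Pi.Normal] [Pi.FiniteIndex],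
        (∀ d ∈ D, d ∈ Pi → d = 1) → ∀ c : G → (Gl → Prop) × Prop,
        (∀ a ∈ Pi, ∀ γ, c (γ * a) = c γ) →
        (∀ γ, EqvGen (fun γ γ' => ∃ j, (c γ).1 j ∧ γ' = g j * γ) 1 γ) →
        H * (Nat.card {x : G ⧸ Pi // Sg R c x.out ∧
            ¬ (Sg R c (ga false * x.out) ∧ Sg R c (ga true * x.out))} + Nat.card (G ⧸ Pi)) ≤
        H * (Nat.card {l : (G ⧸ Pi) × Gl // (c l.1.out).1 l.2} + 1) + Nat.card (G ⧸ Pi) * Kb := by
  choose w hw using fun j => exists_wv (g j)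
  obtain rfl : g = fun j => wv (w j) := funext fun j => (hw j).symm
  obtain ⟨L0, hL0⟩ := (Set.finite_range fun j => (w j).length).bddAbove
  let L := L0 + 1
  have hL : ∀ j, (w j).length ≤ L := fun j => Nat.le_succ_of_le (hL0 ⟨j, rfl⟩)
  have fV : ∀ R : ℕ, Finite (PC hL R).V := fun R => finV L R
  have fE : ∀ R : ℕ, Finite (PC hL R).E := fun R => finE L R
  have fT : ∀ R : ℕ, Finite (PC hL R).T := fun R => finT L R
  have fG : ∀ R : ℕ, Finite (PC hL R).Gl := fun R => ‹Finite Gl›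
  refine ⟨Nat.card {v : RV // v.blob ∧ v.ok L 0}, fun H hH => ⟨fun R c p => (PC hL R).Sig c R H p,
    fun R => Piece.Sig_tr (P := PC hL R) R H,
    fun R c hc => Piece.not_Sig_of_no_part (P := PC hL R) hc hH 1,
    fun c hc hgen => PC_Sig hL (Nat.succ_le_succ (Nat.zero_le _)) H c hc hgen, fun R => ?_⟩⟩
  obtain ⟨D, hD, h⟩ := thmA (PC hL R) (Piece.sub_ex _ (raw_ex L R))
    (Piece.sub_con _ (raw_con L R)) R H
  refine ⟨D, hD, fun Pi _ _ hPi c hper hgen => (h Pi hPi c hper hgen).trans ?_⟩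
  refine Nat.add_le_add_left (Nat.mul_le_mul_left _ ?_) _
  have : Finite {v : RV // v.blob ∧ v.ok L 0} := finB L
  refine Nat.card_le_card_of_injective (fun v => ⟨v.1.1, v.2, ?_⟩) ?_
  · obtain ⟨⟨u | ⟨u, s⟩ | ⟨u, s, d, m, π⟩, h1⟩, h2⟩ := v
    · exact h1
    · exact h1
    · exact absurd h2 id
  · intro a b h
    exact Subtype.ext (Subtype.ext (congrArg (fun z => z.1) h))

end Crest.Agent.R191
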