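import Crest.Agent.R191.Quo

/-! The counting inequality for periodic configurations. -/

namespace Crest.Agent.R191

open Relation

namespace Piece

variable (P : Piece)

def cs (t : P.T) (b : Bool) : P.E := if b then P.c1 t else P.c2 t

theorem cs_kind (t : P.T) (b : Bool) :
    P.kind (P.cs t b) = .inr (if b then st (P.tk t) else tt (P.tk t)) := by
  cases b <;> simp [cs, P.c1_kind, P.c2_kind]

theorem cs_tgt (t : P.T) (b : Bool) : P.tgt (P.cs t b) = P.tgt (P.c1 t) := by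
  cases b <;> simp [cs, P.tgt_c]

theorem cs_off (t : P.T) (b : Bool) : P.off (P.src (P.cs t (!b))) =
    SemidirectProduct.inr (FreeGroup.mk [(lt (P.tk t), b)]) * P.off (P.src (P.cs t b)) := by
  have h := (P.kind_h _ _ (P.th_kind t)).2
  rw [← ltr_some]
  cases b <;> simp [cs, P.src_c1, P.src_c2, h, ltr, ga]

end Piece

namespace Ctx

open Piece

variable {K : Ctx}

theorem q_forest [Finite K.P.T] (S : Set K.QT) (hS : S.Nonempty)
    (hsm : ∀ τ ∈ S, ¬ K.qbig (K.qt (K.q1 τ))) :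
    ∃ e, ¬ ((∃ i, K.qk e = .inr i ∧ K.qbig (K.qt e)) ∨
        ∃ τ, K.qbig (K.qt (K.q1 τ)) ∧ K.qh τ = e) ∧
      ∃ τ ∈ S, (K.q1 τ = e ∨ K.q2 τ = e) ∧ K.q1 τ ≠ K.q2 τ ∧ (∀ τ', K.qh τ' ≠ e) ∧
        ∀ τ' ∈ S, (K.q1 τ' = e ∨ K.q2 τ' = e) → τ' = τ := by
  classical
  obtain ⟨τ0, hτ0⟩ := hS
  obtain ⟨γ0, t0, rfl⟩ := exT τ0
  have hbl : ∀ t, K.P.blob (K.P.tgt (K.P.c1 t)) := fun t => K.P.kind_c _ _ (K.P.c1_kind t)
  have hsm' : ∀ γ t, K.mT (γ, t) ∈ S → ¬ K.P.Big K.c K.r K.H (γ, K.P.tgt (K.P.c1 t)) :=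
    fun γ t h hb => hsm _ h (qbig_mk.mpr ⟨hbl t, hb⟩)
  set u0 : G × K.P.V := (γ0, K.P.tgt (K.P.c1 t0)) with hu0
  have hfin : {u' | K.P.Cl K.c K.r u0 u'}.Finite := by
    have := hsm' _ _ hτ0
    rw [Big, not_le] at this
    exact Set.finite_of_encard_le_coe this.le
  let Z : Set (G × K.P.T × Bool) := {z | K.mT (z.1, z.2.1) ∈ S ∧
    K.P.Sim K.c K.r K.H u0 (z.1, K.P.tgt (K.P.c1 z.2.1))}
  have hZ : Z.Finite := by
    refine ((hfin.image Prod.fst).prod (Set.finite_univ (α := K.P.T × Bool))).subset ?_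
    rintro ⟨γ, t, b⟩ ⟨-, h⟩
    exact ⟨⟨_, h.cl (hbl _) (hsm' _ _ hτ0), rfl⟩, trivial⟩
  let f : G × K.P.T × Bool → ℕ := fun z =>
    (K.P.off (K.P.src (K.P.cs z.2.1 z.2.2)) * z.1).right.norm
  obtain ⟨⟨γ, t, b⟩, ⟨hz1, hz2⟩, hmax⟩ :=
    Set.exists_max_image Z f hZ ⟨(γ0, t0, true), hτ0, Sim.refl _⟩
  simp only at hz1 hz2
  have hdesc : ∀ γ' t' b', (γ', t', b') ∈ Z →
      K.P.off (K.P.src (K.P.cs t' b')) * γ' = K.P.off (K.P.src (K.P.cs t b)) * γ →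
      (FreeGroup.mk [(lt (K.P.tk t'), b')] *
        (K.P.off (K.P.src (K.P.cs t b)) * γ).right).norm ≤
        (K.P.off (K.P.src (K.P.cs t b)) * γ).right.norm := by
    intro γ' t' b' hz hp
    have := hmax (γ', t', !b') hz
    simp only [f] at this
    rw [cs_off, mul_assoc, hp] at this
    simpa using this
  have hq : ∀ γ t b, K.mE (γ, K.P.cs t b) = if b then K.q1 (K.mT (γ, t)) else K.q2 (K.mT (γ, t)) := by
    intro γ t b; cases b <;> simp [cs]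
  have hnh : ∀ τ', K.qh τ' ≠ K.mE (γ, K.P.cs t b) := by
    intro τ' h
    have := q_k0 τ'
    rw [h, qk_mk, cs_kind] at this
    simp at this
  refine ⟨K.mE (γ, K.P.cs t b), ?_, K.mT (γ, t), hz1, ?_, ?_, hnh, ?_⟩
  · rintro (⟨i, -, h⟩ | ⟨τ, -, h⟩)
    · rw [qt_mk, cs_tgt, qbig_mk] at h
      exact hsm' _ _ hz1 h.2
    · exact hnh _ h
  · rw [hq]; cases b <;> simp
  · intro h
    have := q_k1 (K.mT (γ, t))
    rw [h, q_k2] at this
    have key : ∀ k : Fin 4, tt k ≠ st k := by decide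
    exact key _ (by simpa using this)
  · intro τ' hτ' h
    obtain ⟨γ', t', rfl⟩ := exT τ'
    obtain ⟨b', hb'⟩ : ∃ b', K.mE (γ, K.P.cs t b) = K.mE (γ', K.P.cs t' b') := by
      rcases h with h | h
      · exact ⟨true, by rw [← h, hq]; simp⟩
      · exact ⟨false, by rw [← h, hq]; simp⟩
    obtain ⟨g, hg, hse⟩ := mE_exact hb'
    rw [← mT_mul γ' t' hg] at hτ' ⊢
    set γ'' := γ' * g
    obtain ⟨s1, s2, s3⟩ := hse
    simp only [cs_tgt] at s1 s2 s3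
    have hp := s2.pos_eq (K.P.src_nb _)
    simp only [pos] at hp
    have hm := norm_descent (hdesc γ t b ⟨hz1, hz2⟩ rfl) (hdesc γ'' t' b' ⟨hτ', hz2.trans s3⟩ hp.symm)
    simp only [Prod.mk.injEq] at hm
    obtain ⟨hl, rfl⟩ := hm
    rw [cs_kind, cs_kind] at s1
    have key : ∀ (k k' : Fin 4) (b : Bool), lt k = lt k' →
        (if b then st k else tt k) = (if b then st k' else tt k') → k = k' := by decide
    have hk : K.P.tk t = K.P.tk t' := key _ _ b hl (by simpa using s1)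
    have s4 : K.P.Sim K.c K.r K.H (γ, K.P.src (K.P.cs t (!b))) (γ'', K.P.src (K.P.cs t' (!b))) := by
      refine Sim.r2 ⟨by rw [cs_kind, cs_kind, hk], ?_⟩ (cs_kind _ _ _) ?_ ?_
      · rw [cs_off, cs_off, mul_assoc, mul_assoc, hp, hk]
      · rw [cs_tgt]; exact hsm' _ _ hz1
      · rw [cs_tgt, cs_tgt]; exact s3
    symm
    refine mT_rel ⟨hk, ⟨by simp only [K.P.th_kind, hk], ?_, ?_⟩, s3⟩
    · cases b
      · simpa [cs, K.P.src_c1] using s4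
      · simpa [cs, K.P.src_c1] using s2
    · cases b
      · simpa [cs, K.P.src_c2] using s2
      · simpa [cs, K.P.src_c2] using s4

theorem q_conn
    (hcon : ∀ ψ : K.P.V → ZMod 2, (∀ e, ψ (K.P.src e) = ψ (K.P.tgt e)) → ∀ v, ψ v = ψ K.P.root)
    (hgen : ∀ γ, EqvGen (fun γ γ' => ∃ j, (K.c γ).1 j ∧ γ' = K.P.off (K.P.ge j) * γ) 1 γ)
    (ψ : K.QV → ZMod 2) (hψ : ∀ e, ψ (K.qs e) = ψ (K.qt e)) (v : K.QV) :
    ψ v = ψ (K.mV (1, K.P.root)) := by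
  obtain ⟨γ, j, rfl⟩ := exV v
  have h1 : ∀ γ j, ψ (K.mV (γ, j)) = ψ (K.mV (γ, K.P.root)) := fun γ =>
    hcon (fun j => ψ (K.mV (γ, j))) fun e => hψ (K.mE (γ, e))
  have h2 : ∀ γ γ', EqvGen (fun γ γ' => ∃ j, (K.c γ).1 j ∧ γ' = K.P.off (K.P.ge j) * γ) γ γ' →
      ψ (K.mV (γ, K.P.root)) = ψ (K.mV (γ', K.P.root)) := by
    intro γ γ' h
    induction h with
    | rel a b h =>
      obtain ⟨j, h, rfl⟩ := h
      rw [← h1 a (K.P.ge j)]
      exact congrArg ψ (mV_rel (Sim.base (Vr_mono (Nat.zero_le _) (Or.inr ⟨j, h, rfl, rfl⟩))))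
    | refl => rfl
    | symm _ _ _ ih => exact ih.symm
    | trans _ _ _ _ _ ih1 ih2 => exact ih1.trans ih2
  rw [h1, h2 _ _ (hgen γ)]

theorem c_out (γ : G) : K.c (γ : G ⧸ K.Pi).out = K.c γ := by
  obtain ⟨g, hg, h⟩ := out_mem K.Pi γ
  rw [h, K.per g hg]

theorem q_upper [K.Pi.FiniteIndex] [Finite K.P.E] [Finite K.P.T] [Finite K.P.Gl]
    (hex : ∀ ω : K.P.E → ZMod 2, (∀ τ, ω (K.P.th τ) = ω (K.P.c1 τ) + ω (K.P.c2 τ)) →
      ∃ φ : K.P.V → ZMod 2, ∀ e, ω e = φ (K.P.src e) + φ (K.P.tgt e)) :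
    Nat.card K.QE + Nat.card (G ⧸ K.Pi) ≤
      Nat.card {l : (G ⧸ K.Pi) × K.P.Gl // (K.c l.1.out).1 l.2} + Nat.card K.QV +
        Nat.card K.QT := by
  have : Finite K.QV := perSetoid_finite
  have : Finite K.QE := perSetoid_finite
  have : Finite K.QT := perSetoid_finite
  refine upper_ineq K.P.root K.P.src K.P.tgt K.P.th K.P.c1 K.P.c2 hex
    (fun u => K.mV (u.1.out, u.2)) (fun u => K.mE (u.1.out, u.2)) perSetoid_surj perSetoid_surj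
    K.qh K.q1 K.q2 (fun x τ => ⟨K.mT (x.out, τ), rfl, rfl, rfl⟩)
    (fun l => (l.1.1, K.P.ge l.1.2))
    (fun l => (((K.P.off (K.P.ge l.1.2) * l.1.1.out : G) : G ⧸ K.Pi), K.P.root)) ?_
  intro φ hE hG u u' hu
  obtain ⟨g, hg, h⟩ := mV_exact hu
  have := Sim.fold (fun u => φ ((u.1 : G ⧸ K.Pi), u.2)) ?_ ?_ h
  · simpa [QuotientGroup.mk_mul_of_mem _ hg] using this
  · intro v v' hv
    refine hE ((v.1 : G ⧸ K.Pi), v.2) ((v'.1 : G ⧸ K.Pi), v'.2) ?_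
    exact (perSetoid_out _ _).trans ((mE_rel hv).trans (perSetoid_out _ _).symm)
  · intro γ j hj
    have := hG ⟨((γ : G ⧸ K.Pi), j), by simpa only [c_out] using hj⟩
    simp only at this ⊢
    rw [this]
    obtain ⟨g, hg, h⟩ := out_mem K.Pi γ
    rw [h, ← mul_assoc, QuotientGroup.mk_mul_of_mem _ hg]

theorem q_big [K.Pi.FiniteIndex] [K.Pi.Normal] (D : Set G)
    (hD : ∀ u u', Bk (K.P.Vr K.c K.r) K.H u u' → u'.1 * u.1⁻¹ ∈ D)
    (hPi : ∀ d ∈ D, ∀ d' ∈ D, d * d'⁻¹ ∈ K.Pi → d = d') :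
    K.H * Nat.card {v // K.qbig v} ≤ Nat.card (G ⧸ K.Pi) * Nat.card {v // K.P.blob v} := by
  classical
  have key : ∀ v : {v // K.qbig v}, ∃ f : Fin K.H → G × K.P.V, (∀ i, K.mV (f i) = v.1 ∧
      K.P.blob (f i).2) ∧ ∀ i j, ((f i).1 : G ⧸ K.Pi) = (f j).1 → (f i).2 = (f j).2 → i = j := by
    rintro ⟨v, u, rfl, h1, h2⟩
    rw [big_iff] at h2
    obtain ⟨s, hs, hs'⟩ := Set.exists_subset_encard_eq h2
    have hsf : s.Finite := Set.finite_of_encard_eq_coe hs'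
    have hc : Nat.card s = K.H := by
      rw [Nat.card_coe_set_eq, Set.ncard_def, hs']; simp
    have : Finite s := hsf
    let e : Fin K.H ≃ s := (Finite.equivFinOfCardEq hc).symm
    refine ⟨fun i => (e i).1, fun i => ?_, fun i j h h' => ?_⟩
    · have := Sim.of_cl (H := K.H) (hs (e i).2).eqv
      exact ⟨(mV_rel this).symm, this.inv.1.mp h1⟩
    · apply e.injective
      have a := hPi _ (hD _ _ (hs (e j).2)) _ (hD _ _ (hs (e i).2)) (by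
        have := QuotientGroup.eq.mp h
        have := (inferInstance : K.Pi.Normal).conj_mem _ this (e i).1.1
        simpa [mul_assoc] using this)
      exact Subtype.ext (Prod.ext (by simpa using a.symm) h')
  choose f hf hinj using key
  have : Nat.card (Fin K.H × {v // K.qbig v}) ≤ Nat.card ((G ⧸ K.Pi) × {v // K.P.blob v}) := by
    refine Nat.card_le_card_of_injective
      (fun z => (((f z.2 z.1).1 : G ⧸ K.Pi), ⟨(f z.2 z.1).2, (hf _ _).2⟩)) ?_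
    rintro ⟨i, v⟩ ⟨j, w⟩ h
    simp only [Prod.mk.injEq, Subtype.mk.injEq] at h
    have hvw : v = w := by
      apply Subtype.ext
      rw [← (hf v i).1, ← (hf w j).1]
      have h1 := QuotientGroup.eq.mp h.1
      have := mV_mul (f v i).1 (f v i).2 h1
      rw [← this, h.2]; simp
    subst hvw
    rw [hinj v i j h.1 h.2]
  simpa [Nat.card_prod] using this

theorem q_good : ∃ f : {x : G ⧸ K.Pi // K.P.Sig K.c K.r K.H x.out ∧
      ¬ (K.P.Sig K.c K.r K.H (ga false * x.out) ∧ K.P.Sig K.c K.r K.H (ga true * x.out))} → K.QV,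
    Function.Injective f ∧ ∀ x, K.MK (f x) 0 ∧ K.MK (f x) 1 ∧
      ¬ ∀ b, ∃ e, K.qk e = .inl b ∧ K.qs e = f x ∧ K.MK (K.qt e) 0 ∧ K.MK (K.qt e) 1 := by
  have key : ∀ x : {x : G ⧸ K.Pi // K.P.Sig K.c K.r K.H x.out ∧
      ¬ (K.P.Sig K.c K.r K.H (ga false * x.out) ∧ K.P.Sig K.c K.r K.H (ga true * x.out))},
      ∃ j, K.P.SL K.c K.r K.H x.1.out j := fun x => x.2.1
  choose j hj using key
  have nb : ∀ x, ¬ K.P.blob (j x) := by
    intro x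
    obtain ⟨γ, e, -, -, h⟩ := BM.of_mark (hj x).1
    exact fun hb => K.P.src_nb e (h.inv.1.mpr hb)
  refine ⟨fun x => K.mV ((K.P.off (j x))⁻¹ * x.1.out, j x), ?_, fun x => ⟨MK_mk.mpr
    (BM.of_mark (hj x).1), MK_mk.mpr (BM.of_mark (hj x).2), fun h => x.2.2 ?_⟩⟩
  · intro x y h
    obtain ⟨g, hg, h⟩ := mV_exact h
    have := h.pos_eq (nb x)
    simp only [pos, mul_inv_cancel_left, mul_assoc] at this
    apply Subtype.ext
    rw [← QuotientGroup.out_eq' x.1, ← QuotientGroup.out_eq' y.1, this,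
      QuotientGroup.mk_mul_of_mem _ hg]
  · have : ∀ b, K.P.Sig K.c K.r K.H (ga b * x.1.out) := by
      intro b
      obtain ⟨e, h1, h2, h3, h4⟩ := h b
      obtain ⟨γ, e, rfl⟩ := exE e
      obtain ⟨g, hg, h⟩ := mV_exact h2.symm
      rw [← mE_mul γ e hg] at h3 h4
      simp only [qt_mk, MK_mk, qk_mk] at h1 h3 h4
      have hp := h.pos_eq (nb x)
      simp only [pos, mul_inv_cancel_left] at hp
      have := SL.of_BM h3 h4
      simp only [pos, (K.P.kind_h e b h1).2, mul_assoc, ← hp] at this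
      exact ⟨_, this⟩
    exact ⟨this _, this _⟩

end Ctx

open Pointwise in
theorem thmA (P : Piece) [Finite P.V] [Finite P.E] [Finite P.T] [Finite P.Gl]
    (hex : ∀ ω : P.E → ZMod 2, (∀ τ, ω (P.th τ) = ω (P.c1 τ) + ω (P.c2 τ)) →
      ∃ φ : P.V → ZMod 2, ∀ e, ω e = φ (P.src e) + φ (P.tgt e))
    (hcon : ∀ ψ : P.V → ZMod 2, (∀ e, ψ (P.src e) = ψ (P.tgt e)) → ∀ v, ψ v = ψ P.root)
    (r H : ℕ) : ∃ D : Set G, D.Finite ∧ ∀ (Pi : Subgroup G) [Pi.Normal] [Pi.FiniteIndex],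
      (∀ d ∈ D, d ∈ Pi → d = 1) → ∀ c : P.Cfg, (∀ g ∈ Pi, ∀ γ, c (γ * g) = c γ) →
      (∀ γ, EqvGen (fun γ γ' => ∃ j, (c γ).1 j ∧ γ' = P.off (P.ge j) * γ) 1 γ) →
      H * (Nat.card {x : G ⧸ Pi // P.Sig c r H x.out ∧
          ¬ (P.Sig c r H (ga false * x.out) ∧ P.Sig c r H (ga true * x.out))} +
        Nat.card (G ⧸ Pi)) ≤
      H * (Nat.card {l : (G ⧸ Pi) × P.Gl // (c l.1.out).1 l.2} + 1) +
        Nat.card (G ⧸ Pi) * Nat.card {v // P.blob v} := by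
  obtain ⟨D, hD, hoff⟩ := Piece.Bk_offset (P := P) r H
  refine ⟨D * D⁻¹, hD.mul hD.inv, ?_⟩
  intro Pi _ _ hPi c hper hgen
  let K : Ctx := ⟨P, inferInstance, c, r, H, Pi, hper⟩
  have : K.Pi.FiniteIndex := ‹Pi.FiniteIndex›
  have : K.Pi.Normal := ‹Pi.Normal›
  have : Finite K.P.E := ‹Finite P.E›
  have : Finite K.P.T := ‹Finite P.T›
  have : Finite K.P.Gl := ‹Finite P.Gl›
  have : Finite K.QV := perSetoid_finite
  have : Finite K.QE := perSetoid_finite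
  have : Finite K.QT := perSetoid_finite
  have a1 := Ctx.q_upper (K := K) hex
  have a2 := Ctx.q_big (K := K) D (hoff c) (fun d hd d' hd' h =>
    mul_inv_eq_one.mp (hPi _ (Set.mul_mem_mul hd (Set.inv_mem_inv.mpr hd')) h))
  obtain ⟨f, hf, hf'⟩ := Ctx.q_good (K := K)
  have a3 := mark_ineq K.qs K.qt K.qk K.qh K.q1 K.q2 K.qtk Ctx.q_h1 Ctx.q_h2 Ctx.q_h3 Ctx.q_k0
    Ctx.q_k1 Ctx.q_k2 K.qbig (by
      intro e h
      obtain ⟨γ, e, rfl⟩ := Ctx.exE e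
      exact P.src_nb _ (Ctx.qbig_mk.mp h).1) K.MK (fun _ _ => Iff.rfl) Ctx.q_huT Ctx.q_huD
    (fun v => v ∈ Set.range f) (by rintro _ ⟨x, rfl⟩; exact hf' x)
  have a4 := rel_ineq K.qs K.qt K.qh K.q1 K.q2 Ctx.q_h1 Ctx.q_h2 Ctx.q_h3
    (fun v => K.qbig v ∨ ∃ i, K.MK v i)
    (fun e => (∃ i, K.qk e = .inr i ∧ K.qbig (K.qt e)) ∨
      ∃ τ, K.qbig (K.qt (K.q1 τ)) ∧ K.qh τ = e) (fun τ => K.qbig (K.qt (K.q1 τ))) (by
      rintro e (⟨i, h1, h2⟩ | ⟨τ, h, rfl⟩)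
      · exact ⟨Or.inr ⟨i, e, h1, h2, rfl⟩, Or.inl h2⟩
      · exact ⟨Or.inr ⟨_, K.q1 τ, Ctx.q_k1 τ, h, Ctx.q_h1 τ⟩,
          Or.inr ⟨_, K.q2 τ, Ctx.q_k2 τ, by rw [Ctx.q_h3]; exact h, Ctx.q_h2 τ⟩⟩)
    (K.mV (1, P.root)) (Ctx.q_conn hcon hgen) Ctx.q_forest
  have b1 := card_split (fun v => K.qbig v ∨ ∃ i, K.MK v i)
  have b2 := card_split (fun e => (∃ i, K.qk e = .inr i ∧ K.qbig (K.qt e)) ∨
      ∃ τ, K.qbig (K.qt (K.q1 τ)) ∧ K.qh τ = e)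
  have b3 := card_split (fun τ => K.qbig (K.qt (K.q1 τ)))
  have b4 : Nat.card {v // v ∈ Set.range f} = _ := Nat.card_range_of_injective hf
  rw [b4] at a3
  change K.H * (Nat.card {x : G ⧸ K.Pi // K.P.Sig K.c K.r K.H x.out ∧
      ¬ (K.P.Sig K.c K.r K.H (ga false * x.out) ∧ K.P.Sig K.c K.r K.H (ga true * x.out))} +
      Nat.card (G ⧸ K.Pi)) ≤ K.H * (Nat.card {l : (G ⧸ K.Pi) × K.P.Gl // (K.c l.1.out).1 l.2} + 1) +
      Nat.card (G ⧸ K.Pi) * Nat.card {v // K.P.blob v}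
  refine le_trans ?_ (Nat.add_le_add_left a2 _)
  rw [← mul_add]
  exact Nat.mul_le_mul_left _ (by omega)

end Crest.Agent.R191
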