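import Mathlib

/-! Free group lemmas: one-letter multiplication, finite models of actions (M. Hall type),
residual finiteness. -/

namespace Crest.Agent.R191

open FreeGroup

section Words
variable {X : Type*} [DecidableEq X]

theorem toWord_cons_cases (m : X × Bool) (a : FreeGroup X) :
    ((mk [m] * a).toWord = m :: a.toWord ∧ ∀ tl, a.toWord ≠ (m.1, !m.2) :: tl) ∨
      a.toWord = (m.1, !m.2) :: (mk [m] * a).toWord := by
  have h1 : (mk [m] * a).toWord = reduce (m :: a.toWord) := by
    conv_lhs => rw [← mk_toWord (x := a)]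
    rw [mul_mk, toWord_mk]; rfl
  rw [h1, reduce.cons, reduce_toWord]
  cases h : a.toWord with
  | nil => left; simp
  | cons hd tl =>
    by_cases hc : m.1 = hd.1 ∧ m.2 = !hd.2
    · right
      simp only [hc, and_self, if_true]
      obtain ⟨h1, h2⟩ := hc
      simp
    · left
      simp only [hc, if_false, true_and]
      intro tl' h'
      apply hc
      simp only [List.cons.injEq] at h'
      rw [h'.1]; simp

theorem norm_descent {m m' : X × Bool} {a : FreeGroup X}
    (h : (mk [m] * a).norm ≤ a.norm) (h' : (mk [m'] * a).norm ≤ a.norm) : m = m' := by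
  unfold FreeGroup.norm at h h'
  rcases toWord_cons_cases m a with ⟨h1, -⟩ | h1
  · rw [h1] at h; simp at h
  rcases toWord_cons_cases m' a with ⟨h2, -⟩ | h2
  · rw [h2] at h'; simp at h'
  rw [h1] at h2
  simp only [List.cons.injEq, Prod.mk.injEq] at h2
  ext
  · exact h2.1.1
  · simpa using h2.1.2

end Words

theorem mk_single_true {X : Type*} (x : X) : (mk [(x, true)] : FreeGroup X) = of x := rfl

theorem mk_single_false {X : Type*} (x : X) : (mk [(x, false)] : FreeGroup X) = (of x)⁻¹ := by
  rw [of, inv_mk]; rfl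

theorem mk_cons {X : Type*} (m : X × Bool) (L : List (X × Bool)) :
    (mk (m :: L) : FreeGroup X) = mk [m] * mk L := by
  rw [mul_mk]; rfl

/-- all points visited when the word `L` is applied (from the right end) to `p`. -/
def visits {X Ω : Type*} [MulAction (FreeGroup X) Ω] (p : Ω) : List (X × Bool) → Set Ω
  | [] => {p}
  | m :: L => insert (mk (m :: L) • p) (visits p L)

theorem visits_finite {X Ω : Type*} [MulAction (FreeGroup X) Ω] (p : Ω) (L : List (X × Bool)) :
    (visits p L).Finite := by
  induction L with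
  | nil => simp [visits]
  | cons m L ih => exact ih.insert _

theorem mem_visits_self {X Ω : Type*} [MulAction (FreeGroup X) Ω] (p : Ω) (L : List (X × Bool)) :
    mk L • p ∈ visits p L := by
  cases L with
  | nil => simp [visits, ← one_eq_mk]
  | cons m L => exact Set.mem_insert _ _

theorem base_mem_visits {X Ω : Type*} [MulAction (FreeGroup X) Ω] (p : Ω) (L : List (X × Bool)) :
    p ∈ visits p L := by
  induction L with
  | nil => simp [visits]
  | cons m L ih => exact Set.mem_insert_of_mem _ ih

/-- Finite model of an action of a free group on a finite window. -/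
theorem exists_finite_model {X Ω : Type*} [MulAction (FreeGroup X) Ω] (P : Set Ω)
    (hP : P.Finite) :
    ∃ f : FreeGroup X →* Equiv.Perm P, ∀ (L : List (X × Bool)) (p : P), visits p.1 L ⊆ P →
      ((f (mk L) p : P) : Ω) = mk L • p.1 := by
  classical
  have : Fintype P := hP.fintype
  have key : ∀ x : X, ∃ σ : Equiv.Perm P, ∀ p : P, (of x : FreeGroup X) • p.1 ∈ P →
      ((σ p : P) : Ω) = (of x : FreeGroup X) • p.1 := by
    intro x
    let e : {p : P // (of x : FreeGroup X) • p.1 ∈ P} ≃
        {p : P // (of x : FreeGroup X)⁻¹ • p.1 ∈ P} :=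
      { toFun := fun p => ⟨⟨(of x : FreeGroup X) • p.1.1, p.2⟩, by simpa using p.1.2⟩
        invFun := fun p => ⟨⟨(of x : FreeGroup X)⁻¹ • p.1.1, p.2⟩, by simpa using p.1.2⟩
        left_inv := fun p => by ext; simp
        right_inv := fun p => by ext; simp }
    refine ⟨e.extendSubtype, fun p hp => ?_⟩
    rw [Equiv.extendSubtype_apply_of_mem e p hp]
    rfl
  choose σ hσ using key
  refine ⟨FreeGroup.lift σ, ?_⟩
  intro L
  induction L with
  | nil => intro p _; simp [← one_eq_mk]
  | cons m L ih =>
    intro p hp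
    have h1 : visits p.1 L ⊆ P := fun q hq => hp (Set.mem_insert_of_mem _ hq)
    have h2 : mk (m :: L) • p.1 ∈ P := hp (Set.mem_insert _ _)
    have h3 := ih p h1
    rw [mk_cons, mul_smul] at h2
    rw [mk_cons, _root_.map_mul, mul_smul, Equiv.Perm.mul_apply]
    obtain ⟨x, s⟩ := m
    cases s
    · rw [mk_single_false] at h2 ⊢
      simp only [_root_.map_inv, lift_apply_of]
      have h4 := hσ x ⟨_, h2⟩ (by simpa [← h3] using ((FreeGroup.lift σ) (mk L) p).2)
      have h5 : σ x ⟨_, h2⟩ = (FreeGroup.lift σ) (mk L) p := by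
        ext; rw [h4, h3]; simp
      rw [← h5]; simp
    · rw [mk_single_true] at h2 ⊢
      simp only [lift_apply_of]
      rw [hσ x _ (by rw [h3]; exact h2), h3]

theorem free_rf {X : Type} (k : FreeGroup X) (hk : k ≠ 1) :
    ∃ (Φ : Type) (_ : Finite Φ) (f : FreeGroup X →* Equiv.Perm Φ) (p : Φ), f k p ≠ p := by
  classical
  obtain ⟨L, rfl⟩ : ∃ L, mk L = k := ⟨k.toWord, mk_toWord⟩
  obtain ⟨f, hf⟩ := exists_finite_model (X := X) (visits (1 : FreeGroup X) L) (visits_finite _ _)
  refine ⟨_, (visits_finite (1 : FreeGroup X) L).to_subtype, f, ⟨1, base_mem_visits _ _⟩, ?_⟩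
  intro h
  have := hf L ⟨1, base_mem_visits _ _⟩ subset_rfl
  rw [h] at this
  simp only [smul_eq_mul, mul_one] at this
  exact hk this.symm

/-- A relabelling injective on the letters of the reduced word keeps an element nontrivial. -/
theorem map_ne_one_of_injOn {X Y : Type*} [DecidableEq X] [DecidableEq Y] (p : X → Y)
    (k : FreeGroup X) (hk : k ≠ 1) (hp : Set.InjOn p {x | ∃ s, (x, s) ∈ k.toWord}) :
    FreeGroup.map p k ≠ 1 := by
  intro h
  have h1 : FreeGroup.map p k = mk (k.toWord.map fun x => (p x.1, x.2)) := by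
    conv_lhs => rw [← mk_toWord (x := k)]
    rw [map.mk]
  have hr : FreeGroup.IsReduced (k.toWord.map fun x => (p x.1, x.2)) := by
    have h0 : FreeGroup.IsReduced k.toWord := isReduced_toWord
    unfold FreeGroup.IsReduced at *
    rw [List.isChain_map]
    refine List.IsChain.imp_of_mem_imp ?_ h0
    intro a b ha hb hab hpab
    apply hab
    exact hp ⟨a.2, ha⟩ ⟨b.2, hb⟩ hpab
  rw [h1] at h
  have h2 := congrArg toWord h
  rw [toWord_mk, hr.reduce_eq, toWord_one] at h2
  apply hk
  rw [← toWord_eq_nil_iff]
  simpa using h2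

end Crest.Agent.R191
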