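import Crest.Agent.R191.Grp

/-! Normal form lemma: a connected partial action of the generators, in which the stable letter
commutes with `W`, has trivial monodromy along words trivial in `G`. -/

namespace Crest.Agent.R191

open FreeGroup SemidirectProduct

section
variable {Q : Type*} (St : Option Bool → Q → Q → Prop)

/-- signed step -/
def SS (l : Ltr) (q q' : Q) : Prop := if l.2 then St l.1 q q' else St l.1 q' q

inductive AR : Q → A → Q → Prop
  | refl (q : Q) : AR q 1 q
  | step {q q' q'' : Q} {a : A} (x s : Bool) :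
      AR q a q' → SS St (some x, s) q' q'' → AR q (mk [(x, s)] * a) q''

inductive GR : Q → G → Q → Prop
  | refl (q : Q) : GR q 1 q
  | step {q q' q'' : Q} {g : G} (l : Ltr) : GR q g q' → SS St l q' q'' → GR q (ltr l * g) q''

def AP : List (Bool × Bool) → Q → Q → Prop
  | [], q, q' => q = q'
  | m :: L, q, q'' => ∃ q', AP L q q' ∧ SS St (some m.1, m.2) q' q''

variable {St}

theorem SS_symm {o : Option Bool} {s : Bool} {q q' : Q} (h : SS St (o, s) q q') :
    SS St (o, !s) q' q := by
  cases s <;> simpa [SS] using h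

theorem ltr_not (o : Option Bool) (s : Bool) : ltr (o, !s) = (ltr (o, s))⁻¹ := by
  cases s <;> simp [ltr]

theorem GR.trans {q q' q'' : Q} {g g' : G} (h : GR St q g q') (h' : GR St q' g' q'') :
    GR St q (g' * g) q'' := by
  induction h' with
  | refl => simpa using h
  | step l _ hs ih => rw [mul_assoc]; exact GR.step l ih hs

theorem GR.single {q q' : Q} {l : Ltr} (h : SS St l q q') : GR St q (ltr l) q' := by
  simpa using GR.step l (GR.refl q) h

theorem GR.symm {q q' : Q} {g : G} (h : GR St q g q') : GR St q' g⁻¹ q := by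
  induction h with
  | refl => simpa using GR.refl _
  | step l _ hs ih =>
    obtain ⟨o, s⟩ := l
    rw [mul_inv_rev, ← ltr_not]
    exact (GR.single (SS_symm hs)).trans ih

theorem mk_not (x s : Bool) : (mk [(x, !s)] : A) = (mk [(x, s)])⁻¹ := by
  rw [inv_mk]; simp [invRev]

theorem AR.trans {q q' q'' : Q} {a a' : A} (h : AR St q a q') (h' : AR St q' a' q'') :
    AR St q (a' * a) q'' := by
  induction h' with
  | refl => simpa using h
  | step x s _ hs ih => rw [mul_assoc]; exact AR.step x s ih hs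

theorem AR.single {q q' : Q} {x s : Bool} (h : SS St (some x, s) q q') :
    AR St q (mk [(x, s)]) q' := by
  simpa using AR.step x s (AR.refl q) h

theorem AR.symm {q q' : Q} {a : A} (h : AR St q a q') : AR St q' a⁻¹ q := by
  induction h with
  | refl => simpa using AR.refl _
  | step x s _ hs ih =>
    rw [mul_inv_rev, ← mk_not]
    exact (AR.single (SS_symm hs)).trans ih

variable (hdet : ∀ o q q₁ q₂, St o q q₁ → St o q q₂ → q₁ = q₂)
  (hcodet : ∀ o q q₁ q₂, St o q₁ q → St o q₂ q → q₁ = q₂)
include hdet hcodet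

theorem SS_det {l : Ltr} {q q₁ q₂ : Q} (h₁ : SS St l q q₁) (h₂ : SS St l q q₂) : q₁ = q₂ := by
  obtain ⟨o, s⟩ := l
  cases s
  · exact hcodet o q q₁ q₂ (by simpa [SS] using h₁) (by simpa [SS] using h₂)
  · exact hdet o q q₁ q₂ (by simpa [SS] using h₁) (by simpa [SS] using h₂)

theorem AP_det {L : List (Bool × Bool)} {q q₁ q₂ : Q} (h₁ : AP St L q q₁) (h₂ : AP St L q q₂) :
    q₁ = q₂ := by
  induction L generalizing q₁ q₂ with
  | nil => exact h₁.symm.trans h₂
  | cons m L ih =>
    obtain ⟨p₁, h₁, h₁'⟩ := h₁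
    obtain ⟨p₂, h₂, h₂'⟩ := h₂
    obtain rfl := ih h₁ h₂
    exact SS_det hdet hcodet h₁' h₂'

theorem AR.toAP {q q' : Q} {a : A} (h : AR St q a q') : AP St a.toWord q q' := by
  induction h with
  | refl => rfl
  | @step q' q'' a x s _ hs ih =>
    rcases toWord_cons_cases (x, s) a with ⟨h1, -⟩ | h1
    · rw [h1]; exact ⟨q', ih, hs⟩
    · rw [h1] at ih
      obtain ⟨p, hp, hp'⟩ := ih
      have := SS_symm hp'
      simp only [Bool.not_not] at this
      rw [← SS_det hdet hcodet this hs]; exact hp

theorem AR.det {q q₁ q₂ : Q} {a : A} (h₁ : AR St q a q₁) (h₂ : AR St q a q₂) : q₁ = q₂ :=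
  AP_det hdet hcodet (h₁.toAP hdet hcodet) (h₂.toAP hdet hcodet)

end

section
variable {Q : Type*} (St : Option Bool → Q → Q → Prop) (q₀ : Q)

def NF : List ((A ⧸ W) × Bool) → A → Q → Prop
  | [], a, q => AR St q₀ a q
  | m :: L, a, q => ∃ (b : A) (q₁ q₂ : Q), ((b⁻¹ : A) : A ⧸ W) = m.1 ∧ NF L b q₁ ∧
      SS St (none, m.2) q₁ q₂ ∧ AR St q₂ (a * b⁻¹) q

variable {St q₀}

theorem NF.ar {L : List ((A ⧸ W) × Bool)} {a a' : A} {q q' : Q} (h : NF St q₀ L a q)
    (h' : AR St q a' q') : NF St q₀ L (a' * a) q' := by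
  cases L with
  | nil => exact AR.trans h h'
  | cons m L =>
    obtain ⟨b, q₁, q₂, h1, h2, h3, h4⟩ := h
    exact ⟨b, q₁, q₂, h1, h2, h3, by rw [mul_assoc]; exact h4.trans h'⟩

end

noncomputable def kk (g : G) : FreeGroup (A ⧸ W) := phi g.right⁻¹ g.left

theorem kk_inr_mul (a : A) (g : G) : kk (inr a * g) = kk g := by
  simp only [kk, mul_right, right_inr, mul_left, left_inr, one_mul, mul_inv_rev, _root_.map_mul,
    MulAut.mul_apply]
  congr 1
  rw [← MulAut.mul_apply, ← _root_.map_mul]; simp

theorem kk_z_mul (s : Bool) (g : G) :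
    kk (ltr (none, s) * g) = mk [(((g.right⁻¹ : A) : A ⧸ W), s)] * kk g := by
  rw [ltr_none]
  simp only [kk, mul_right, right_inl, one_mul, mul_left, left_inl, _root_.map_one,
    MulAut.one_apply, _root_.map_mul]
  congr 1
  rw [phi_apply, map.mk]
  simp only [List.map_cons, List.map_nil]
  congr 3
  change ((g.right⁻¹ * 1 : A) : A ⧸ W) = _
  simp

theorem reduction {Q : Type*} {St : Option Bool → Q → Q → Prop}
    (hdet : ∀ o q q₁ q₂, St o q q₁ → St o q q₂ → q₁ = q₂)
    (hcodet : ∀ o q q₁ q₂, St o q₁ q → St o q₂ q → q₁ = q₂)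
    (hcomm : ∀ q q', St none q q' → ∀ w ∈ W, ∃ p p', AR St q w p ∧ AR St q' w p' ∧ St none p p')
    {q q' : Q} (h : GR St q 1 q') : q = q' := by
  classical
  have hcomm' : ∀ s q q', SS St (none, s) q q' → ∀ w ∈ W,
      ∃ p p', AR St q w p ∧ AR St q' w p' ∧ SS St (none, s) p p' := by
    intro s q q' h w hw
    cases s
    · obtain ⟨p, p', h1, h2, h3⟩ := hcomm q' q (by simpa [SS] using h) w hw
      exact ⟨p', p, h2, h1, by simpa [SS] using h3⟩
    · obtain ⟨p, p', h1, h2, h3⟩ := hcomm q q' (by simpa [SS] using h) w hw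
      exact ⟨p, p', h1, h2, by simpa [SS] using h3⟩
  have key : ∀ {g : G} {q' : Q}, GR St q g q' → NF St q (kk g).toWord g.right q' := by
    intro g q' h
    induction h with
    | refl =>
      have : kk 1 = 1 := by simp [kk]
      rw [this]; exact AR.refl q
    | @step q' q'' g l _ hs ih =>
      obtain ⟨o, s⟩ := l
      cases o with
      | some x =>
        rw [ltr_some, kk_inr_mul]
        simp only [mul_right, right_inr]
        exact ih.ar (AR.single hs)
      | none =>
        have hr : (ltr (none, s) * g).right = g.right := by rw [ltr_none]; simp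
        rw [kk_z_mul, hr]
        rcases toWord_cons_cases (((g.right⁻¹ : A) : A ⧸ W), s) (kk g) with ⟨h1, -⟩ | h1
        · rw [h1]
          exact ⟨g.right, q', q'', rfl, ih, hs, by simpa using AR.refl q''⟩
        · rw [h1] at ih
          obtain ⟨b, q₁, q₂, e1, e2, e3, e4⟩ := ih
          have hw : g.right * b⁻¹ ∈ W := by
            have := QuotientGroup.eq.mp e1.symm
            simpa using this
          have e3' := SS_symm e3
          simp only [Bool.not_not] at e3'
          obtain ⟨p, p', f1, f2, f3⟩ := hcomm' s q₂ q₁ e3' _ hw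
          obtain rfl := AR.det hdet hcodet f1 e4
          obtain rfl := SS_det hdet hcodet f3 hs
          simpa using e2.ar f2
  have h1 := key h
  have : kk 1 = 1 := by simp [kk]
  rw [this] at h1
  exact AR.det hdet hcodet (AR.refl q) h1

end Crest.Agent.R191
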