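import Crest.Agent.R191.Count
import Crest.Agent.R191.Red

/-! Full participation: everything folds up; sub-pieces. -/

namespace Crest.Agent.R191

open Relation Filter

namespace Piece

variable (P : Piece)

/-- steps inside one piece -/
def St0 : Option Bool → P.V → P.V → Prop
  | some x, v, v' => ∃ e, P.kind e = .inl x ∧ P.src e = v ∧ P.tgt e = v'
  | none, v, v' => ∃ e e', P.kind e = .inr 0 ∧ P.kind e' = .inr 0 ∧ P.src e = v ∧ P.src e' = v' ∧
      P.tgt e = P.tgt e' ∧ P.off v' = zz * P.off v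

def Ap (c : P.Cfg) (u u' : G × P.V) : Prop := ∃ r, P.Vr c r u u'

variable {P} {c : P.Cfg}

theorem Ap.refl (u : G × P.V) : P.Ap c u u := ⟨0, Vr_refl _ _ _⟩
theorem Ap.symm {u u' : G × P.V} (h : P.Ap c u u') : P.Ap c u' u := by
  obtain ⟨r, h⟩ := h; exact ⟨r + 1, Or.inr (Or.inl h)⟩
theorem Ap.trans {u m u' : G × P.V} (h : P.Ap c u m) (h' : P.Ap c m u') : P.Ap c u u' := by
  obtain ⟨r, h⟩ := h
  obtain ⟨r', h'⟩ := h'
  exact ⟨max r r' + 1, Or.inr (Or.inr (Or.inl ⟨m, Vr_mono (le_max_left _ _) h,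
    Vr_mono (le_max_right _ _) h'⟩))⟩
theorem Ap.pos_eq {u u' : G × P.V} (h : P.Ap c u u') (hb : ¬ P.blob u.2) : P.pos u = P.pos u' := by
  obtain ⟨r, h⟩ := h; exact (Vr_inv h).2 hb
theorem Ap.foldT (hc : ∀ γ, (c γ).2) {γ γ' : G} {e e' : P.E} (hk : P.kind e = P.kind e')
    (h : P.Ap c (γ, P.src e) (γ', P.src e')) : P.Ap c (γ, P.tgt e) (γ', P.tgt e') := by
  have hp := h.pos_eq (P.src_nb _)
  obtain ⟨r, h⟩ := h
  exact ⟨r + 1, Or.inr (Or.inr (Or.inr ⟨e, e', ⟨hk, hp⟩, hc _, Or.inl ⟨rfl, rfl, h⟩⟩))⟩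
theorem Ap.foldS (hc : ∀ γ, (c γ).2) {γ γ' : G} {e e' : P.E} (hk : P.SK γ e γ' e')
    (h : P.Ap c (γ, P.tgt e) (γ', P.tgt e')) : P.Ap c (γ, P.src e) (γ', P.src e') := by
  obtain ⟨r, h⟩ := h
  exact ⟨r + 1, Or.inr (Or.inr (Or.inr ⟨e, e', hk, hc _, Or.inr ⟨rfl, rfl, h⟩⟩))⟩

variable (P c) in
def apS : Setoid (G × P.V) := ⟨P.Ap c, Ap.refl, Ap.symm, Ap.trans⟩

variable (P c) in
def St1 : Option Bool → Quotient (P.apS c) → Quotient (P.apS c) → Prop
  | some x, q, q' => ∃ γ e, P.kind e = .inl x ∧ q = Quotient.mk _ (γ, P.src e) ∧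
      q' = Quotient.mk _ (γ, P.tgt e)
  | none, q, q' => ∃ γ e γ' e', P.kind e = .inr 0 ∧ P.kind e' = .inr 0 ∧
      q = Quotient.mk _ (γ, P.src e) ∧ q' = Quotient.mk _ (γ', P.src e') ∧
      P.Ap c (γ, P.tgt e) (γ', P.tgt e') ∧ P.off (P.src e') * γ' = zz * (P.off (P.src e) * γ)

theorem St0.lift {o : Option Bool} {v v' : P.V} (h : P.St0 o v v') (γ : G) :
    P.St1 c o (Quotient.mk _ (γ, v)) (Quotient.mk _ (γ, v')) := by
  cases o with
  | some x =>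
    obtain ⟨e, h, rfl, rfl⟩ := h
    exact ⟨γ, e, h, rfl, rfl⟩
  | none =>
    obtain ⟨e, e', h1, h2, rfl, rfl, h3, h4⟩ := h
    exact ⟨γ, e, γ, e', h1, h2, rfl, rfl, by rw [h3]; exact Ap.refl _, by rw [h4, mul_assoc]⟩

theorem SS_lift {l : Ltr} {v v' : P.V} (h : SS P.St0 l v v') (γ : G) :
    SS (P.St1 c) l (Quotient.mk _ (γ, v)) (Quotient.mk _ (γ, v')) := by
  obtain ⟨o, s⟩ := l
  cases s
  · simp only [SS, Bool.false_eq_true, if_false] at h ⊢; exact h.lift γ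
  · simp only [SS, if_true] at h ⊢; exact h.lift γ

theorem AR_lift {a : A} {v v' : P.V} (h : AR P.St0 v a v') (γ : G) :
    AR (P.St1 c) (Quotient.mk _ (γ, v)) a (Quotient.mk _ (γ, v')) := by
  induction h with
  | refl => exact AR.refl _
  | step x s _ hs ih => exact AR.step x s ih (SS_lift hs γ)

theorem GR_lift {a : G} {v v' : P.V} (h : GR P.St0 v a v') (γ : G) :
    GR (P.St1 c) (Quotient.mk _ (γ, v)) a (Quotient.mk _ (γ, v')) := by
  induction h with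
  | refl => exact GR.refl _
  | step l _ hs ih => exact GR.step l ih (SS_lift hs γ)

theorem AR_off {a : A} {v v' : P.V} (h : AR P.St0 v a v') :
    P.off v' = SemidirectProduct.inr a * P.off v := by
  induction h with
  | refl => simp
  | step x s _ hs ih =>
    rw [map_mul, mul_assoc, ← ih, ← ltr_some]
    cases s
    · simp only [SS, Bool.false_eq_true, if_false] at hs
      obtain ⟨e, h, rfl, rfl⟩ := hs
      simp [(P.kind_h e x h).2, ltr, ga]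
    · simp only [SS, if_true] at hs
      obtain ⟨e, h, rfl, rfl⟩ := hs
      simp [(P.kind_h e x h).2, ltr, ga]

theorem full_fold (hc : ∀ γ, (c γ).2)
    (hW : ∀ e, P.kind e = .inr 0 → ∀ w ∈ W, ∃ e', P.kind e' = .inr 0 ∧ P.tgt e' = P.tgt e ∧
      AR P.St0 (P.src e) w (P.src e'))
    (hge : ∀ j, GR P.St0 P.root (P.off (P.ge j)) (P.ge j))
    (hgen : ∀ γ, EqvGen (fun γ γ' => ∃ j, (c γ).1 j ∧ γ' = P.off (P.ge j) * γ) 1 γ)
    {g : G} {v : P.V} (h : GR P.St0 P.root g v) (γ : G) : P.Ap c (γ, v) (g * γ, P.root) := by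
  have ex : ∀ {u u' : G × P.V}, Quotient.mk (P.apS c) u = Quotient.mk _ u' → P.Ap c u u' :=
    fun h => Quotient.exact h
  have so : ∀ {u u' : G × P.V}, P.Ap c u u' → Quotient.mk (P.apS c) u = Quotient.mk _ u' :=
    fun h => Quotient.sound h
  have h1 : ∀ γ γ', EqvGen (fun γ γ' => ∃ j, (c γ).1 j ∧ γ' = P.off (P.ge j) * γ) γ γ' →
      GR (P.St1 c) (Quotient.mk _ (γ, P.root)) (γ' * γ⁻¹) (Quotient.mk _ (γ', P.root)) := by
    intro γ γ' h
    induction h with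
    | rel a b h =>
      obtain ⟨j, h, rfl⟩ := h
      rw [← so (u := (a, P.ge j)) ⟨0, Or.inr ⟨j, h, rfl, rfl⟩⟩]
      simpa using GR_lift (hge j) a
    | refl => simpa using GR.refl _
    | symm _ _ _ ih => simpa using ih.symm
    | trans _ _ _ _ _ ih1 ih2 => simpa [mul_assoc] using ih1.trans ih2
  have h2 := h1 _ _ (EqvGen.trans _ _ _ (EqvGen.symm _ _ (hgen γ)) (hgen (g * γ)))
  have h3 := (GR_lift (c := c) h γ).symm.trans h2
  simp only [mul_inv_cancel_right, mul_inv_cancel] at h3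
  refine ex (reduction ?_ ?_ ?_ h3)
  · rintro (_ | x) q q₁ q₂
    · rintro ⟨γ1, e1, γ1', e1', a1, a2, rfl, rfl, a3, a4⟩ ⟨γ2, e2, γ2', e2', b1, b2, b0, rfl, b3, b4⟩
      have k := ex b0
      have kp := k.pos_eq (P.src_nb _)
      simp only [pos] at kp
      exact so (Ap.foldS hc ⟨a2.trans b2.symm, by rw [a4, b4, kp]⟩
        (a3.symm.trans ((Ap.foldT hc (a1.trans b1.symm) k).trans b3)))
    · rintro ⟨γ1, e1, a1, rfl, rfl⟩ ⟨γ2, e2, b1, b0, rfl⟩
      exact so (Ap.foldT hc (a1.trans b1.symm) (ex b0))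
  · rintro (_ | x) q q₁ q₂
    · rintro ⟨γ1, e1, γ1', e1', a1, a2, rfl, rfl, a3, a4⟩ ⟨γ2, e2, γ2', e2', b1, b2, rfl, b0, b3, b4⟩
      have k := ex b0
      have kp := k.pos_eq (P.src_nb _)
      simp only [pos] at kp
      exact so (Ap.foldS hc ⟨a1.trans b1.symm, mul_left_cancel (a := zz) (by rw [← a4, ← b4, kp])⟩
        (a3.trans ((Ap.foldT hc (a2.trans b2.symm) k).trans b3.symm)))
    · rintro ⟨γ1, e1, a1, rfl, rfl⟩ ⟨γ2, e2, b1, rfl, b0⟩
      have k := ex b0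
      have kp := k.pos_eq (P.kind_h _ _ a1).1
      simp only [pos, (P.kind_h _ _ a1).2, (P.kind_h _ _ b1).2, mul_assoc, mul_right_inj] at kp
      exact so (Ap.foldS hc ⟨a1.trans b1.symm, kp⟩ k)
  · rintro _ _ ⟨γ1, e1, γ1', e1', a1, a2, rfl, rfl, a3, a4⟩ w hw
    obtain ⟨f, f1, f2, f3⟩ := hW e1 a1 w hw
    obtain ⟨f', f1', f2', f3'⟩ := hW e1' a2 w hw
    refine ⟨_, _, AR_lift f3 γ1, AR_lift f3' γ1', γ1, f, γ1', f', f1, f1', rfl, rfl,
      by rw [f2, f2']; exact a3, ?_⟩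
    rw [AR_off f3, AR_off f3', mul_assoc, a4, ← mul_assoc, inr_mul_zz w hw]
    simp only [mul_assoc]

theorem Sig_of {r H : ℕ} {e0 e1 : P.E} (k0 : P.kind e0 = .inr 0) (k1 : P.kind e1 = .inr 1)
    (s0 : P.src e0 = P.root) (t1 : P.tgt e1 = P.tgt e0) (o1 : P.off (P.src e1) = (ga false)⁻¹)
    (h1 : ∀ i < H, P.Vr c r (zz ^ i * 1, P.tgt e0) (zz ^ (i + 1) * 1, P.tgt e0))
    (h2 : ∀ i < H, P.Vr c r (zz ^ i * ga false, P.tgt e0) (zz ^ (i + 1) * ga false, P.tgt e0))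
    (h3 : P.Vr c r (ga false, P.src e1) (1, P.root)) : P.Sig c r H 1 := by
  have key : ∀ γ, (∀ i < H, P.Vr c r (zz ^ i * γ, P.tgt e0) (zz ^ (i + 1) * γ, P.tgt e0)) →
      P.Big c r H (γ, P.tgt e0) := by
    intro γ h
    have a : ∀ i ≤ H, P.Cl c r (γ, P.tgt e0) (zz ^ i * γ, P.tgt e0) := by
      intro i hi
      induction i with
      | zero => rw [pow_zero, one_mul]; exact EqvGen.refl _
      | succ i ih => exact EqvGen.trans _ _ _ (ih (by omega)) (EqvGen.rel _ _ (h i (by omega)))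
    have inj : Function.Injective fun i : ℕ => (zz ^ i * γ, P.tgt e0) := by
      intro i j h
      simp only [Prod.mk.injEq, mul_left_inj, and_true] at h
      exact zz_pow_injective h
    have : (fun i : ℕ => (zz ^ i * γ, P.tgt e0)) '' (Finset.range H : Set ℕ) ⊆
        {u' | P.Cl c r (γ, P.tgt e0) u'} := by
      rintro _ ⟨i, hi, rfl⟩
      exact a i (by simp at hi; omega)
    have := Set.encard_le_encard this
    rw [inj.encard_image, Set.encard_coe_eq_coe_finsetCard, Finset.card_range] at this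
    exact this
  refine ⟨P.root, ⟨e0, k0, ?_, s0 ▸ EqvGen.refl _⟩, ⟨e1, k1, ?_, EqvGen.rel _ _
    ⟨P.src_nb _, P.root_nb, Or.inl ?_⟩⟩⟩
  · simpa [s0, P.off_root] using key 1 h1
  · simpa [t1, o1] using key _ h2
  · simpa [o1, P.off_root] using h3

variable (P) in
structure Sub where
  sV : P.V → Prop
  sE : P.E → Prop
  sT : P.T → Prop
  src : ∀ e, sE e → sV (P.src e)
  tgt : ∀ e, sE e → sV (P.tgt e)
  th : ∀ t, sT t → sE (P.th t)
  c1 : ∀ t, sT t → sE (P.c1 t)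
  c2 : ∀ t, sT t → sE (P.c2 t)
  root : sV P.root
  ge : ∀ j, sV (P.ge j)

def sub (S : P.Sub) : Piece where
  V := {v // S.sV v}
  E := {e // S.sE e}
  T := {t // S.sT t}
  Gl := P.Gl
  root := ⟨P.root, S.root⟩
  blob v := P.blob v.1
  off v := P.off v.1
  src e := ⟨P.src e.1, S.src _ e.2⟩
  tgt e := ⟨P.tgt e.1, S.tgt _ e.2⟩
  kind e := P.kind e.1
  src_nb e := P.src_nb e.1
  kind_h e := P.kind_h e.1
  kind_c e := P.kind_c e.1
  tk t := P.tk t.1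
  th t := ⟨P.th t.1, S.th _ t.2⟩
  c1 t := ⟨P.c1 t.1, S.c1 _ t.2⟩
  c2 t := ⟨P.c2 t.1, S.c2 _ t.2⟩
  th_kind t := P.th_kind t.1
  c1_kind t := P.c1_kind t.1
  c2_kind t := P.c2_kind t.1
  src_c1 t := Subtype.ext (P.src_c1 t.1)
  src_c2 t := Subtype.ext (P.src_c2 t.1)
  tgt_c t := Subtype.ext (P.tgt_c t.1)
  ge j := ⟨P.ge j, S.ge j⟩
  ge_nb j := P.ge_nb j
  root_nb := P.root_nb
  off_root := P.off_root

theorem sub_con (S : P.Sub)
    (h : ∀ ψ : P.V → ZMod 2, (∀ e, S.sE e → ψ (P.src e) = ψ (P.tgt e)) →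
      ∀ v, S.sV v → ψ v = ψ P.root) (ψ : (sub S).V → ZMod 2)
    (hψ : ∀ e, ψ ((sub S).src e) = ψ ((sub S).tgt e)) (v : (sub S).V) : ψ v = ψ (sub S).root := by
  classical
  have := h (fun v => if hv : S.sV v then ψ ⟨v, hv⟩ else 0) (fun e he => by
    simp only [S.src e he, S.tgt e he, dif_pos]; exact hψ ⟨e, he⟩) v.1 v.2
  simp only [v.2, S.root, dif_pos] at this
  exact this

theorem sub_ex (S : P.Sub)
    (h : ∀ ω : P.E → ZMod 2, (∀ t, S.sT t → ω (P.th t) = ω (P.c1 t) + ω (P.c2 t)) →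
      ∃ φ : P.V → ZMod 2, ∀ e, S.sE e → ω e = φ (P.src e) + φ (P.tgt e))
    (ω : (sub S).E → ZMod 2)
    (hω : ∀ t, ω ((sub S).th t) = ω ((sub S).c1 t) + ω ((sub S).c2 t)) :
    ∃ φ : (sub S).V → ZMod 2, ∀ e, ω e = φ ((sub S).src e) + φ ((sub S).tgt e) := by
  classical
  obtain ⟨φ, hφ⟩ := h (fun e => if he : S.sE e then ω ⟨e, he⟩ else 0) (fun t ht => by
    simp only [S.th t ht, S.c1 t ht, S.c2 t ht, dif_pos]; exact hω ⟨t, ht⟩)
  refine ⟨fun v => φ v.1, fun e => ?_⟩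
  have := hφ e.1 e.2
  simp only [e.2, dif_pos] at this
  exact this

theorem sub_up (S : P.Sub) (S' : ℕ → P.Sub) (hV : ∀ v, S.sV v → ∀ᶠ R in atTop, (S' R).sV v)
    (hE : ∀ e, S.sE e → ∀ᶠ R in atTop, (S' R).sE e) (c : P.Cfg) {r : ℕ}
    {u u' : G × (sub S).V} (h : (sub S).Vr c r u u') :
    ∀ᶠ R in atTop, ∀ h1 h2, (sub (S' R)).Vr c r (u.1, ⟨u.2.1, h1⟩) (u'.1, ⟨u'.2.1, h2⟩) := by
  induction r generalizing u u' with
  | zero =>
    rcases h with rfl | ⟨j, a1, a2, rfl⟩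
    · exact Eventually.of_forall fun R h1 h2 => Or.inl rfl
    · exact Eventually.of_forall fun R h1 h2 =>
        Or.inr ⟨j, a1, Subtype.ext (by have := congrArg Subtype.val a2; exact this), rfl⟩
  | succ r ih =>
    rcases h with h | h | ⟨m, a1, a2⟩ | ⟨e, e', a1, a2, ⟨a3, a4, a5⟩ | ⟨a3, a4, a5⟩⟩
    · exact (ih h).mono fun R hR h1 h2 => Or.inl (hR h1 h2)
    · exact (ih h).mono fun R hR h1 h2 => Or.inr (Or.inl (hR h2 h1))
    · filter_upwards [ih a1, ih a2, hV _ m.2.2] with R b1 b2 b3 h1 h2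
      exact Or.inr (Or.inr (Or.inl ⟨(m.1, ⟨m.2.1, b3⟩), b1 _ _, b2 _ _⟩))
    · filter_upwards [ih a5, hE _ e.2, hE _ e'.2] with R b1 b2 b3 h1 h2
      exact Or.inr (Or.inr (Or.inr ⟨⟨e.1, b2⟩, ⟨e'.1, b3⟩, a1, a2, Or.inl
        ⟨Subtype.ext (by have := congrArg Subtype.val a3; exact this),
          Subtype.ext (by have := congrArg Subtype.val a4; exact this), b1 _ _⟩⟩))
    · filter_upwards [ih a5, hE _ e.2, hE _ e'.2] with R b1 b2 b3 h1 h2
      exact Or.inr (Or.inr (Or.inr ⟨⟨e.1, b2⟩, ⟨e'.1, b3⟩, a1, a2, Or.inr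
        ⟨Subtype.ext (by have := congrArg Subtype.val a3; exact this),
          Subtype.ext (by have := congrArg Subtype.val a4; exact this), b1 _ _⟩⟩))

end Piece

end Crest.Agent.R191
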