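import Crest.Agent.R191.Grp

/-! Abstract pieces, the staged folding relation and its locality. -/

namespace Crest.Agent.R191

open Relation

def lt : Fin 4 → Bool := ![false, false, true, true]
def st : Fin 4 → Fin 3 := ![1, 2, 2, 0]
def tt : Fin 4 → Fin 3 := ![0, 1, 0, 1]

def ga (x : Bool) : G := gen (some x)

structure Piece where
  V : Type
  E : Type
  T : Type
  Gl : Type
  root : V
  blob : V → Prop
  off : V → G
  src : E → V
  tgt : E → V
  kind : E → Bool ⊕ Fin 3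
  src_nb : ∀ e, ¬ blob (src e)
  kind_h : ∀ e x, kind e = .inl x → ¬ blob (tgt e) ∧ off (tgt e) = ga x * off (src e)
  kind_c : ∀ e τ, kind e = .inr τ → blob (tgt e)
  tk : T → Fin 4
  th : T → E
  c1 : T → E
  c2 : T → E
  th_kind : ∀ t, kind (th t) = .inl (lt (tk t))
  c1_kind : ∀ t, kind (c1 t) = .inr (st (tk t))
  c2_kind : ∀ t, kind (c2 t) = .inr (tt (tk t))
  src_c1 : ∀ t, src (c1 t) = src (th t)
  src_c2 : ∀ t, src (c2 t) = tgt (th t)
  tgt_c : ∀ t, tgt (c2 t) = tgt (c1 t)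
  ge : Gl → V
  ge_nb : ∀ j, ¬ blob (ge j)
  root_nb : ¬ blob root
  off_root : off root = 1

/-- generic `k`-step balls of a relation -/
def Bk {X : Type*} (R : X → X → Prop) : ℕ → X → X → Prop
  | 0, u, u' => u = u'
  | k + 1, u, u' => ∃ m, Bk R k u m ∧ (m = u' ∨ R m u' ∨ R u' m)

theorem Bk.eqv {X : Type*} {R : X → X → Prop} {k : ℕ} {u u' : X} (h : Bk R k u u') :
    EqvGen R u u' := by
  induction k generalizing u' with
  | zero => obtain rfl := h; exact EqvGen.refl _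
  | succ k ih =>
    obtain ⟨m, h1, rfl | h2 | h2⟩ := h
    · exact ih h1
    · exact (ih h1).trans _ _ _ (EqvGen.rel _ _ h2)
    · exact (ih h1).trans _ _ _ (EqvGen.rel _ _ h2).symm

theorem Bk.self {X : Type*} (R : X → X → Prop) (k : ℕ) (u : X) : Bk R k u u := by
  induction k with
  | zero => rfl
  | succ k ih => exact ⟨u, ih, Or.inl rfl⟩

theorem Bk_dichotomy {X : Type*} (R : X → X → Prop) (u : X) (k : ℕ) :
    (∀ u', EqvGen R u u' → Bk R k u u') ∨ ((k + 1 : ℕ) : ℕ∞) ≤ {u' | Bk R k u u'}.encard := by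
  induction k with
  | zero =>
    right
    have : {u' | Bk R 0 u u'} = {u} := by ext; simp [Bk, eq_comm]
    simp [this]
  | succ k ih =>
    rcases ih with ih | ih
    · left; intro u' h; exact ⟨u', ih u' h, Or.inl rfl⟩
    by_cases hc : ∀ u', Bk R (k + 1) u u' → Bk R k u u'
    · left
      have key : ∀ a b, EqvGen R a b → (Bk R k u a ↔ Bk R k u b) := by
        intro a b h
        induction h with
        | rel a b h =>
          exact ⟨fun ha => hc _ ⟨a, ha, Or.inr (Or.inl h)⟩, fun hb => hc _ ⟨b, hb, Or.inr (Or.inr h)⟩⟩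
        | refl => rfl
        | symm _ _ _ ih => exact ih.symm
        | trans _ _ _ _ _ ih1 ih2 => exact ih1.trans ih2
      intro u' h
      exact ⟨u', (key _ _ h).mp (Bk.self R k u), Or.inl rfl⟩
    · right
      push Not at hc
      obtain ⟨u', h1, h2⟩ := hc
      have hsub : insert u' {u' | Bk R k u u'} ⊆ {u' | Bk R (k + 1) u u'} := by
        rintro x (rfl | hx)
        · exact h1
        · exact ⟨x, hx, Or.inl rfl⟩
      have := Set.encard_le_encard hsub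
      rw [Set.encard_insert_of_notMem (by simpa using h2)] at this
      refine le_trans ?_ this
      push_cast at ih ⊢
      gcongr

namespace Piece

variable (P : Piece)

abbrev Cfg := G → (P.Gl → Prop) × Prop

def pos (u : G × P.V) : G := P.off u.2 * u.1

def rt (g : G) (u : G × P.V) : G × P.V := (u.1 * g, u.2)

/-- same kind and same position -/
def SK (γ : G) (e : P.E) (γ' : G) (e' : P.E) : Prop :=
  P.kind e = P.kind e' ∧ P.off (P.src e) * γ = P.off (P.src e') * γ'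

def Vr (c : P.Cfg) : ℕ → G × P.V → G × P.V → Prop
  | 0, u, u' => u = u' ∨ ∃ j, (c u.1).1 j ∧ u.2 = P.ge j ∧ u' = (P.off (P.ge j) * u.1, P.root)
  | r + 1, u, u' => Vr c r u u' ∨ Vr c r u' u ∨ (∃ m, Vr c r u m ∧ Vr c r m u') ∨
      ∃ e e', P.SK u.1 e u'.1 e' ∧ (c (P.off (P.src e) * u.1)).2 ∧
        ((u.2 = P.tgt e ∧ u'.2 = P.tgt e' ∧ Vr c r (u.1, P.src e) (u'.1, P.src e')) ∨
         (u.2 = P.src e ∧ u'.2 = P.src e' ∧ Vr c r (u.1, P.tgt e) (u'.1, P.tgt e')))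

variable {P}

theorem Vr_mono {c : P.Cfg} {r r' : ℕ} (h : r ≤ r') {u u' : G × P.V} (hu : P.Vr c r u u') :
    P.Vr c r' u u' := by
  induction h with
  | refl => exact hu
  | step _ ih => exact Or.inl ih

theorem Vr_refl (c : P.Cfg) (r : ℕ) (u : G × P.V) : P.Vr c r u u :=
  Vr_mono (Nat.zero_le r) (Or.inl rfl)

theorem SK_tgt {γ γ' : G} {e e' : P.E} (h : P.SK γ e γ' e') :
    (P.blob (P.tgt e) ↔ P.blob (P.tgt e')) ∧
      (¬ P.blob (P.tgt e) → P.pos (γ, P.tgt e) = P.pos (γ', P.tgt e')) := by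
  rcases hk : P.kind e with x | τ
  · have h1 := P.kind_h e x hk
    have h2 := P.kind_h e' x (h.1 ▸ hk)
    refine ⟨by simp [h1.1, h2.1], fun _ => ?_⟩
    simp only [pos, h1.2, h2.2, mul_assoc, h.2]
  · have h1 := P.kind_c e τ hk
    have h2 := P.kind_c e' τ (h.1 ▸ hk)
    exact ⟨by simp [h1, h2], fun h => absurd h1 h⟩

theorem Vr_inv {c : P.Cfg} {r : ℕ} {u u' : G × P.V} (h : P.Vr c r u u') :
    (P.blob u.2 ↔ P.blob u'.2) ∧ (¬ P.blob u.2 → P.pos u = P.pos u') := by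
  induction r generalizing u u' with
  | zero =>
    rcases h with rfl | ⟨j, -, h2, rfl⟩
    · simp
    · simp [h2, P.ge_nb, P.root_nb, pos, P.off_root]
  | succ r ih =>
    rcases h with h | h | ⟨m, h1, h2⟩ | ⟨e, e', h1, -, ⟨h2, h3, -⟩ | ⟨h2, h3, -⟩⟩
    · exact ih h
    · exact ⟨(ih h).1.symm, fun hb => ((ih h).2 (fun h' => hb ((ih h).1.mp h'))).symm⟩
    · exact ⟨(ih h1).1.trans (ih h2).1,
        fun hb => ((ih h1).2 hb).trans ((ih h2).2 (fun h' => hb ((ih h1).1.mpr h')))⟩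
    · obtain ⟨γ, v⟩ := u
      obtain ⟨γ', v'⟩ := u'
      simp only at h1 h2 h3
      subst h2 h3
      exact SK_tgt h1
    · obtain ⟨γ, v⟩ := u
      obtain ⟨γ', v'⟩ := u'
      simp only at h1 h2 h3
      subst h2 h3
      exact ⟨by simp [P.src_nb], fun _ => h1.2⟩

/-- agreement of two configurations on a window, up to a right translation -/
def Ag (T : Set G) (γ g : G) (c c' : P.Cfg) : Prop := ∀ t ∈ T, c (t * γ) = c' (t * γ * g)

theorem Ag.mono {T T' : Set G} (h : T' ⊆ T) {γ g : G} {c c' : P.Cfg} (ha : Ag T γ g c c') :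
    Ag T' γ g c c' := fun t ht => ha t (h ht)

theorem Ag.symm {T : Set G} {γ g : G} {c c' : P.Cfg} (ha : Ag T γ g c c') :
    Ag T (γ * g) g⁻¹ c' c := by
  intro t ht
  have := ha t ht
  simp only [mul_assoc] at this ⊢
  simp [this]

open Pointwise in
theorem Ag.move {T D : Set G} {γ γ' g : G} {c c' : P.Cfg} (ha : Ag (T * D) γ g c c')
    (hd : γ' * γ⁻¹ ∈ D) : Ag T γ' g c c' := by
  intro t ht
  have := ha _ (Set.mul_mem_mul ht hd)
  simpa [mul_assoc] using this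

variable [Finite P.V]

open Pointwise in
theorem Vr_offset (r : ℕ) : ∃ D : Set G, D.Finite ∧ ∀ (c : P.Cfg) (u u' : G × P.V),
    P.Vr c r u u' → u'.1 * u.1⁻¹ ∈ D := by
  induction r with
  | zero =>
    refine ⟨insert 1 (Set.range P.off), (Set.finite_range _).insert _, ?_⟩
    rintro c u u' (rfl | ⟨j, -, -, rfl⟩)
    · simp
    · simp
  | succ r ih =>
    obtain ⟨D, hD, h⟩ := ih
    refine ⟨D ∪ D⁻¹ ∪ D * D ∪ (Set.range P.off)⁻¹ * Set.range P.off,
      ((hD.union hD.inv).union (hD.mul hD)).union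
        ((Set.finite_range _).inv.mul (Set.finite_range _)), ?_⟩
    rintro c u u' (h1 | h1 | ⟨m, h1, h2⟩ | ⟨e, e', h1, -⟩)
    · exact Or.inl (Or.inl (Or.inl (h c _ _ h1)))
    · refine Or.inl (Or.inl (Or.inr ?_))
      simpa using h c _ _ h1
    · refine Or.inl (Or.inr ⟨_, h c _ _ h2, _, h c _ _ h1, by simp [mul_assoc]⟩)
    · refine Or.inr ⟨(P.off (P.src e'))⁻¹, by simp, P.off (P.src e), by simp, ?_⟩
      have := h1.2
      simp only
      rw [inv_mul_eq_iff_eq_mul, ← mul_assoc, ← this]; simp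

open Pointwise in
theorem Vr_tr (r : ℕ) : ∃ T : Set G, T.Finite ∧ ∀ (c c' : P.Cfg) (g : G) (u u' : G × P.V),
    Ag T u.1 g c c' → P.Vr c r u u' → P.Vr c' r (P.rt g u) (P.rt g u') := by
  induction r with
  | zero =>
    refine ⟨{1}, Set.finite_singleton _, ?_⟩
    rintro c c' g u u' ha (rfl | ⟨j, h1, h2, rfl⟩)
    · exact Or.inl rfl
    · refine Or.inr ⟨j, ?_, h2, by simp [rt, mul_assoc]⟩
      have := ha 1 rfl
      simp only [one_mul] at this
      simpa [rt, ← this] using h1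
  | succ r ih =>
    obtain ⟨T, hT, h⟩ := ih
    obtain ⟨D, hD, hoff⟩ := Vr_offset (P := P) r
    refine ⟨T ∪ T * D ∪ T * D⁻¹ ∪ Set.range P.off,
      ((hT.union (hT.mul hD)).union (hT.mul hD.inv)).union (Set.finite_range _), ?_⟩
    intro c c' g u u' ha h0
    have a1 : Ag T u.1 g c c' := ha.mono (fun x hx => Or.inl (Or.inl (Or.inl hx)))
    have a2 : Ag (T * D) u.1 g c c' := ha.mono (fun x hx => Or.inl (Or.inl (Or.inr hx)))
    have a3 : Ag (T * D⁻¹) u.1 g c c' := ha.mono (fun x hx => Or.inl (Or.inr hx))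
    rcases h0 with h1 | h1 | ⟨m, h1, h2⟩ | ⟨e, e', h1, h2, h3⟩
    · exact Or.inl (h c c' g _ _ a1 h1)
    · exact Or.inr (Or.inl (h c c' g _ _ (a3.move (by simpa using hoff c _ _ h1)) h1))
    · exact Or.inr (Or.inr (Or.inl ⟨P.rt g m, h c c' g _ _ a1 h1,
        h c c' g _ _ (a2.move (hoff c _ _ h1)) h2⟩))
    · refine Or.inr (Or.inr (Or.inr ⟨e, e', ⟨h1.1, ?_⟩, ?_, ?_⟩))
      · simp only [rt, ← mul_assoc, h1.2]
      · have := ha (P.off (P.src e)) (Or.inr (by simp))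
        simp only [rt, ← mul_assoc, ← this]; exact h2
      · rcases h3 with ⟨h3, h4, h5⟩ | ⟨h3, h4, h5⟩
        · exact Or.inl ⟨h3, h4, h c c' g (u.1, P.src e) _ a1 h5⟩
        · exact Or.inr ⟨h3, h4, h c c' g (u.1, P.tgt e) _ a1 h5⟩

open Pointwise in
theorem Bk_offset (r k : ℕ) : ∃ D : Set G, D.Finite ∧ ∀ (c : P.Cfg) (u u' : G × P.V),
    Bk (P.Vr c r) k u u' → u'.1 * u.1⁻¹ ∈ D := by
  obtain ⟨D0, hD0, h0⟩ := Vr_offset (P := P) r
  induction k with
  | zero => exact ⟨{1}, Set.finite_singleton _, by rintro c u u' rfl; simp⟩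
  | succ k ih =>
    obtain ⟨D, hD, h⟩ := ih
    refine ⟨D ∪ D0 * D ∪ D0⁻¹ * D, (hD.union (hD0.mul hD)).union (hD0.inv.mul hD), ?_⟩
    rintro c u u' ⟨m, h1, rfl | h2 | h2⟩
    · exact Or.inl (Or.inl (h c _ _ h1))
    · exact Or.inl (Or.inr ⟨_, h0 c _ _ h2, _, h c _ _ h1, by simp [mul_assoc]⟩)
    · exact Or.inr ⟨u'.1 * m.1⁻¹, by simpa using h0 c _ _ h2, _, h c _ _ h1, by simp [mul_assoc]⟩

open Pointwise in
theorem Bk_tr (r k : ℕ) : ∃ T : Set G, T.Finite ∧ ∀ (c c' : P.Cfg) (g : G) (u u' : G × P.V),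
    Ag T u.1 g c c' → Bk (P.Vr c r) k u u' → Bk (P.Vr c' r) k (P.rt g u) (P.rt g u') := by
  obtain ⟨T0, hT0, h0⟩ := Vr_tr (P := P) r
  induction k with
  | zero => exact ⟨∅, Set.finite_empty, by rintro c c' g u u' - rfl; rfl⟩
  | succ k ih =>
    obtain ⟨T, hT, h⟩ := ih
    obtain ⟨D, hD, hoff⟩ := Bk_offset (P := P) r k
    obtain ⟨D', hD', hoff'⟩ := Bk_offset (P := P) r (k + 1)
    refine ⟨T ∪ T0 * D ∪ T0 * D', (hT.union (hT0.mul hD)).union (hT0.mul hD'), ?_⟩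
    intro c c' g u u' ha hb
    have hb' := hoff' c _ _ hb
    obtain ⟨m, h1, h2⟩ := hb
    refine ⟨P.rt g m, h c c' g _ _ (ha.mono fun x hx => Or.inl (Or.inl hx)) h1, ?_⟩
    rcases h2 with rfl | h2 | h2
    · exact Or.inl rfl
    · exact Or.inr (Or.inl (h0 c c' g _ _
        ((ha.mono fun x hx => Or.inl (Or.inr hx)).move (hoff c _ _ h1)) h2))
    · exact Or.inr (Or.inr (h0 c c' g _ _ ((ha.mono fun x hx => Or.inr hx).move hb') h2))

omit [Finite P.V]

variable (P)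

def Cl (c : P.Cfg) (r : ℕ) : G × P.V → G × P.V → Prop := EqvGen (P.Vr c r)

def Big (c : P.Cfg) (r H : ℕ) (u : G × P.V) : Prop := (H : ℕ∞) ≤ {u' | P.Cl c r u u'}.encard

def rho (c : P.Cfg) (r H : ℕ) (p : G) (j j' : P.V) : Prop :=
  ¬ P.blob j ∧ ¬ P.blob j' ∧ (P.Vr c r ((P.off j)⁻¹ * p, j) ((P.off j')⁻¹ * p, j') ∨
    ∃ e e' τ, P.kind e = .inr τ ∧ P.kind e' = .inr τ ∧ P.src e = j ∧ P.src e' = j' ∧
      ¬ P.Big c r H ((P.off j)⁻¹ * p, P.tgt e) ∧
      P.Cl c r ((P.off j)⁻¹ * p, P.tgt e) ((P.off j')⁻¹ * p, P.tgt e'))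

def Mark (c : P.Cfg) (r H : ℕ) (p : G) (τ : Fin 3) (j : P.V) : Prop :=
  ∃ e, P.kind e = .inr τ ∧ P.Big c r H ((P.off (P.src e))⁻¹ * p, P.tgt e) ∧
    EqvGen (P.rho c r H p) (P.src e) j

def SL (c : P.Cfg) (r H : ℕ) (p : G) (j : P.V) : Prop := P.Mark c r H p 0 j ∧ P.Mark c r H p 1 j

def Sig (c : P.Cfg) (r H : ℕ) (p : G) : Prop := ∃ j, P.SL c r H p j

variable {P}

theorem big_iff {c : P.Cfg} {r H : ℕ} {u : G × P.V} :
    P.Big c r H u ↔ (H : ℕ∞) ≤ {u' | Bk (P.Vr c r) H u u'}.encard := by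
  constructor
  · intro h
    rcases Bk_dichotomy (P.Vr c r) u H with h1 | h1
    · exact h.trans (Set.encard_le_encard fun x hx => h1 x hx)
    · refine le_trans ?_ h1
      push_cast; exact le_self_add
  · intro h
    exact h.trans (Set.encard_le_encard fun x hx => Bk.eqv hx)

theorem small_cl {c : P.Cfg} {r H : ℕ} {u u' : G × P.V} (h : ¬ P.Big c r H u)
    (h' : P.Cl c r u u') : Bk (P.Vr c r) H u u' := by
  rcases Bk_dichotomy (P.Vr c r) u H with h1 | h1
  · exact h1 _ h'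
  · refine absurd (big_iff.mpr (le_trans ?_ h1)) h
    push_cast; exact le_self_add

theorem Big.of_cl {c : P.Cfg} {r H : ℕ} {u u' : G × P.V} (h : P.Big c r H u)
    (h' : P.Cl c r u u') : P.Big c r H u' :=
  h.trans (Set.encard_le_encard fun _ hx => EqvGen.trans _ _ _ (EqvGen.symm _ _ h') hx)

theorem rt_injective (g : G) : Function.Injective (P.rt g) := by
  intro u u' h
  simp only [rt, Prod.mk.injEq, mul_left_inj] at h
  exact Prod.ext h.1 h.2

variable [Finite P.V]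

theorem Big_tr (r H : ℕ) : ∃ T : Set G, T.Finite ∧ ∀ (c c' : P.Cfg) (g : G) (u : G × P.V),
    Ag T u.1 g c c' → (P.Big c r H u ↔ P.Big c' r H (P.rt g u)) := by
  obtain ⟨T, hT, h⟩ := Bk_tr (P := P) r H
  have key : ∀ (c c' : P.Cfg) (g : G) (u : G × P.V),
      Ag T u.1 g c c' → P.Big c r H u → P.Big c' r H (P.rt g u) := by
    intro c c' g u ha hb
    rw [big_iff] at hb ⊢
    refine hb.trans ?_
    rw [← (rt_injective g).encard_image]
    refine Set.encard_le_encard ?_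
    rintro _ ⟨x, hx, rfl⟩
    exact h c c' g _ _ ha hx
  refine ⟨T, hT, fun c c' g u ha => ⟨key c c' g u ha, fun hb => ?_⟩⟩
  have := key c' c g⁻¹ (P.rt g u) ha.symm hb
  simpa [rt] using this

open Pointwise in
theorem SL_tr (r H : ℕ) : ∃ T : Set G, T.Finite ∧ ∀ (c c' : P.Cfg) (g p : G) (j : P.V),
    Ag T p g c c' → (P.SL c r H p j ↔ P.SL c' r H (p * g) j) := by
  obtain ⟨T1, hT1, h1⟩ := Vr_tr (P := P) r
  obtain ⟨T2, hT2, h2⟩ := Bk_tr (P := P) r H
  obtain ⟨T3, hT3, h3⟩ := Big_tr (P := P) r H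
  let T := (T1 ∪ T2 ∪ T3) * (Set.range P.off)⁻¹
  have hT : T.Finite := ((hT1.union hT2).union hT3).mul (Set.finite_range _).inv
  have mv : ∀ (c c' : P.Cfg) (g p : G) (j : P.V), Ag T p g c c' →
      Ag (T1 ∪ T2 ∪ T3) ((P.off j)⁻¹ * p) g c c' := fun c c' g p j ha => ha.move (by simp)
  have hrho : ∀ (c c' : P.Cfg) (g p : G), Ag T p g c c' → ∀ j j',
      P.rho c r H p j j' → P.rho c' r H (p * g) j j' := by
    rintro c c' g p ha j j' ⟨b1, b2, b3 | ⟨e, e', τ, k1, k2, k3, k4, k5, k6⟩⟩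
    · refine ⟨b1, b2, Or.inl ?_⟩
      have := h1 c c' g _ _ ((mv c c' g p j ha).mono fun x hx => Or.inl (Or.inl hx)) b3
      simpa [rt, mul_assoc] using this
    · refine ⟨b1, b2, Or.inr ⟨e, e', τ, k1, k2, k3, k4, ?_, ?_⟩⟩
      · have := h3 c c' g ((P.off j)⁻¹ * p, P.tgt e)
          ((mv c c' g p j ha).mono fun x hx => Or.inr hx)
        rw [this] at k5
        simpa [rt, mul_assoc] using k5
      · have := h2 c c' g _ _ ((mv c c' g p j ha).mono fun x hx => Or.inl (Or.inr hx))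
          (small_cl k5 k6)
        have := this.eqv
        simpa [rt, mul_assoc, Cl] using this
  have hmark : ∀ (c c' : P.Cfg) (g p : G), Ag T p g c c' → ∀ τ j,
      P.Mark c r H p τ j → P.Mark c' r H (p * g) τ j := by
    rintro c c' g p ha τ j ⟨e, k1, k2, k3⟩
    refine ⟨e, k1, ?_, EqvGen.mono (hrho c c' g p ha) _ _ k3⟩
    have := (h3 c c' g ((P.off (P.src e))⁻¹ * p, P.tgt e)
          ((mv c c' g p _ ha).mono fun x hx => Or.inr hx)).mp k2
    simpa [rt, mul_assoc] using this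
  refine ⟨T, hT, fun c c' g p j ha => ⟨fun h => ⟨hmark c c' g p ha _ _ h.1,
    hmark c c' g p ha _ _ h.2⟩, fun h => ?_⟩⟩
  have a := hmark c' c g⁻¹ (p * g) ha.symm _ _ h.1
  have b := hmark c' c g⁻¹ (p * g) ha.symm _ _ h.2
  simp only [mul_inv_cancel_right] at a b
  exact ⟨a, b⟩

theorem Sig_tr (r H : ℕ) : ∃ T : Set G, T.Finite ∧ ∀ (c c' : P.Cfg) (g p : G),
    Ag T p g c c' → (P.Sig c r H p ↔ P.Sig c' r H (p * g)) := by
  obtain ⟨T, hT, h⟩ := SL_tr (P := P) r H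
  exact ⟨T, hT, fun c c' g p ha => exists_congr fun j => h c c' g p j ha⟩

omit [Finite P.V] in
/-- no participation: nothing is marked -/
theorem not_Sig_of_no_part {c : P.Cfg} (hc : ∀ γ, ¬ (c γ).2) {r H : ℕ} (hH : 2 ≤ H) (p : G) :
    ¬ P.Sig c r H p := by
  have h1 : ∀ r u u', P.Vr c r u u' → P.blob u.2 → u = u' := by
    intro r
    induction r with
    | zero =>
      rintro u u' (h | ⟨j, -, h, -⟩) hb
      · exact h
      · exact absurd (h ▸ hb) (P.ge_nb j)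
    | succ r ih =>
      rintro u u' (h | h | ⟨m, h1, h2⟩ | ⟨e, e', -, h, -⟩) hb
      · exact ih _ _ h hb
      · exact (ih _ _ h ((Vr_inv h).1.mpr hb)).symm
      · obtain rfl := ih _ _ h1 hb
        exact ih _ _ h2 hb
      · exact absurd h (hc _)
  have h2 : ∀ u u', P.Cl c r u u' → (P.blob u.2 ∨ P.blob u'.2) → u = u' := by
    intro u u' h
    induction h with
    | rel a b h =>
      rintro (hb | hb)
      · exact h1 _ _ _ h hb
      · exact h1 _ _ _ h ((Vr_inv h).1.mpr hb)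
    | refl => intro; rfl
    | symm _ _ _ ih => intro hb; exact (ih hb.symm).symm
    | trans a b d _ _ ih1 ih2 =>
      rintro (hb | hb)
      · obtain rfl := ih1 (Or.inl hb); exact ih2 (Or.inl hb)
      · obtain rfl := ih2 (Or.inr hb); exact ih1 (Or.inr hb)
  rintro ⟨j, ⟨e, k1, k2, -⟩, -⟩
  have : {u' | P.Cl c r ((P.off (P.src e))⁻¹ * p, P.tgt e) u'} ⊆
      {((P.off (P.src e))⁻¹ * p, P.tgt e)} :=
    fun x hx => (h2 _ _ hx (Or.inl (P.kind_c e _ k1))).symm
  have h3 := k2.trans (Set.encard_le_encard this)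
  rw [Set.encard_singleton] at h3
  have : H ≤ 1 := by exact_mod_cast h3
  omega

end Piece

end Crest.Agent.R191
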