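import Crest.Agent.R191.Bern
import Crest.Agent.R191.Piece

/-! Spectral gap of the Bernoulli shift restricted to the free subgroup. -/

namespace Crest.Agent.R191

open MeasureTheory

theorem pingpong {S : Type} (a : S → ℝ) (e f : S ≃ S) (N X Yp Ym : Set S)
    (hs : Summable fun s => a s ^ 2) (he : Summable fun s => (a (e s) - a s) ^ 2)
    (hf : Summable fun s => (a (f s) - a s) ^ 2)
    (h1 : ∀ s ∈ N, s ∉ X → e s ∈ X) (h2 : ∀ s ∈ X, f s ∈ Yp) (h3 : ∀ s, f s ∈ X → s ∈ Ym)
    (h4 : Yp ⊆ N \ X) (h5 : Ym ⊆ N \ X) (h6 : Disjoint Yp Ym) :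
    ∑' s, N.indicator (fun s => a s ^ 2) s ≤
      70 * (∑' s, (a (e s) - a s) ^ 2 + ∑' s, (a (f s) - a s) ^ 2) := by
  classical
  set q : S → ℝ := fun s => a s ^ 2 with hq
  have hi : ∀ B : Set S, Summable (B.indicator q) := fun B => hs.indicator B
  have hie : ∀ (B : Set S) (e : S ≃ S), Summable fun s => B.indicator q (e s) :=
    fun B e => (e.summable_iff (f := B.indicator q)).mpr (hi B)
  have nn : ∀ (B : Set S) s, 0 ≤ B.indicator q s := fun B s =>
    Set.indicator_nonneg (fun s _ => sq_nonneg _) s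
  have k : ∀ x y : ℝ, x ^ 2 ≤ 11 / 10 * y ^ 2 + 11 * (y - x) ^ 2 := fun x y => by
    nlinarith [sq_nonneg (11 * y - 10 * x - 0 * x), sq_nonneg (y - x), sq_nonneg (x - 11 / 10 * y)]
  have a1 : ∑' s, (N \ X).indicator q s ≤
      11 / 10 * ∑' s, X.indicator q s + 11 * ∑' s, (a (e s) - a s) ^ 2 := by
    rw [← e.tsum_eq (X.indicator q), ← tsum_mul_left, ← tsum_mul_left,
      ← ((hie X e).mul_left _).tsum_add (he.mul_left _)]
    refine (hi _).tsum_le_tsum (fun s => ?_) (((hie X e).mul_left _).add (he.mul_left _))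
    by_cases h : s ∈ N \ X
    · rw [Set.indicator_of_mem h, Set.indicator_of_mem (h1 s h.1 h.2)]
      exact k _ _
    · rw [Set.indicator_of_notMem h]
      have := nn X (e s)
      positivity
  have a2 : ∑' s, X.indicator q s ≤
      11 / 10 * ∑' s, Yp.indicator q s + 11 * ∑' s, (a (f s) - a s) ^ 2 := by
    rw [← f.tsum_eq (Yp.indicator q), ← tsum_mul_left, ← tsum_mul_left,
      ← ((hie Yp f).mul_left _).tsum_add (hf.mul_left _)]
    refine (hi _).tsum_le_tsum (fun s => ?_) (((hie Yp f).mul_left _).add (hf.mul_left _))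
    by_cases h : s ∈ X
    · rw [Set.indicator_of_mem h, Set.indicator_of_mem (h2 s h)]
      exact k _ _
    · rw [Set.indicator_of_notMem h]
      have := nn Yp (f s)
      positivity
  have a3 : ∑' s, X.indicator q s ≤
      11 / 10 * ∑' s, Ym.indicator q s + 11 * ∑' s, (a (f s) - a s) ^ 2 := by
    rw [← f.tsum_eq (X.indicator q), ← tsum_mul_left, ← tsum_mul_left,
      ← ((hi Ym).mul_left _).tsum_add (hf.mul_left _)]
    refine (hie _ _).tsum_le_tsum (fun s => ?_) (((hi Ym).mul_left _).add (hf.mul_left _))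
    by_cases h : f s ∈ X
    · rw [Set.indicator_of_mem h, Set.indicator_of_mem (h3 s h)]
      have := k (a (f s)) (a s)
      simp only [hq]
      nlinarith
    · rw [Set.indicator_of_notMem h]
      have := nn Ym s
      positivity
  have a4 : ∑' s, Yp.indicator q s + ∑' s, Ym.indicator q s ≤ ∑' s, (N \ X).indicator q s := by
    rw [← (hi _).tsum_add (hi _)]
    refine ((hi _).add (hi _)).tsum_le_tsum (fun s => ?_) (hi _)
    rw [← Set.indicator_union_of_disjoint h6 |> fun h => congrFun (h q) s]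
    exact Set.indicator_le_indicator_of_subset (Set.union_subset h4 h5) (fun s => sq_nonneg _) s
  have a5 : ∑' s, N.indicator q s ≤ ∑' s, X.indicator q s + ∑' s, (N \ X).indicator q s := by
    rw [← (hi _).tsum_add (hi _)]
    refine (hi _).tsum_le_tsum (fun s => ?_) ((hi _).add (hi _))
    by_cases h : s ∈ N
    · by_cases h' : s ∈ X
      · simp [h, h']
      · simp [h, h']
    · rw [Set.indicator_of_notMem h]
      exact add_nonneg (nn _ _) (nn _ _)
  have b1 : 0 ≤ ∑' s, (a (e s) - a s) ^ 2 := tsum_nonneg fun _ => sq_nonneg _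
  have b2 : 0 ≤ ∑' s, (a (f s) - a s) ^ 2 := tsum_nonneg fun _ => sq_nonneg _
  linarith

theorem exists_label {S : Type} [MulAction A S] (N : Set S)
    (hfree : ∀ s ∈ N, ∀ a : A, a • s = s → a = 1) :
    ∃ l : S → A, ∀ s ∈ N, ∀ a : A, l (a • s) = a * l s := by
  have : ∀ s : S, ∃ b : A, b • (Quotient.mk (MulAction.orbitRel A S) s).out = s := fun s =>
    (MulAction.orbitRel A S).symm (Quotient.mk_out (s := MulAction.orbitRel A S) s)
  choose l hl using this
  refine ⟨l, fun s hs a => ?_⟩
  have e : Quotient.mk (MulAction.orbitRel A S) (a • s) = Quotient.mk _ s :=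
    Quotient.sound (MulAction.mem_orbit s a)
  have h1 := hl (a • s)
  rw [e] at h1
  have h2 : ((l s) * (l (a • s))⁻¹ * a) • s = s := by
    rw [mul_smul, mul_smul, inv_smul_eq_iff.mpr h1.symm, hl]
  have := hfree s hs _ h2
  rw [mul_assoc, mul_eq_one_iff_eq_inv, mul_inv_rev, inv_inv] at this
  rw [this]; simp

def rsh (γ : G) : Finset G ≃ Finset G := (Equiv.mulRight γ).finsetCongr

theorem mem_rsh {γ g : G} {T : Finset G} : g ∈ rsh γ T ↔ g * γ⁻¹ ∈ T := by
  simp [rsh, Finset.mem_map_equiv]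

theorem chi_rsh (γ : G) (T : Finset G) (y : Om) : chi (rsh γ T) y = chi T (γ • y) := by
  simp [chi, rsh, smul_app]

theorem exists_pp : ∃ X Yp Ym : Set (Finset G),
    (∀ s ∈ {T : Finset G | T ≠ ∅}, s ∉ X → (rsh (ga false)).symm s ∈ X) ∧
    (∀ s ∈ X, (rsh (ga true)).symm s ∈ Yp) ∧ (∀ s, (rsh (ga true)).symm s ∈ X → s ∈ Ym) ∧
    Yp ⊆ {T : Finset G | T ≠ ∅} \ X ∧ Ym ⊆ {T : Finset G | T ≠ ∅} \ X ∧ Disjoint Yp Ym := by
  classical
  let _ : MulAction A (Finset G) :=
    { smul := fun a T => rsh (SemidirectProduct.inr a)⁻¹ T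
      one_smul := fun T => by
        ext g; change g ∈ rsh _ T ↔ _; simp [mem_rsh]
      mul_smul := fun a b T => by
        ext g; change g ∈ rsh _ T ↔ g ∈ rsh _ (rsh _ T); simp [mem_rsh, mul_assoc] }
  have hm : ∀ (a : A) (T : Finset G) g, g ∈ a • T ↔ g * SemidirectProduct.inr a ∈ T := by
    intro a T g
    change g ∈ rsh _ T ↔ _; simp [mem_rsh]
  have hne : ∀ (a : A) (T : Finset G), a • T ≠ ∅ ↔ T ≠ ∅ := by
    intro a T
    change rsh _ T ≠ ∅ ↔ _; simp [rsh]
  have hr : ∀ x T, (rsh (ga x)).symm T = (FreeGroup.mk [(x, true)] : A) • T := by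
    intro x T
    rw [Equiv.symm_apply_eq]
    ext g
    simp [mem_rsh, hm, ga, gen, mk_single_true]
  obtain ⟨l, hl⟩ := exists_label {T : Finset G | T ≠ ∅} (by
    intro T hT a ha
    obtain ⟨t, ht⟩ := Finset.nonempty_iff_ne_empty.mpr hT
    have h1 : ∀ n : ℕ, t * SemidirectProduct.inr (a ^ n) ∈ T := by
      intro n
      induction n with
      | zero => simpa using ht
      | succ n ih =>
        rw [← ha, hm] at ih
        simpa [pow_succ, mul_assoc] using ih
    by_contra hne
    have h2 := injective_pow_iff_not_isOfFinOrder.mpr (not_isOfFinOrder_of_isMulTorsionFree hne)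
    refine Set.infinite_of_injective_forall_mem (f := fun n : ℕ =>
      t * SemidirectProduct.inr (a ^ n)) ?_ h1 T.finite_toSet
    intro m n h
    exact h2 (SemidirectProduct.inr_injective (mul_left_cancel h)))
  have step : ∀ (m : Bool × Bool) (T : Finset G), T ≠ ∅ → (∀ tl, (l T).toWord ≠ (m.1, !m.2) :: tl) →
      (l ((FreeGroup.mk [m] : A) • T)).toWord = m :: (l T).toWord := by
    intro m T hT h
    rw [hl T hT]
    rcases toWord_cons_cases m (l T) with h1 | h1
    · exact h1.1
    · exact absurd h1 (h _)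
  refine ⟨{T | T ≠ ∅ ∧ ∃ b tl, (l T).toWord = (false, b) :: tl},
    {T | T ≠ ∅ ∧ ∃ tl, (l T).toWord = (true, true) :: tl},
    {T | T ≠ ∅ ∧ ∃ tl, (l T).toWord = (true, false) :: tl}, ?_, ?_, ?_, ?_, ?_, ?_⟩
  · intro T hT hX
    rw [hr]
    exact ⟨(hne _ _).mpr hT, true, _, step _ T hT fun tl h => hX ⟨hT, _, _, h⟩⟩
  · rintro T ⟨hT, b, tl, h⟩
    rw [hr]
    exact ⟨(hne _ _).mpr hT, _, step _ T hT fun tl h' => by simp [h] at h'⟩
  · rintro T ⟨hT, b, tl, h⟩
    rw [hr] at hT h
    have := step (true, false) _ hT fun tl h' => by simp [h] at h'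
    rw [← mul_smul, mk_single_false, mk_single_true, inv_mul_cancel, one_smul] at this
    exact ⟨(hne _ _).mp hT, _, this⟩
  · rintro T ⟨hT, tl, h⟩
    exact ⟨hT, by rintro ⟨-, b, tl', h'⟩; simp [h] at h'⟩
  · rintro T ⟨hT, tl, h⟩
    exact ⟨hT, by rintro ⟨-, b, tl', h'⟩; simp [h] at h'⟩
  · rw [Set.disjoint_left]
    rintro T ⟨-, tl, h⟩ ⟨-, tl', h'⟩
    simp [h] at h'

theorem gap {B : Set Om} (hB : Loc B) :
    mu.real B - mu.real B ^ 2 ≤
      280 * mu.real {y | y ∈ B ∧ ¬ (ga false • y ∈ B ∧ ga true • y ∈ B)} := by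
  classical
  obtain ⟨a, ha⟩ := exists_wal hB
  have hm := hB.meas
  set C := {y | y ∈ B ∧ ¬ (ga false • y ∈ B ∧ ga true • y ∈ B)}
  have hC : MeasurableSet C :=
    hm.inter (((mp_smul _).measurable hm).inter ((mp_smul _).measurable hm)).compl
  have sm : ∀ b : Finset G →₀ ℝ, Summable fun T => b T ^ 2 := fun b =>
    summable_of_ne_finset_zero (s := b.support) fun T hT => by
      simp [Finsupp.notMem_support_iff.mp hT]
  have hi : Integrable (B.indicator (1 : Om → ℝ)) mu := (integrable_const _).indicator hm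
  have key : ∀ x, ∑' T, (a ((rsh (ga x)).symm T) - a T) ^ 2 ≤ 2 * mu.real C := by
    intro x
    have h1 := parseval (a.equivMapDomain (rsh (ga x)) - a)
    simp only [Finsupp.coe_sub, Pi.sub_apply, Finsupp.equivMapDomain_apply, map_sub] at h1
    have h2 : ∀ y, wal (a.equivMapDomain (rsh (ga x))) y = B.indicator 1 (ga x • y) := by
      intro y
      rw [← ha, wal, Finsupp.linearCombination_equivMapDomain]
      simp [Finsupp.linearCombination_apply, Finsupp.sum, chi_rsh]
    have hi2 : Integrable (fun y => B.indicator (1 : Om → ℝ) (ga x • y)) mu :=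
      (mp_smul (ga x)).integrable_comp_of_integrable hi
    have h3 : ∫ y, B.indicator (1 : Om → ℝ) (ga x • y) ∂mu = ∫ y, B.indicator 1 y ∂mu := by
      conv_rhs => rw [← (mp_smul (ga x)).map_eq]
      rw [integral_map (mp_smul _).measurable.aemeasurable
        (measurable_one.indicator hm).aestronglyMeasurable]
    have hi3 : Integrable (fun y => 2 * C.indicator (1 : Om → ℝ) y) mu :=
      ((integrable_const _).indicator hC).const_mul _
    rw [← h1, ha]
    simp only [h2]
    calc _ ≤ ∫ y, (B.indicator 1 (ga x • y) - B.indicator 1 y) + 2 * C.indicator 1 y ∂mu := by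
          refine integral_mono_of_nonneg (Filter.Eventually.of_forall fun y => sq_nonneg _)
            ((hi2.sub hi).add hi3) (Filter.Eventually.of_forall fun y => ?_)
          have h0 : 0 ≤ C.indicator (1 : Om → ℝ) y :=
            Set.indicator_nonneg (fun _ _ => zero_le_one) y
          by_cases h4 : y ∈ B <;> by_cases h5 : ga x • y ∈ B
          · simpa [h4, h5] using h0
          · have : y ∈ C := ⟨h4, fun h => h5 (by cases x; exacts [h.1, h.2])⟩
            simp [h4, h5, this]; norm_num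
          · simpa [h4, h5] using h0
          · simpa [h4, h5] using h0
      _ = 2 * mu.real C := by
          rw [integral_add (by exact hi2.sub hi) hi3, integral_sub hi2 hi, h3, integral_const_mul,
            integral_indicator_one hC]
          simp
  obtain ⟨X, Yp, Ym, p1, p2, p3, p4, p5, p6⟩ := exists_pp
  have h := pingpong a _ _ _ X Yp Ym (sm a)
    (by simpa using sm (a.equivMapDomain (rsh (ga false)) - a))
    (by simpa using sm (a.equivMapDomain (rsh (ga true)) - a)) p1 p2 p3 p4 p5 p6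
  have e1 := parseval a
  have e2 := wal_integral a
  rw [ha] at e1 e2
  have : (fun y => B.indicator (1 : Om → ℝ) y ^ 2) = B.indicator 1 := by
    funext y; by_cases hy : y ∈ B <;> simp [hy]
  rw [this] at e1
  rw [integral_indicator_one hm] at e1 e2
  rw [(sm a).tsum_eq_add_tsum_ite ∅, ← e2] at e1
  have e3 : ∑' T, ({T : Finset G | T ≠ ∅}.indicator fun s => a s ^ 2) T =
      ∑' T, if T = ∅ then 0 else a T ^ 2 := by
    congr 1; funext T; by_cases hT : T = ∅ <;> simp [hT]
  have := key false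
  have := key true
  linarith

end Crest.Agent.R191
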