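import Crest.Agent.R191.Free

/-! The group `G = A *_W (W × ℤ)`, realised as a semidirect product; residual finiteness and the
normal form lemma for partial actions. -/

namespace Crest.Agent.R191

open FreeGroup SemidirectProduct

abbrev A := FreeGroup Bool
def al : A := FreeGroup.of false
def be : A := FreeGroup.of true
def W : Subgroup A := Subgroup.closure {al * be, al * al * be⁻¹}

def phi : A →* MulAut (FreeGroup (A ⧸ W)) where
  toFun a := FreeGroup.freeGroupCongr (MulAction.toPerm a)
  map_one' := by
    ext x
    simp only [freeGroupCongr_apply, MulAut.one_apply]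
    have : (MulAction.toPerm (1 : A) : A ⧸ W → A ⧸ W) = id := by ext; simp
    rw [this, map.id]
  map_mul' a b := by
    ext x
    simp only [freeGroupCongr_apply, MulAut.mul_apply, map.comp]
    congr 2
    ext; simp [mul_smul]

theorem phi_apply (a : A) (k : FreeGroup (A ⧸ W)) :
    phi a k = FreeGroup.map (fun c => a • c) k := rfl

theorem phi_of (a : A) (c : A ⧸ W) : phi a (of c) = of (a • c) := by
  rw [phi_apply, map.of]

abbrev G : Type := FreeGroup (A ⧸ W) ⋊[phi] A

def zz : G := inl (of ((1 : A) : A ⧸ W))

def gen : Option Bool → G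
  | none => zz
  | some x => inr (of x)

abbrev Ltr := Option Bool × Bool

def ltr (l : Ltr) : G := if l.2 then gen l.1 else (gen l.1)⁻¹

def wv (u : List Ltr) : G := (u.map ltr).prod

@[simp] theorem wv_nil : wv [] = 1 := rfl
@[simp] theorem wv_cons (l : Ltr) (u : List Ltr) : wv (l :: u) = ltr l * wv u := by
  simp [wv]
theorem wv_append (u v : List Ltr) : wv (u ++ v) = wv u * wv v := by simp [wv]

theorem ltr_some (x s : Bool) : ltr (some x, s) = inr (mk [(x, s)]) := by
  cases s
  · simp [ltr, gen, mk_single_false]
  · simp [ltr, gen, mk_single_true]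

theorem ltr_none (s : Bool) : ltr (none, s) = inl (mk [(((1 : A) : A ⧸ W), s)]) := by
  cases s
  · simp [ltr, gen, zz, mk_single_false]
  · simp [ltr, gen, zz, mk_single_true]

theorem inr_mul_zz (w : A) (hw : w ∈ W) : (inr w : G) * zz = zz * inr w := by
  have h : (inr w : G) * zz * (inr w)⁻¹ = zz := by
    rw [zz, ← _root_.map_inv, ← inl_aut, phi_of]
    congr 2
    change ((w * 1 : A) : A ⧸ W) = _
    rw [QuotientGroup.eq]; simpa using hw
  exact mul_inv_eq_iff_eq_mul.mp h

theorem conj_zz (a : A) : (inl (of (a : A ⧸ W)) : G) = inr a * zz * (inr a)⁻¹ := by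
  rw [zz, ← _root_.map_inv, ← inl_aut, phi_of]
  congr 2
  change _ = ((a * 1 : A) : A ⧸ W)
  simp

theorem closure_gen : Subgroup.closure (Set.range gen) = ⊤ := by
  set H := Subgroup.closure (Set.range gen)
  have hr : ∀ a : A, (inr a : G) ∈ H := by
    intro a
    induction a using FreeGroup.induction_on with
    | C1 => simp
    | of x => exact Subgroup.subset_closure ⟨some x, rfl⟩
    | inv_of x h => rw [_root_.map_inv]; exact H.inv_mem h
    | mul a b ha hb => rw [_root_.map_mul]; exact H.mul_mem ha hb
  have hl : ∀ k : FreeGroup (A ⧸ W), (inl k : G) ∈ H := by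
    intro k
    induction k using FreeGroup.induction_on with
    | C1 => simp
    | of c =>
      induction c using QuotientGroup.induction_on with
      | H a =>
        rw [conj_zz]
        exact H.mul_mem (H.mul_mem (hr a) (Subgroup.subset_closure ⟨none, rfl⟩))
          (H.inv_mem (hr a))
    | inv_of x h => rw [_root_.map_inv]; exact H.inv_mem h
    | mul a b ha hb => rw [_root_.map_mul]; exact H.mul_mem ha hb
  rw [eq_top_iff]
  intro g _
  rw [← inl_left_mul_inr_right g]
  exact H.mul_mem (hl _) (hr _)

theorem G_fg : Group.FG G :=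
  ⟨⟨(Set.finite_range gen).toFinset, by simpa using closure_gen⟩⟩

theorem exists_wv (g : G) : ∃ u, wv u = g := by
  have hg : g ∈ Subgroup.closure (Set.range gen) := by rw [closure_gen]; trivial
  induction hg using Subgroup.closure_induction_left with
  | one => exact ⟨[], rfl⟩
  | mul_left x hx y _ ih =>
    obtain ⟨u, rfl⟩ := ih
    obtain ⟨o, rfl⟩ := hx
    exact ⟨(o, true) :: u, by simp [ltr]⟩
  | inv_mul_cancel x hx y _ ih =>
    obtain ⟨u, rfl⟩ := ih
    obtain ⟨o, rfl⟩ := hx
    exact ⟨(o, false) :: u, by simp [ltr]⟩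

instance : Countable G := by
  have : Function.Surjective wv := exists_wv
  exact this.countable

theorem zz_pow_injective : Function.Injective fun n : ℕ => zz ^ n := by
  classical
  intro m n h
  simp only [zz, ← _root_.map_pow] at h
  have h2 := congrArg FreeGroup.norm (inl_injective h)
  simpa [norm_of_pow] using h2

instance : Infinite G := Infinite.of_injective _ zz_pow_injective

/-- homomorphisms to commutative groups with prescribed values on the generators -/
theorem exists_hom_comm {C : Type*} [CommGroup C] (v : Option Bool → C) :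
    ∃ χ : G →* C, ∀ o, χ (gen o) = v o := by
  refine ⟨SemidirectProduct.lift (FreeGroup.lift fun _ => v none)
    (FreeGroup.lift fun x => v (some x)) ?_, ?_⟩
  · intro a
    ext c
    simp [phi_of]
  · intro o
    cases o with
    | none => simp [gen, zz]
    | some x => simp [gen]

/-- Residual finiteness. -/
theorem G_rf (g : G) (hg : g ≠ 1) :
    ∃ (H : Type) (_ : Group H) (_ : Finite H) (f : G →* H), f g ≠ 1 := by
  classical
  by_cases hr : g.right = 1
  swap
  · obtain ⟨Φ, _, f, p, hp⟩ := free_rf g.right hr
    refine ⟨Equiv.Perm Φ, inferInstance, inferInstance, f.comp rightHom, ?_⟩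
    intro h
    apply hp
    have : f g.right = 1 := h
    rw [this]; rfl
  have hk : g.left ≠ 1 := by
    intro h; apply hg; ext <;> simp [h, hr]
  -- the finite window
  let b : A ⧸ W := ((1 : A) : A ⧸ W)
  let P : Set (A ⧸ W) := visits b (al * be).toWord ∪ visits b (al * al * be⁻¹).toWord ∪
    ⋃ c ∈ {c | ∃ s, (c, s) ∈ g.left.toWord}, visits b (Quotient.out c : A).toWord
  have hfin : {c | ∃ s, (c, s) ∈ g.left.toWord}.Finite := by
    refine (List.finite_toSet (g.left.toWord.map Prod.fst)).subset ?_
    rintro c ⟨s, hs⟩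
    simp only [Set.mem_ofPred_eq, List.mem_map]
    exact ⟨_, hs, rfl⟩
  have hP : P.Finite :=
    ((visits_finite _ _).union (visits_finite _ _)).union
      (hfin.biUnion fun c _ => visits_finite _ _)
  have : Finite P := hP.to_subtype
  obtain ⟨f, hf⟩ := exists_finite_model (X := Bool) P hP
  let v0 : P := ⟨b, Or.inl (Or.inl (base_mem_visits _ _))⟩
  have hW : ∀ w ∈ W, f w v0 = v0 := by
    intro w hw
    have : W ≤ (MulAction.stabilizer (Equiv.Perm P) v0).comap f := by
      refine (Subgroup.closure_le _).mpr ?_
      rintro w hw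
      have hwW : w ∈ W := Subgroup.subset_closure hw
      have hb : w • b = b := by
        change ((w * 1 : A) : A ⧸ W) = _
        rw [QuotientGroup.eq]; simpa using hwW
      simp only [Subgroup.coe_comap, Set.mem_preimage, SetLike.mem_coe,
        MulAction.mem_stabilizer_iff, Equiv.Perm.smul_def]
      have h1 := hf w.toWord v0 (by
        rcases hw with rfl | rfl
        · exact fun x hx => Or.inl (Or.inl hx)
        · exact fun x hx => Or.inl (Or.inr hx))
      rw [mk_toWord] at h1
      exact Subtype.ext (h1.trans hb)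
    exact this hw
  let p : A ⧸ W → P := Quotient.lift (fun a => f a v0) (by
    intro a a' h
    have h' : a⁻¹ * a' ∈ W := QuotientGroup.leftRel_apply.mp h
    have := hW _ h'
    rw [_root_.map_mul, _root_.map_inv] at this
    simp only [Equiv.Perm.mul_apply] at this
    conv_lhs => rw [← this]
    simp)
  have hp : ∀ (a : A) (c : A ⧸ W), p (a • c) = f a (p c) := by
    intro a c
    induction c using QuotientGroup.induction_on with
    | H a' =>
      change f (a * a') v0 = f a (f a' v0)
      rw [_root_.map_mul]; rfl
  have hpc : ∀ c ∈ {c | ∃ s, (c, s) ∈ g.left.toWord}, (p c : A ⧸ W) = c := by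
    intro c hc
    have h1 := hf (Quotient.out c : A).toWord v0 (fun x hx =>
      Or.inr (Set.mem_biUnion hc hx))
    rw [mk_toWord] at h1
    conv_lhs => rw [← Quotient.out_eq c]
    change ((f (Quotient.out c) v0 : P) : A ⧸ W) = c
    rw [h1]
    change ((Quotient.out c * 1 : A) : A ⧸ W) = c
    simp
  have hne : FreeGroup.map p g.left ≠ 1 := by
    apply map_ne_one_of_injOn p g.left hk
    intro c hc c' hc' h
    rw [← hpc c hc, ← hpc c' hc', h]
  obtain ⟨Φ, _, ψ, q, hq⟩ := free_rf _ hne
  let f1 : FreeGroup (A ⧸ W) →* Equiv.Perm (Equiv.Perm P × Φ) :=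
    { toFun := fun k => Equiv.prodCongrRight fun σ => ψ (FreeGroup.map (fun c => σ⁻¹ (p c)) k)
      map_one' := by ext <;> simp
      map_mul' := fun k k' => by ext <;> simp }
  let f2 : A →* Equiv.Perm (Equiv.Perm P × Φ) :=
    { toFun := fun a => Equiv.prodCongr (Equiv.mulLeft (f a)) (Equiv.refl Φ)
      map_one' := by ext <;> simp
      map_mul' := fun a a' => by ext <;> simp }
  refine ⟨Equiv.Perm (Equiv.Perm P × Φ), inferInstance, inferInstance,
    SemidirectProduct.lift f1 f2 ?_, ?_⟩
  · intro a
    ext c x
    · simp [f1, f2, phi_of, hp]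
    · simp only [f1, f2, phi_of, hp, MonoidHom.coe_comp, MonoidHom.coe_mk, OneHom.coe_mk,
        MulEquiv.toMonoidHom_eq_coe, MonoidHom.coe_coe, Function.comp_apply, map.of,
        Equiv.prodCongrRight_apply, MulAut.conj_apply, Equiv.Perm.coe_mul]
      rfl
  · intro h
    apply hq
    have h1 : g = inl g.left := by ext <;> simp [hr]
    rw [h1, lift_inl] at h
    have h2 := congrArg (fun σ : Equiv.Perm (Equiv.Perm P × Φ) => (σ (1, q)).2) h
    exact h2

theorem exists_normal_avoid (D : Finset G) :
    ∃ Pi : Subgroup G, Pi.Normal ∧ Pi.FiniteIndex ∧ ∀ d ∈ D, d ∈ Pi → d = 1 := by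
  classical
  induction D using Finset.induction_on with
  | empty => exact ⟨⊤, inferInstance, inferInstance, by simp⟩
  | insert g D _ ih =>
    obtain ⟨Pi, h1, h2, h3⟩ := ih
    by_cases hg : g = 1
    · refine ⟨Pi, h1, h2, ?_⟩
      intro d hd hP
      rcases Finset.mem_insert.mp hd with rfl | hd
      · exact hg
      · exact h3 d hd hP
    · obtain ⟨H, _, _, f, hf⟩ := G_rf g hg
      refine ⟨Pi ⊓ f.ker, inferInstance, inferInstance, ?_⟩
      intro d hd hP
      rcases Finset.mem_insert.mp hd with rfl | hd
      · exact absurd hP.2 hf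
      · exact h3 d hd hP.1

end Crest.Agent.R191
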