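import Crest.Agent.R191.Piece

/-! Finite linear algebra and counting lemmas over `ZMod 2`. -/

namespace Crest.Agent.R191

open Module

theorem z2_add_eq_zero {a b : ZMod 2} : a + b = 0 ↔ a = b := by
  revert a b; decide

theorem rel_ineq {V E T : Type} [Finite V] [Finite E] [Finite T] (s t : E → V) (h c1 c2 : T → E)
    (h1 : ∀ τ, s (c1 τ) = s (h τ)) (h2 : ∀ τ, s (c2 τ) = t (h τ)) (h3 : ∀ τ, t (c2 τ) = t (c1 τ))
    (V' : V → Prop) (E' : E → Prop) (T' : T → Prop)
    (hE : ∀ e, E' e → V' (s e) ∧ V' (t e))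
    (v0 : V) (hconn : ∀ ψ : V → ZMod 2, (∀ e, ψ (s e) = ψ (t e)) → ∀ v, ψ v = ψ v0)
    (hforest : ∀ S : Set T, S.Nonempty → (∀ τ ∈ S, ¬ T' τ) → ∃ e, ¬ E' e ∧ ∃ τ ∈ S,
      (c1 τ = e ∨ c2 τ = e) ∧ c1 τ ≠ c2 τ ∧ (∀ τ', h τ' ≠ e) ∧
        ∀ τ' ∈ S, (c1 τ' = e ∨ c2 τ' = e) → τ' = τ) :
    Nat.card {v // ¬ V' v} + Nat.card {τ // ¬ T' τ} ≤ Nat.card {e // ¬ E' e} + 1 := by
  classical
  have := Fintype.ofFinite V
  have := Fintype.ofFinite E
  have := Fintype.ofFinite T
  let Vo := {v // ¬ V' v ∧ v ≠ v0}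
  let Eo := {e // ¬ E' e}
  let To := {τ // ¬ T' τ}
  let M1 : Matrix Eo Vo (ZMod 2) := fun e v =>
    (if s e.1 = v.1 then 1 else 0) + (if t e.1 = v.1 then 1 else 0)
  let M2 : Matrix To Eo (ZMod 2) := fun τ e =>
    (if h τ.1 = e.1 then 1 else 0) + (if c1 τ.1 = e.1 then 1 else 0) +
      (if c2 τ.1 = e.1 then 1 else 0)
  have hsum : ∀ (ε : E) (v : Vo), ∑ e : Eo, (if ε = e.1 then (1 : ZMod 2) else 0) * M1 e v =
      (if s ε = v.1 then 1 else 0) + (if t ε = v.1 then 1 else 0) := by
    intro ε v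
    by_cases hε : E' ε
    · have a1 : s ε ≠ v.1 := fun hh => v.2.1 (hh ▸ (hE ε hε).1)
      have a2 : t ε ≠ v.1 := fun hh => v.2.1 (hh ▸ (hE ε hε).2)
      rw [if_neg a1, if_neg a2, Finset.sum_eq_zero]
      · simp
      intro e _
      rw [if_neg (fun hh : ε = e.1 => e.2 (hh ▸ hε)), zero_mul]
    · rw [Finset.sum_eq_single ⟨ε, hε⟩]
      · simp [M1]
      · intro e _ he
        rw [if_neg (fun hh => he (Subtype.ext hh.symm)), zero_mul]
      · simp
  have hmul : M2 * M1 = 0 := by
    ext τ v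
    rw [Matrix.mul_apply]
    simp only [M2, add_mul, Finset.sum_add_distrib, hsum, h1, h2, h3, Matrix.zero_apply]
    generalize (if s (h τ.1) = v.1 then (1 : ZMod 2) else 0) = a
    generalize (if t (h τ.1) = v.1 then (1 : ZMod 2) else 0) = b
    generalize (if t (c1 τ.1) = v.1 then (1 : ZMod 2) else 0) = d
    revert a b d; decide
  have r1 : M1.rank = Fintype.card Vo := by
    rw [Matrix.rank, LinearMap.finrank_range_of_inj, finrank_fintype_fun_eq_card]
    rw [injective_iff_map_eq_zero]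
    intro ψ hψ
    let ψ' : V → ZMod 2 := fun v => if hv : ¬ V' v ∧ v ≠ v0 then ψ ⟨v, hv⟩ else 0
    have hψ' : ∀ w : V, ∑ v : Vo, (if w = v.1 then (1 : ZMod 2) else 0) * ψ v = ψ' w := by
      intro w
      by_cases hw : ¬ V' w ∧ w ≠ v0
      · rw [Finset.sum_eq_single ⟨w, hw⟩]
        · simp [ψ', hw]
        · intro e _ he
          rw [if_neg (fun hh => he (Subtype.ext hh.symm)), zero_mul]
        · simp
      · rw [Finset.sum_eq_zero]
        · simp only [ψ', dif_neg hw]
        intro e _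
        rw [if_neg (fun hh : w = e.1 => hw (hh ▸ e.2)), zero_mul]
    have hc := hconn ψ' (by
      intro e
      by_cases he : E' e
      · simp [ψ', (hE e he).1, (hE e he).2]
      · have := congrFun hψ ⟨e, he⟩
        rw [Matrix.mulVecLin_apply, Matrix.mulVec, dotProduct] at this
        simp only [M1, add_mul, Finset.sum_add_distrib, hψ', Pi.zero_apply] at this
        exact z2_add_eq_zero.mp this)
    ext v
    have := hc v.1
    simpa [ψ', v.2.1, v.2.2] using this
  have r2 : M2.rank = Fintype.card To := by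
    rw [← Matrix.rank_transpose, Matrix.rank, LinearMap.finrank_range_of_inj,
      finrank_fintype_fun_eq_card]
    rw [injective_iff_map_eq_zero]
    intro η hη
    by_contra hne
    have hS : (Subtype.val '' {τ : To | η τ ≠ 0}).Nonempty := by
      obtain ⟨τ, hτ⟩ := Function.ne_iff.mp hne
      exact ⟨τ.1, τ, hτ, rfl⟩
    obtain ⟨e, he, _, ⟨τ, hτ, rfl⟩, a1, a2, a3, a4⟩ := hforest _ hS (by
      rintro _ ⟨τ, -, rfl⟩; exact τ.2)
    have := congrFun hη ⟨e, he⟩
    simp only [Matrix.mulVecLin_apply, Matrix.mulVec, dotProduct, Matrix.transpose_apply,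
      Pi.zero_apply] at this
    rw [Finset.sum_eq_single τ] at this
    · have hM : M2 τ ⟨e, he⟩ = 1 := by
        simp only [M2, if_neg (a3 _)]
        rcases a1 with a1 | a1
        · rw [if_pos a1, if_neg (fun hh => a2 (a1.trans hh.symm))]; simp
        · rw [if_pos a1, if_neg (fun hh => a2 (hh.trans a1.symm))]; simp
      rw [hM, one_mul] at this
      exact hτ this
    · intro τ' _ hne'
      by_cases hz : η τ' = 0
      · rw [hz, mul_zero]
      · have hn : ¬ (c1 τ'.1 = e ∨ c2 τ'.1 = e) := fun hh =>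
          hne' (Subtype.ext (a4 _ ⟨τ', hz, rfl⟩ hh))
        push Not at hn
        simp [M2, a3, hn.1, hn.2]
    · simp
  have hr := Matrix.rank_add_rank_le_card_of_mul_eq_zero hmul
  rw [r1, r2] at hr
  have hv : Nat.card {v // ¬ V' v} ≤ Fintype.card Vo + 1 := by
    rw [← Fintype.card_option, ← Nat.card_eq_fintype_card]
    refine Nat.card_le_card_of_injective
      (fun v => if hv : v.1 = v0 then none else some (⟨v.1, v.2, hv⟩ : Vo)) ?_
    intro a b hab
    by_cases ha : a.1 = v0 <;> by_cases hb : b.1 = v0 <;> simp [ha, hb] at hab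
    · exact Subtype.ext (ha.trans hb.symm)
    · exact Subtype.ext (congrArg (fun z : Vo => z.1) hab)
  rw [Nat.card_eq_fintype_card (α := {τ // ¬ T' τ}), Nat.card_eq_fintype_card (α := {e // ¬ E' e})]
  change _ + Fintype.card To ≤ Fintype.card Eo + 1
  omega

theorem upper_ineq {X V0 E0 T0 V E T Gl : Type} [Finite X] [Finite V0] [Finite E0]
    [Finite V] [Finite E] [Finite T] [Finite Gl]
    (v : V0) (src tgt : E0 → V0) (th c1 c2 : T0 → E0)
    (hex : ∀ ω : E0 → ZMod 2, (∀ τ, ω (th τ) = ω (c1 τ) + ω (c2 τ)) →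
      ∃ φ : V0 → ZMod 2, ∀ e, ω e = φ (src e) + φ (tgt e))
    (pV : X × V0 → V) (pE : X × E0 → E) (hV : Function.Surjective pV)
    (hE : Function.Surjective pE) (h d1 d2 : T → E)
    (hT : ∀ x τ, ∃ σ, h σ = pE (x, th τ) ∧ d1 σ = pE (x, c1 τ) ∧ d2 σ = pE (x, c2 τ))
    (a b : Gl → X × V0)
    (hfold : ∀ φ : X × V0 → ZMod 2,
      (∀ u u', pE u = pE u' → φ (u.1, src u.2) + φ (u.1, tgt u.2) =
        φ (u'.1, src u'.2) + φ (u'.1, tgt u'.2)) →
      (∀ l, φ (a l) = φ (b l)) → ∀ u u', pV u = pV u' → φ u = φ u') :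
    Nat.card E + Nat.card X ≤ Nat.card Gl + Nat.card V + Nat.card T := by
  classical
  have := Fintype.ofFinite X
  have := Fintype.ofFinite V0
  have := Fintype.ofFinite E0
  have := Fintype.ofFinite V
  have := Fintype.ofFinite E
  have := Fintype.ofFinite T
  have := Fintype.ofFinite Gl
  let Pp : Submodule (ZMod 2) (X × V0 → ZMod 2) :=
    { carrier := {φ | ∀ u u', pE u = pE u' → φ (u.1, src u.2) + φ (u.1, tgt u.2) =
        φ (u'.1, src u'.2) + φ (u'.1, tgt u'.2)}
      add_mem' := by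
        intro φ ψ hφ hψ u u' hu
        have e1 := hφ u u' hu
        have e2 := hψ u u' hu
        simp only [Pi.add_apply]
        linear_combination e1 + e2
      zero_mem' := by intro u u' _; simp
      smul_mem' := by
        intro r φ hφ u u' hu
        have e1 := hφ u u' hu
        simp only [Pi.smul_apply, smul_eq_mul]
        linear_combination r * e1 }
  let D : Pp →ₗ[ZMod 2] (Gl → ZMod 2) :=
    { toFun := fun φ l => φ.1 (a l) + φ.1 (b l)
      map_add' := by intro φ ψ; ext l; simp; ring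
      map_smul' := by intro r φ; ext l; simp; ring }
  have e1 := LinearMap.finrank_range_add_finrank_ker D
  have e2 : finrank (ZMod 2) (LinearMap.range D) ≤ Fintype.card Gl := by
    rw [← finrank_fintype_fun_eq_card (ZMod 2)]; exact Submodule.finrank_le _
  have e3 : finrank (ZMod 2) (LinearMap.ker D) ≤ Fintype.card V := by
    rw [← finrank_fintype_fun_eq_card (ZMod 2)]
    let F : LinearMap.ker D →ₗ[ZMod 2] (V → ZMod 2) :=
      (LinearMap.funLeft (ZMod 2) (ZMod 2) (Function.surjInv hV)).comp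
        (Pp.subtype.comp (LinearMap.ker D).subtype)
    refine LinearMap.finrank_le_finrank_of_injective (f := F) ?_
    rw [injective_iff_map_eq_zero]
    intro φ hφ
    ext u
    have k1 := hfold φ.1.1 φ.1.2 (fun l => z2_add_eq_zero.mp (congrFun φ.2 l)) u
      (Function.surjInv hV (pV u)) (Function.surjInv_eq hV _).symm
    have k2 := congrFun hφ (pV u)
    exact k1.trans k2
  let δ : Pp →ₗ[ZMod 2] (E → ZMod 2) :=
    { toFun := fun φ e => φ.1 ((Function.surjInv hE e).1, src (Function.surjInv hE e).2) +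
        φ.1 ((Function.surjInv hE e).1, tgt (Function.surjInv hE e).2)
      map_add' := by intro φ ψ; ext l; simp; ring
      map_smul' := by intro r φ; ext l; simp; ring }
  let d : (E → ZMod 2) →ₗ[ZMod 2] (T → ZMod 2) :=
    { toFun := fun ω σ => ω (h σ) + (ω (d1 σ) + ω (d2 σ))
      map_add' := by intro φ ψ; ext l; simp; ring
      map_smul' := by intro r φ; ext l; simp; ring }
  have e4 := LinearMap.finrank_range_add_finrank_ker δ
  have e5 := LinearMap.finrank_range_add_finrank_ker d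
  have e6 : finrank (ZMod 2) (LinearMap.range d) ≤ Fintype.card T := by
    rw [← finrank_fintype_fun_eq_card (ZMod 2)]; exact Submodule.finrank_le _
  have e7 : finrank (ZMod 2) (LinearMap.ker d) ≤ finrank (ZMod 2) (LinearMap.range δ) := by
    apply Submodule.finrank_mono
    intro ω hω
    have : ∀ x : X, ∃ φ : V0 → ZMod 2, ∀ e, ω (pE (x, e)) = φ (src e) + φ (tgt e) := by
      intro x
      apply hex
      intro τ
      obtain ⟨σ, k1, k2, k3⟩ := hT x τ
      rw [← k1, ← k2, ← k3]
      exact z2_add_eq_zero.mp (congrFun hω σ)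
    choose φ hφ using this
    refine ⟨⟨fun u => φ u.1 u.2, ?_⟩, ?_⟩
    · intro u u' hu
      rw [← hφ, ← hφ]
      exact congrArg ω hu
    · ext e
      change φ _ _ + φ _ _ = _
      rw [← hφ]
      exact congrArg ω (Function.surjInv_eq hE e)
  have e8 : Fintype.card X ≤ finrank (ZMod 2) (LinearMap.ker δ) := by
    rw [← finrank_fintype_fun_eq_card (ZMod 2)]
    let F : (X → ZMod 2) →ₗ[ZMod 2] LinearMap.ker δ :=
      { toFun := fun κ => ⟨⟨fun u => κ u.1, fun u u' _ => by
            simp only [CharTwo.add_self_eq_zero]⟩, by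
            ext e; exact CharTwo.add_self_eq_zero _⟩
        map_add' := by intro φ ψ; rfl
        map_smul' := by intro r φ; rfl }
    refine LinearMap.finrank_le_finrank_of_injective (f := F) ?_
    intro κ κ' hκ
    ext x
    exact congrArg (fun φ : LinearMap.ker δ => φ.1.1 (x, v)) hκ
  rw [finrank_fintype_fun_eq_card] at e5
  simp only [Nat.card_eq_fintype_card]
  omega

end Crest.Agent.R191
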