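import Crest.Agent.R191.Approx
import Crest.Agent.R191.Concrete

/-! The lower bound for the cost of the Bernoulli shift. -/

namespace Crest.Agent.R191

open MeasureTheory Relation Crest.Dynamics Filter

theorem card_integral {X : Type} [Fintype X] {C : X → Set Om} (hC : ∀ x, MeasurableSet (C x)) :
    Integrable (fun y => (Nat.card {x // y ∈ C x} : ℝ)) mu ∧
      ∫ y, (Nat.card {x // y ∈ C x} : ℝ) ∂mu = ∑ x, mu.real (C x) := by
  classical
  have : (fun y => (Nat.card {x // y ∈ C x} : ℝ)) = fun y => ∑ x, (C x).indicator 1 y := by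
    funext y
    rw [Nat.card_eq_fintype_card, Fintype.card_subtype, Finset.card_filter]
    simp [Set.indicator_apply]
  rw [this]
  have hi : ∀ x, Integrable ((C x).indicator (1 : Om → ℝ)) mu := fun x =>
    (integrable_const _).indicator (hC x)
  refine ⟨integrable_finsetSum _ fun x _ => hi x, ?_⟩
  rw [integral_finsetSum _ fun x _ => hi x]
  exact Finset.sum_congr rfl fun x _ => integral_indicator_one (hC x)

theorem disc_ivt (f : ℕ → ℝ) (m : ℕ) (h0 : f 0 = 0) (hm : 1 / 4 ≤ f m)
    (hs : ∀ i, f (i + 1) ≤ f i + 1 / 4) : ∃ i, 1 / 4 ≤ f i ∧ f i ≤ 1 / 2 := by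
  induction m with
  | zero => norm_num [h0] at hm
  | succ m ih =>
    by_cases h : 1 / 4 ≤ f m
    · exact ih h
    · exact ⟨m + 1, hm, by linarith [hs m]⟩

theorem exists_chain {η : ℝ} (hη : 0 < η) : ∃ (Pt : ℕ → Set Om) (m : ℕ), (∀ i, Loc (Pt i)) ∧
    Pt 0 = ∅ ∧ Pt m = Set.univ ∧ Monotone Pt ∧ ∀ i, mu.real (Pt (i + 1) \ Pt i) ≤ η := by
  classical
  obtain ⟨n, hn⟩ := exists_pow_lt_of_lt_one hη (show (2⁻¹ : ℝ) < 1 by norm_num)
  obtain ⟨U, hU⟩ := Infinite.exists_subset_card_eq G n
  let code := Fintype.equivFin (U → Bool)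
  refine ⟨fun i => {y | (code (U.restrict y) : ℕ) < i}, Fintype.card (U → Bool), fun i =>
    ⟨U, fun y y' hy h => ?_⟩, by simp, Set.eq_univ_of_forall fun y => (code _).2,
    fun i j hij y hy => lt_of_lt_of_le hy hij, fun i => ?_⟩
  · have : U.restrict y = U.restrict y' := funext fun g => hy g g.2
    simpa [← this] using h
  · by_cases hne : ({y | (code (U.restrict y) : ℕ) < i + 1} \
      {y | (code (U.restrict y) : ℕ) < i} : Set Om) = ∅
    · simp only [hne, measureReal_empty, hη.le]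
    obtain ⟨y0, h0⟩ := Set.nonempty_iff_ne_empty.mpr hne
    have hsub : ({y | (code (U.restrict y) : ℕ) < i + 1} \
        {y | (code (U.restrict y) : ℕ) < i} : Set Om) ⊆ Set.pi U fun g => {y0 g} := by
      intro y hy g hg
      simp only [Set.mem_sdiff, Set.mem_ofPred_eq] at h0 hy
      have : code (U.restrict y) = code (U.restrict y0) := Fin.ext (by omega)
      exact congrFun (code.injective this) ⟨g, hg⟩
    refine (measureReal_mono hsub).trans ?_
    rw [Measure.real, mu, Measure.infinitePi_pi _ fun _ _ => measurableSet_singleton _]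
    simp only [ub_single, Finset.prod_const, hU, ENNReal.toReal_pow, ENNReal.toReal_inv,
      ENNReal.toReal_ofNat]
    exact hn.le

open Pointwise in
theorem lower_local {Gl : Type} [Fintype Gl] (g : Gl → G) (B : Gl → Set Om) (hB : ∀ j, Loc (B j))
    (hgen : ∀ (y : Om) γ, EqvGen (fun γ γ' => ∃ j, γ • y ∈ B j ∧ γ' = g j * γ) 1 γ) :
    1 + 3 / 4480 ≤ ∑ j, mu.real (B j) := by
  classical
  refine le_of_forall_pos_le_add fun η hη => ?_
  obtain ⟨Kb, hK⟩ := comb Gl g
  obtain ⟨H, hH⟩ := exists_nat_ge (max 2 (2 * Kb / η))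
  have hH2 : (2 : ℝ) ≤ H := (le_max_left _ _).trans hH
  have hHK : 2 * Kb ≤ H * η := (div_le_iff₀ hη).mp ((le_max_right _ _).trans hH)
  obtain ⟨Sg, tr, s0, s1, sA⟩ := hK H (by exact_mod_cast hH2)
  let cfg : Set Om → Om → G → (Gl → Prop) × Prop := fun Pt y γ =>
    (fun j => γ • y ∈ B j, γ • y ∈ Pt)
  let Sm : ℕ → Set Om → Set Om := fun R Pt => {y | Sg R (cfg Pt y) 1}
  have eqv : ∀ R Pt y a, a • y ∈ Sm R Pt ↔ Sg R (cfg Pt y) a := by
    intro R Pt y a
    obtain ⟨T, -, h⟩ := tr R
    have := h (cfg Pt (a • y)) (cfg Pt y) a 1 fun t _ => by simp [cfg, mul_smul]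
    rwa [one_mul] at this
  obtain ⟨R, hR⟩ := exists_large (S := fun R => Sm R Set.univ) (N := ∅) measure_empty
    (fun y _ => s1 _ (fun _ => trivial) (hgen y)) (show (0 : ℝ) < 1 / 2 by norm_num)
  obtain ⟨T, hT, hTr⟩ := tr R
  have hloc : ∀ Pt, Loc Pt → Loc (Sm R Pt) := by
    intro Pt hPt
    obtain ⟨F, hF⟩ := exists_locOn (B := fun o : Option Gl => o.elim Pt B) (by
      rintro (_ | j); exacts [hPt, hB j])
    refine Loc.of_finite (F.finite_toSet.mul hT) fun y y' hy h => ?_
    have := hTr (cfg Pt y) (cfg Pt y') 1 1 fun t ht => by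
      have e : ∀ u ∈ F, (t • y) u = (t • y') u := fun u hu => hy _ (Set.mul_mem_mul hu ht)
      have e' : ∀ o : Option Gl, (t • y ∈ o.elim Pt B) = (t • y' ∈ o.elim Pt B) := fun o =>
        propext ⟨hF o _ _ e, hF o _ _ fun u hu => (e u hu).symm⟩
      simp only [cfg, mul_one]
      exact Prod.ext (funext fun j => e' (some j)) (e' none)
    rw [mul_one] at this
    exact this.mp h
  obtain ⟨Pt, m, p1, p2, p3, p4, p5⟩ :=
    exists_chain (η := 1 / (4 * (hT.toFinset.card + 1))) (by positivity)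
  obtain ⟨i, i1, i2⟩ := disc_ivt (fun i => mu.real (Sm R (Pt i))) m (by
    have : Sm R (Pt 0) = ∅ := Set.eq_empty_of_forall_notMem fun y =>
      s0 R _ fun γ => by simp [cfg, p2]
    simp [this]) (by rw [p3]; linarith) (by
    intro i
    have hsub : Sm R (Pt (i + 1)) ⊆ Sm R (Pt i) ∪ ⋃ t ∈ hT.toFinset,
        (fun y : Om => t • y) ⁻¹' (Pt (i + 1) \ Pt i) := by
      intro y hy
      by_contra hn
      simp only [Set.mem_union, Set.mem_iUnion, not_or, not_exists] at hn
      have := hTr (cfg (Pt (i + 1)) y) (cfg (Pt i) y) 1 1 fun t ht => by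
        simp only [cfg, mul_one]
        refine Prod.ext rfl (propext ⟨fun h => ?_, fun h => p4 (Nat.le_succ i) h⟩)
        by_contra h'
        exact hn.2 t (by simpa using ht) ⟨h, h'⟩
      rw [mul_one] at this
      exact hn.1 (this.mp hy)
    have h1 := (measureReal_mono (μ := mu) hsub).trans (measureReal_union_le _ _)
    have h2 := measureReal_biUnion_finset_le (μ := mu) hT.toFinset
      fun t => (fun y : Om => t • y) ⁻¹' (Pt (i + 1) \ Pt i)
    have h3 : ∑ t ∈ hT.toFinset, mu.real ((fun y : Om => t • y) ⁻¹' (Pt (i + 1) \ Pt i)) ≤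
        ∑ t ∈ hT.toFinset, (1 / (4 * (hT.toFinset.card + 1)) : ℝ) := Finset.sum_le_sum fun t _ => by
      rw [(mp_smul t).measureReal_preimage ((p1 _).meas.diff (p1 _).meas).nullMeasurableSet]
      exact p5 i
    have h4 : ∑ t ∈ hT.toFinset, (1 / (4 * (hT.toFinset.card + 1)) : ℝ) ≤ 1 / 4 := by
      rw [Finset.sum_const, nsmul_eq_mul, mul_one_div, div_le_div_iff₀ (by positivity) (by norm_num)]
      linarith
    linarith)
  set S := Sm R (Pt i) with hS
  have hSl : Loc S := hloc _ (p1 i)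
  have hgap := gap hSl
  set C := {y | y ∈ S ∧ ¬ (ga false • y ∈ S ∧ ga true • y ∈ S)} with hC
  have hCl : Loc C := hSl.inter ((hSl.comp fun u => u * ga false).inter
    (hSl.comp fun u => u * ga true)).compl
  have hC1 : 3 / 4480 ≤ mu.real C := by nlinarith
  obtain ⟨F0, hF0⟩ := exists_locOn (B := fun o : Option Gl => o.elim C B) (by
      rintro (_ | j); exacts [hCl, hB j])
  obtain ⟨N, hN⟩ := exists_nat_ge (2 / η)
  obtain ⟨F, hF1, hF2⟩ := Infinite.exists_superset_card_eq F0 (F0.card + N) (Nat.le_add_right _ _)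
  have hF : ∀ o : Option Gl, LocOn F (o.elim C B) := fun o y y' hy =>
    hF0 o y y' fun u hu => hy u (hF1 hu)
  obtain ⟨D, hD, hA⟩ := sA R
  obtain ⟨Pi, n1, n2, n3⟩ := exists_normal_avoid (hD.toFinset ∪ F⁻¹ * F)
  have := Fintype.ofFinite (G ⧸ Pi)
  have hinj : ∀ γ, Set.InjOn (fun u => ((u * γ : G) : G ⧸ Pi)) F := by
    intro γ u hu v hv h
    have h1 := n1.conj_mem _ (QuotientGroup.eq.mp h) γ
    have h2 := n3 (u⁻¹ * v) (Finset.mem_union_right _
      (Finset.mul_mem_mul (Finset.inv_mem_inv hu) hv)) (by simpa [mul_assoc] using h1)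
    exact inv_mul_eq_one.mp h2
  have hn : (N : ℝ) ≤ Nat.card (G ⧸ Pi) := by
    have := Finset.card_le_card_of_injOn (t := Finset.univ) _ (fun _ _ => Finset.mem_univ _)
      (hinj 1)
    rw [Nat.card_eq_fintype_card]
    rw [Finset.card_univ] at this
    exact_mod_cast (by omega : N ≤ Fintype.card (G ⧸ Pi))
  let ι : G ⧸ Pi → G → G := fun x u => ((u * x.out : G) : G ⧸ Pi).out
  have hι : ∀ x, Set.InjOn (ι x) F := fun x u hu v hv h =>
    hinj x.out hu hv (Quotient.out_injective h)
  have main : ∀ y : Om, (H : ℝ) * (Nat.card {x : G ⧸ Pi // y ∈ {y : Om | (fun u => y (ι x u)) ∈ C}} +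
      Nat.card (G ⧸ Pi)) ≤ H * (Nat.card {l : (G ⧸ Pi) × Gl //
        y ∈ {y : Om | (fun u => y (ι l.1 u)) ∈ B l.2}} + 1) + Nat.card (G ⧸ Pi) * Kb := by
    intro y
    let y' : Om := fun u => y ((u : G ⧸ Pi).out)
    have := hA Pi (fun d hd => n3 d (Finset.mem_union_left _ (by simpa using hd))) (cfg (Pt i) y')
      (fun a ha γ => by
        have : (γ * a) • y' = γ • y' := by
          funext u
          simp only [smul_app, y', ← mul_assoc, QuotientGroup.mk_mul_of_mem _ ha]
        simp only [cfg, this]) (hgen y')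
    simp only [← eqv, mul_smul] at this
    exact_mod_cast this
  obtain ⟨a1, a2⟩ := card_integral (C := fun x : G ⧸ Pi => {y : Om | (fun u => y (ι x u)) ∈ C})
    fun x => (hCl.comp _).meas
  obtain ⟨b1, b2⟩ := card_integral
    (C := fun l : (G ⧸ Pi) × Gl => {y : Om | (fun u => y (ι l.1 u)) ∈ B l.2})
    fun l => ((hB l.2).comp _).meas
  have c1 : ∀ x, mu.real {y : Om | (fun u => y (ι x u)) ∈ C} = mu.real C := fun x =>
    congrArg ENNReal.toReal ((hF none).map (hι x))
  have c2 : ∀ l : (G ⧸ Pi) × Gl,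
      mu.real {y : Om | (fun u => y (ι l.1 u)) ∈ B l.2} = mu.real (B l.2) := fun l =>
    congrArg ENNReal.toReal ((hF (some l.2)).map (hι l.1))
  simp only [c1, c2, Fintype.sum_prod_type, Finset.sum_const, Finset.card_univ, nsmul_eq_mul,
    ← Nat.card_eq_fintype_card] at a2 b2
  have hint := integral_mono ((a1.add (integrable_const _)).const_mul H)
    (((b1.add (integrable_const _)).const_mul H).add (integrable_const _)) main
  simp only [_root_.Pi.add_apply] at hint
  rw [integral_add (by exact (b1.add (integrable_const _)).const_mul H) (integrable_const _),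
    integral_const_mul, integral_const_mul, integral_add a1 (integrable_const _),
    integral_add b1 (integrable_const _), a2, b2] at hint
  simp only [integral_const, probReal_univ, one_smul] at hint
  have hn0 : (0 : ℝ) < Nat.card (G ⧸ Pi) := by exact_mod_cast Nat.card_pos
  generalize (Nat.card (G ⧸ Pi) : ℝ) = n at hn hn0 hint
  have hnη : 2 ≤ n * η := ((div_le_iff₀ hη).mp hN).trans (by gcongr)
  have hH0 : (0 : ℝ) < H := by linarith
  by_contra hlt
  push Not at hlt
  have e1 : ∑ j, mu.real (B j) + η < 1 + mu.real C := by linarith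
  have e2 := mul_lt_mul_of_pos_left e1 (mul_pos hH0 hn0)
  nlinarith [mul_le_mul_of_nonneg_left hHK hn0.le, mul_le_mul_of_nonneg_left hnη hH0.le]

theorem lower : 1 + ENNReal.ofReal (3 / 4480) ≤ actionCost G Om mu := by
  refine le_sInf ?_
  rintro _ ⟨Φ, hΦ, rfl⟩
  by_cases hfin : graphingCost mu Φ = ⊤
  · simp [hfin]
  have : 1 + 3 / 4480 ≤ (graphingCost mu Φ).toReal := by
    refine le_of_forall_pos_le_add fun ε hε => ?_
    obtain ⟨Gl, _, g, B, h1, h2, h3⟩ := approx hΦ hfin (show 0 < ε / 7 by positivity)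
    have := lower_local g B h1 h3
    linarith
  rw [← ENNReal.ofReal_one, ← ENNReal.ofReal_add (by norm_num) (by norm_num)]
  exact (ENNReal.ofReal_le_iff_le_toReal hfin).mpr this

end Crest.Agent.R191
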