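import Crest.Agent.R191.Lin

/-! Counting marks on the big subcomplex. -/

namespace Crest.Agent.R191

theorem mark_ineq {V E T : Type} [Finite V] [Finite E] [Finite T] (s t : E → V)
    (kind : E → Bool ⊕ Fin 3) (h c1 c2 : T → E) (tk : T → Fin 4)
    (h1 : ∀ τ, s (c1 τ) = s (h τ)) (h2 : ∀ τ, s (c2 τ) = t (h τ)) (h3 : ∀ τ, t (c2 τ) = t (c1 τ))
    (k0 : ∀ τ, kind (h τ) = .inl (lt (tk τ))) (k1 : ∀ τ, kind (c1 τ) = .inr (st (tk τ)))
    (k2 : ∀ τ, kind (c2 τ) = .inr (tt (tk τ)))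
    (big : V → Prop) (hbs : ∀ e, ¬ big (s e))
    (MK : V → Fin 3 → Prop) (hMK : ∀ v i, MK v i ↔ ∃ e, kind e = .inr i ∧ big (t e) ∧ s e = v)
    (huT : ∀ τ τ', big (t (c1 τ)) → big (t (c1 τ')) → tk τ = tk τ' → h τ = h τ' → τ = τ')
    (huD : ∀ e e' x, kind e = .inl x → kind e' = .inl x → s e = s e' → MK (t e) 0 → MK (t e) 1 →
      MK (t e') 0 → MK (t e') 1 → e = e')
    (good : V → Prop) (hgood : ∀ v, good v → MK v 0 ∧ MK v 1 ∧
      ¬ ∀ x, ∃ e, kind e = .inl x ∧ s e = v ∧ MK (t e) 0 ∧ MK (t e) 1) :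
    Nat.card {v // good v} + Nat.card {τ // big (t (c1 τ))} +
      Nat.card {v // big v ∨ ∃ i, MK v i} ≤
      Nat.card {e // (∃ i, kind e = .inr i ∧ big (t e)) ∨ ∃ τ, big (t (c1 τ)) ∧ h τ = e} +
        Nat.card {v // big v} := by
  classical
  -- double triangles
  let Dbl : T → Prop := fun τ => big (t (c1 τ)) ∧ ∃ τ', big (t (c1 τ')) ∧ h τ' = h τ ∧
    ((tk τ = 1 ∧ tk τ' = 0) ∨ (tk τ = 3 ∧ tk τ' = 2))
  have mk1 : ∀ τ, big (t (c1 τ)) → MK (s (h τ)) (st (tk τ)) := fun τ hb =>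
    (hMK _ _).mpr ⟨c1 τ, k1 τ, hb, h1 τ⟩
  have mk2 : ∀ τ, big (t (c1 τ)) → MK (t (h τ)) (tt (tk τ)) := fun τ hb =>
    (hMK _ _).mpr ⟨c2 τ, k2 τ, by rw [h3]; exact hb, h2 τ⟩
  have dbl_t : ∀ τ, Dbl τ → MK (t (h τ)) 0 ∧ MK (t (h τ)) 1 := by
    rintro τ ⟨b, τ', b', e, ⟨f1, f2⟩ | ⟨f1, f2⟩⟩ <;>
    · have a1 := mk2 τ b
      have a2 := mk2 τ' b'
      rw [f1] at a1
      rw [f2, e] at a2
      exact ⟨a2, a1⟩
  have dbl_s : ∀ τ, Dbl τ → (tk τ = 1 ∧ MK (s (h τ)) 1 ∧ MK (s (h τ)) 2) ∨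
      (tk τ = 3 ∧ MK (s (h τ)) 2 ∧ MK (s (h τ)) 0) := by
    rintro τ ⟨b, τ', b', e, ⟨f1, f2⟩ | ⟨f1, f2⟩⟩
    · have a1 := mk1 τ b
      have a2 := mk1 τ' b'
      rw [f1] at a1
      rw [f2, e] at a2
      exact Or.inl ⟨f1, a2, a1⟩
    · have a1 := mk1 τ b
      have a2 := mk1 τ' b'
      rw [f1] at a1
      rw [f2, e] at a2
      exact Or.inr ⟨f1, a2, a1⟩
  let FA : V → Prop := fun v => ∃ τ, Dbl τ ∧ tk τ = 1 ∧ s (h τ) = v
  let FB : V → Prop := fun v => ∃ τ, Dbl τ ∧ tk τ = 3 ∧ s (h τ) = v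
  have hA : ∀ v, FA v → MK v 1 ∧ MK v 2 := by
    rintro v ⟨τ, d, e, rfl⟩
    rcases dbl_s τ d with ⟨-, a⟩ | ⟨a, -⟩
    · exact a
    · rw [e] at a; exact absurd a (by decide)
  have hB : ∀ v, FB v → MK v 2 ∧ MK v 0 := by
    rintro v ⟨τ, d, e, rfl⟩
    rcases dbl_s τ d with ⟨a, -⟩ | ⟨-, a⟩
    · rw [e] at a; exact absurd a (by decide)
    · exact a
  have hABG : ∀ v, FA v → FB v → good v → False := by
    rintro v ⟨τ, d, e, f⟩ ⟨τ', d', e', f'⟩ g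
    apply (hgood v g).2.2
    intro x
    cases x
    · exact ⟨h τ, by rw [k0, e]; rfl, f, dbl_t τ d⟩
    · exact ⟨h τ', by rw [k0, e']; rfl, f', dbl_t τ' d'⟩
  have hm : ∀ v : {v // ∃ i, MK v i}, ∃ i, MK v.1 i ∧ (FA v.1 → i ≠ 1) ∧ (FB v.1 → i ≠ 2) ∧
      (good v.1 → i ≠ 0) := by
    rintro ⟨v, i, hi⟩
    by_cases a : FA v <;> by_cases b : FB v <;> by_cases g : good v
    · exact (hABG v a b g).elim
    · exact ⟨0, (hB v b).2, by simp [g]⟩
    · exact ⟨2, (hA v a).2, by simp [b]⟩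
    · exact ⟨2, (hA v a).2, by simp [b]⟩
    · exact ⟨1, (hgood v g).2.1, by simp [a]⟩
    · exact ⟨0, (hB v b).2, by simp [g]⟩
    · exact ⟨1, (hgood v g).2.1, by simp [a]⟩
    · exact ⟨i, hi, by simp [a, b, g]⟩
  choose m hm using hm
  have hcone : ∀ p : {p : V × Fin 3 // MK p.1 p.2},
      ∃ e, kind e = .inr p.1.2 ∧ big (t e) ∧ s e = p.1.1 := fun p => (hMK _ _).mp p.2
  choose cone hcone using hcone
  -- step 1
  have s1 : Nat.card {v // good v} + Nat.card {v // ∃ i, MK v i} + Nat.card {τ // Dbl τ} ≤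
      Nat.card {p : V × Fin 3 // MK p.1 p.2} := by
    rw [← Nat.card_sum, ← Nat.card_sum]
    let f : ({v // good v} ⊕ {v // ∃ i, MK v i}) ⊕ {τ // Dbl τ} →
        {p : V × Fin 3 // MK p.1 p.2} := fun z => match z with
      | .inl (.inl v) => ⟨(v.1, 0), (hgood _ v.2).1⟩
      | .inl (.inr v) => ⟨(v.1, m v), (hm v).1⟩
      | .inr τ => ⟨(s (h τ.1), if tk τ.1 = 1 then 1 else 2), by
          rcases dbl_s _ τ.2 with ⟨a, b, -⟩ | ⟨a, b, -⟩
          · simpa [a] using b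
          · simpa [a] using b⟩
    have fd : ∀ (τ : {τ // Dbl τ}) (v : {v // ∃ i, MK v i}), s (h τ.1) = v.1 →
        (if tk τ.1 = 1 then (1 : Fin 3) else 2) ≠ m v := by
      intro τ v e
      rcases dbl_s _ τ.2 with ⟨a, -⟩ | ⟨a, -⟩
      · simpa [a] using ((hm v).2.1 ⟨τ.1, τ.2, a, e⟩).symm
      · simpa [a] using ((hm v).2.2.1 ⟨τ.1, τ.2, a, e⟩).symm
    refine Nat.card_le_card_of_injective f ?_
    rintro ((a | a) | a) ((b | b) | b) hab <;>
      simp only [f, Subtype.mk.injEq, Prod.mk.injEq] at hab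
    · rw [Subtype.ext hab.1]
    · exact absurd hab.2.symm ((hm b).2.2.2 (hab.1 ▸ a.2))
    · split_ifs at hab <;> simp at hab
    · exact absurd hab.2 ((hm a).2.2.2 (hab.1 ▸ b.2))
    · rw [Subtype.ext hab.1]
    · exact absurd hab.2.symm (fd b a hab.1.symm)
    · split_ifs at hab <;> simp at hab
    · exact absurd hab.2 (fd a b hab.1)
    · have htk : tk a.1 = tk b.1 := by
        rcases dbl_s _ a.2 with ⟨x, -⟩ | ⟨x, -⟩ <;> rcases dbl_s _ b.2 with ⟨y, -⟩ | ⟨y, -⟩ <;>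
          simp [x, y] at hab ⊢
      have := huD _ _ _ (k0 a.1) (htk ▸ k0 b.1) hab.1 (dbl_t _ a.2).1 (dbl_t _ a.2).2
        (dbl_t _ b.2).1 (dbl_t _ b.2).2
      rw [Subtype.ext (huT _ _ a.2.1 b.2.1 htk this)]
  -- step 2
  have s2 : Nat.card {p : V × Fin 3 // MK p.1 p.2} + Nat.card {e // ∃ τ, big (t (c1 τ)) ∧ h τ = e}
      ≤ Nat.card {e // (∃ i, kind e = .inr i ∧ big (t e)) ∨ ∃ τ, big (t (c1 τ)) ∧ h τ = e} := by
    rw [← Nat.card_sum]
    refine Nat.card_le_card_of_injective (Sum.elim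
      (fun p => ⟨cone p, Or.inl ⟨_, (hcone p).1, (hcone p).2.1⟩⟩) (fun e => ⟨e.1, Or.inr e.2⟩)) ?_
    rintro (a | a) (b | b) hab <;> simp only [Sum.elim_inl, Sum.elim_inr, Subtype.mk.injEq] at hab
    · congr 1
      ext
      · rw [← (hcone a).2.2, ← (hcone b).2.2, hab]
      · have := (hcone a).1
        rw [hab, (hcone b).1] at this
        simp only [Sum.inr.injEq] at this
        rw [this]
    · obtain ⟨τ, -, e⟩ := b.2
      have := (hcone a).1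
      rw [hab, ← e, k0] at this
      simp at this
    · obtain ⟨τ, -, e⟩ := a.2
      have := (hcone b).1
      rw [← hab, ← e, k0] at this
      simp at this
    · rw [Subtype.ext hab]
  -- step 3
  have s3 : Nat.card {τ // big (t (c1 τ))} ≤
      Nat.card {e // ∃ τ, big (t (c1 τ)) ∧ h τ = e} + Nat.card {τ // Dbl τ} := by
    rw [← Nat.card_sum]
    refine Nat.card_le_card_of_injective
      (fun τ => if hd : Dbl τ.1 then .inr ⟨τ.1, hd⟩ else .inl ⟨h τ.1, τ.1, τ.2, rfl⟩) ?_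
    intro a b hab
    by_cases ha : Dbl a.1 <;> by_cases hb : Dbl b.1 <;> simp [ha, hb] at hab
    · exact Subtype.ext hab
    · have hl : lt (tk a.1) = lt (tk b.1) := by
        have := k0 a.1
        rw [hab, k0] at this
        simpa using this.symm
      have key : ∀ i j : Fin 4, lt i = lt j → i = j ∨ ((i = 1 ∧ j = 0) ∨ (i = 3 ∧ j = 2)) ∨
          ((j = 1 ∧ i = 0) ∨ (j = 3 ∧ i = 2)) := by decide
      rcases key _ _ hl with k | k | k
      · exact Subtype.ext (huT _ _ a.2 b.2 k hab)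
      · exact absurd ⟨a.2, b.1, b.2, hab.symm, k⟩ ha
      · exact absurd ⟨b.2, a.1, a.2, hab, k⟩ hb
  have s4 : Nat.card {v // big v ∨ ∃ i, MK v i} ≤
      Nat.card {v // big v} + Nat.card {v // ∃ i, MK v i} := by
    rw [← Nat.card_sum]
    refine Nat.card_le_card_of_injective
      (fun v => if hb : big v.1 then .inl ⟨v.1, hb⟩ else .inr ⟨v.1, v.2.resolve_left hb⟩) ?_
    intro a b hab
    by_cases ha : big a.1 <;> by_cases hb : big b.1 <;> simp [ha, hb] at hab <;>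
      exact Subtype.ext hab
  omega

theorem card_split {X : Type} [Finite X] (p : X → Prop) :
    Nat.card X = Nat.card {x // p x} + Nat.card {x // ¬ p x} := by
  classical
  rw [← Nat.card_sum]
  exact Nat.card_congr (Equiv.sumCompl p).symm

end Crest.Agent.R191
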