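import Crest.Agent.R191.Sim

/-! The finite quotient complex of a periodic configuration. -/

namespace Crest.Agent.R191

open Relation

def perSetoid {J : Type} (Pi : Subgroup G) (R : G × J → G × J → Prop) (hR : Equivalence R)
    (he : ∀ g ∈ Pi, ∀ u u', R u u' → R (u.1 * g, u.2) (u'.1 * g, u'.2)) : Setoid (G × J) where
  r u u' := ∃ g ∈ Pi, R u (u'.1 * g, u'.2)
  iseqv :=
    { refl := fun u => ⟨1, Pi.one_mem, by simpa using hR.refl u⟩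
      symm := by
        rintro u u' ⟨g, hg, h⟩
        refine ⟨g⁻¹, Pi.inv_mem hg, ?_⟩
        simpa using he g⁻¹ (Pi.inv_mem hg) _ _ (hR.symm h)
      trans := by
        rintro u u' u'' ⟨g, hg, h⟩ ⟨g', hg', h'⟩
        refine ⟨g' * g, Pi.mul_mem hg' hg, hR.trans h ?_⟩
        simpa [mul_assoc] using he g hg _ _ h' }

theorem out_mem (Pi : Subgroup G) (γ : G) :
    ∃ g ∈ Pi, (γ : G ⧸ Pi).out = γ * g := by
  obtain ⟨g, hg⟩ := QuotientGroup.mk_out_eq_mul Pi γ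
  exact ⟨g, g.2, hg⟩

theorem perSetoid_out {J : Type} {Pi : Subgroup G} {R : G × J → G × J → Prop} {hR : Equivalence R}
    {he} (γ : G) (j : J) :
    Quotient.mk (perSetoid Pi R hR he) ((γ : G ⧸ Pi).out, j) = Quotient.mk _ (γ, j) := by
  obtain ⟨g, hg, h⟩ := out_mem Pi γ
  exact Quotient.sound ⟨g, hg, by rw [h]; exact hR.refl _⟩

theorem perSetoid_surj {J : Type} {Pi : Subgroup G} {R : G × J → G × J → Prop}
    {hR : Equivalence R} {he} : Function.Surjective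
      fun u : (G ⧸ Pi) × J => Quotient.mk (perSetoid Pi R hR he) (u.1.out, u.2) := by
  intro q
  induction q using Quotient.inductionOn with
  | h u => exact ⟨((u.1 : G ⧸ Pi), u.2), perSetoid_out _ _⟩

theorem perSetoid_finite {J : Type} [Finite J] {Pi : Subgroup G} [Pi.FiniteIndex]
    {R : G × J → G × J → Prop} {hR : Equivalence R} {he} :
    Finite (Quotient (perSetoid Pi R hR he)) :=
  Finite.of_surjective _ perSetoid_surj

theorem perSetoid_mul {J : Type} {Pi : Subgroup G} {R : G × J → G × J → Prop}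
    {hR : Equivalence R} {he} (γ : G) (j : J) {g : G} (hg : g ∈ Pi) :
    Quotient.mk (perSetoid Pi R hR he) (γ * g, j) = Quotient.mk _ (γ, j) :=
  Quotient.sound ⟨g, hg, hR.refl _⟩

theorem perSetoid_rel {J : Type} {Pi : Subgroup G} {R : G × J → G × J → Prop}
    {hR : Equivalence R} {he} {u u' : G × J} (h : R u u') :
    Quotient.mk (perSetoid Pi R hR he) u = Quotient.mk _ u' :=
  Quotient.sound ⟨1, Pi.one_mem, by simpa using h⟩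

theorem perSetoid_exact {J : Type} {Pi : Subgroup G} {R : G × J → G × J → Prop}
    {hR : Equivalence R} {he} {u u' : G × J}
    (h : Quotient.mk (perSetoid Pi R hR he) u = Quotient.mk _ u') :
    ∃ g ∈ Pi, R u (u'.1 * g, u'.2) := Quotient.exact h

structure Ctx where
  P : Piece
  fV : Finite P.V
  c : P.Cfg
  r : ℕ
  H : ℕ
  Pi : Subgroup G
  per : ∀ g ∈ Pi, ∀ γ, c (γ * g) = c γ

namespace Ctx

open Piece

variable (K : Ctx)

instance : Finite K.P.V := K.fV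

def sV : Setoid (G × K.P.V) := perSetoid K.Pi (K.P.Sim K.c K.r K.H) Sim.equivalence
  fun g hg _ _ h => h.per (K.per g hg)
def sE : Setoid (G × K.P.E) := perSetoid K.Pi (K.P.SE K.c K.r K.H) SE.equivalence
  fun g hg _ _ h => h.per (K.per g hg)
def sT : Setoid (G × K.P.T) := perSetoid K.Pi (K.P.ST K.c K.r K.H) ST.equivalence
  fun g hg _ _ h => h.per (K.per g hg)

abbrev QV := Quotient K.sV
abbrev QE := Quotient K.sE
abbrev QT := Quotient K.sT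

def mV (u : G × K.P.V) : K.QV := Quotient.mk _ u
def mE (u : G × K.P.E) : K.QE := Quotient.mk _ u
def mT (u : G × K.P.T) : K.QT := Quotient.mk _ u

def qs : K.QE → K.QV := Quotient.map (fun u => (u.1, K.P.src u.2))
  (by rintro u u' ⟨g, hg, h⟩; exact ⟨g, hg, h.2.1⟩)
def qt : K.QE → K.QV := Quotient.map (fun u => (u.1, K.P.tgt u.2))
  (by rintro u u' ⟨g, hg, h⟩; exact ⟨g, hg, h.2.2⟩)
def qk : K.QE → Bool ⊕ Fin 3 := Quotient.lift (fun u => K.P.kind u.2)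
  (by rintro u u' ⟨g, hg, h⟩; exact h.1)
def qh : K.QT → K.QE := Quotient.map (fun u => (u.1, K.P.th u.2))
  (by rintro u u' ⟨g, hg, h⟩; exact ⟨g, hg, h.2.1⟩)
def q1 : K.QT → K.QE := Quotient.map (fun u => (u.1, K.P.c1 u.2))
  (by rintro u u' ⟨g, hg, h⟩; exact ⟨g, hg, h.c1⟩)
def q2 : K.QT → K.QE := Quotient.map (fun u => (u.1, K.P.c2 u.2))
  (by rintro u u' ⟨g, hg, h⟩; exact ⟨g, hg, h.c2⟩)
def qtk : K.QT → Fin 4 := Quotient.lift (fun u => K.P.tk u.2)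
  (by rintro u u' ⟨g, hg, h⟩; exact h.1)
def qbig (v : K.QV) : Prop := ∃ u, K.mV u = v ∧ K.P.blob u.2 ∧ K.P.Big K.c K.r K.H u
def MK (v : K.QV) (i : Fin 3) : Prop := ∃ e, K.qk e = .inr i ∧ K.qbig (K.qt e) ∧ K.qs e = v

variable {K}

@[simp] theorem qs_mk (γ : G) (e : K.P.E) : K.qs (K.mE (γ, e)) = K.mV (γ, K.P.src e) := rfl
@[simp] theorem qt_mk (γ : G) (e : K.P.E) : K.qt (K.mE (γ, e)) = K.mV (γ, K.P.tgt e) := rfl
@[simp] theorem qk_mk (γ : G) (e : K.P.E) : K.qk (K.mE (γ, e)) = K.P.kind e := rfl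
@[simp] theorem qh_mk (γ : G) (t : K.P.T) : K.qh (K.mT (γ, t)) = K.mE (γ, K.P.th t) := rfl
@[simp] theorem q1_mk (γ : G) (t : K.P.T) : K.q1 (K.mT (γ, t)) = K.mE (γ, K.P.c1 t) := rfl
@[simp] theorem q2_mk (γ : G) (t : K.P.T) : K.q2 (K.mT (γ, t)) = K.mE (γ, K.P.c2 t) := rfl
@[simp] theorem qtk_mk (γ : G) (t : K.P.T) : K.qtk (K.mT (γ, t)) = K.P.tk t := rfl

theorem exV (v : K.QV) : ∃ γ j, K.mV (γ, j) = v := by
  obtain ⟨⟨γ, j⟩, h⟩ := Quotient.exists_rep v; exact ⟨γ, j, h⟩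
theorem exE (v : K.QE) : ∃ γ j, K.mE (γ, j) = v := by
  obtain ⟨⟨γ, j⟩, h⟩ := Quotient.exists_rep v; exact ⟨γ, j, h⟩
theorem exT (v : K.QT) : ∃ γ j, K.mT (γ, j) = v := by
  obtain ⟨⟨γ, j⟩, h⟩ := Quotient.exists_rep v; exact ⟨γ, j, h⟩

theorem mV_exact {γ γ' : G} {j j' : K.P.V} (h : K.mV (γ, j) = K.mV (γ', j')) :
    ∃ g ∈ K.Pi, K.P.Sim K.c K.r K.H (γ, j) (γ' * g, j') := perSetoid_exact h
theorem mE_exact {γ γ' : G} {j j' : K.P.E} (h : K.mE (γ, j) = K.mE (γ', j')) :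
    ∃ g ∈ K.Pi, K.P.SE K.c K.r K.H (γ, j) (γ' * g, j') := perSetoid_exact h
theorem mV_rel {u u' : G × K.P.V} (h : K.P.Sim K.c K.r K.H u u') : K.mV u = K.mV u' :=
  perSetoid_rel h
theorem mE_rel {u u' : G × K.P.E} (h : K.P.SE K.c K.r K.H u u') : K.mE u = K.mE u' :=
  perSetoid_rel h
theorem mT_rel {u u' : G × K.P.T} (h : K.P.ST K.c K.r K.H u u') : K.mT u = K.mT u' :=
  perSetoid_rel h
theorem mV_mul (γ : G) (j : K.P.V) {g : G} (hg : g ∈ K.Pi) : K.mV (γ * g, j) = K.mV (γ, j) :=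
  perSetoid_mul γ j hg
theorem mE_mul (γ : G) (j : K.P.E) {g : G} (hg : g ∈ K.Pi) : K.mE (γ * g, j) = K.mE (γ, j) :=
  perSetoid_mul γ j hg
theorem mT_mul (γ : G) (j : K.P.T) {g : G} (hg : g ∈ K.Pi) : K.mT (γ * g, j) = K.mT (γ, j) :=
  perSetoid_mul γ j hg

theorem qbig_mk {γ : G} {j : K.P.V} :
    K.qbig (K.mV (γ, j)) ↔ K.P.blob j ∧ K.P.Big K.c K.r K.H (γ, j) := by
  refine ⟨?_, fun h => ⟨_, rfl, h⟩⟩
  rintro ⟨⟨γ', j'⟩, h1, h2, h3⟩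
  obtain ⟨g, hg, h⟩ := mV_exact h1
  exact ⟨h.inv.1.mp h2, (Big.per (K.per g hg) (γ, j)).mp (h.big h2 h3)⟩

theorem MK_mk {γ : G} {j : K.P.V} {i : Fin 3} :
    K.MK (K.mV (γ, j)) i ↔ K.P.BM K.c K.r K.H i (γ, j) := by
  constructor
  · rintro ⟨e, h1, h2, h3⟩
    obtain ⟨γ', e, rfl⟩ := exE e
    simp only [qk_mk, qt_mk, qs_mk, qbig_mk] at h1 h2 h3
    obtain ⟨g, hg, h⟩ := mV_exact h3.symm
    exact ⟨γ' * g, e, h1, (Big.per (K.per g hg) (γ', _)).mpr h2.2, h.symm⟩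
  · rintro ⟨γ', e, h1, h2, h3⟩
    exact ⟨K.mE (γ', e), h1, qbig_mk.mpr ⟨K.P.kind_c _ _ h1, h2⟩, mV_rel h3⟩

theorem q_h1 (τ : K.QT) : K.qs (K.q1 τ) = K.qs (K.qh τ) := by
  obtain ⟨γ, t, rfl⟩ := exT τ; simp [K.P.src_c1]
theorem q_h2 (τ : K.QT) : K.qs (K.q2 τ) = K.qt (K.qh τ) := by
  obtain ⟨γ, t, rfl⟩ := exT τ; simp [K.P.src_c2]
theorem q_h3 (τ : K.QT) : K.qt (K.q2 τ) = K.qt (K.q1 τ) := by
  obtain ⟨γ, t, rfl⟩ := exT τ; simp [K.P.tgt_c]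
theorem q_k0 (τ : K.QT) : K.qk (K.qh τ) = .inl (lt (K.qtk τ)) := by
  obtain ⟨γ, t, rfl⟩ := exT τ; simp [K.P.th_kind]
theorem q_k1 (τ : K.QT) : K.qk (K.q1 τ) = .inr (st (K.qtk τ)) := by
  obtain ⟨γ, t, rfl⟩ := exT τ; simp [K.P.c1_kind]
theorem q_k2 (τ : K.QT) : K.qk (K.q2 τ) = .inr (tt (K.qtk τ)) := by
  obtain ⟨γ, t, rfl⟩ := exT τ; simp [K.P.c2_kind]

theorem q_huT (τ τ' : K.QT) (b : K.qbig (K.qt (K.q1 τ))) (b' : K.qbig (K.qt (K.q1 τ')))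
    (hk : K.qtk τ = K.qtk τ') (hh : K.qh τ = K.qh τ') : τ = τ' := by
  obtain ⟨γ, t, rfl⟩ := exT τ
  obtain ⟨γ', t', rfl⟩ := exT τ'
  simp only [q1_mk, qt_mk, qbig_mk, qtk_mk, qh_mk] at b b' hk hh
  obtain ⟨g, hg, h⟩ := mE_exact hh
  rw [← mT_mul γ' t' hg]
  have hs : K.P.Sim K.c K.r K.H (γ, K.P.src (K.P.c1 t)) (γ' * g, K.P.src (K.P.c1 t')) := by
    simpa only [K.P.src_c1] using h.2.1
  refine mT_rel ⟨hk, h, Sim.r3 (SK_of_sim ?_ hs) (K.P.c1_kind t) b.2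
    ((Big.per (K.per g hg) (γ', _)).mpr b'.2) hs⟩
  simp only [K.P.c1_kind, hk]

theorem q_huD (e e' : K.QE) (x : Bool) (k : K.qk e = .inl x) (k' : K.qk e' = .inl x)
    (hs : K.qs e = K.qs e') (a0 : K.MK (K.qt e) 0) (a1 : K.MK (K.qt e) 1)
    (b0 : K.MK (K.qt e') 0) (b1 : K.MK (K.qt e') 1) : e = e' := by
  obtain ⟨γ, e, rfl⟩ := exE e
  obtain ⟨γ', e', rfl⟩ := exE e'
  obtain ⟨g, hg, h⟩ := mV_exact hs
  rw [← mE_mul γ' e' hg] at b0 b1 ⊢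
  simp only [qk_mk, qt_mk, MK_mk] at k k' a0 a1 b0 b1
  exact mE_rel ⟨k.trans k'.symm, h, Sim.r4 (SK_of_sim (k.trans k'.symm) h) k (SL.of_BM a0 a1)
    (SL.of_BM b0 b1) h⟩

end Ctx

end Crest.Agent.R191
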