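import Crest.Agent.R191.Mark

/-! The final identification relation `Sim`, its invariants, folding and equivariance. -/

namespace Crest.Agent.R191

open Relation

namespace Piece

variable (P : Piece)

inductive Sim (c : P.Cfg) (r H : ℕ) : G × P.V → G × P.V → Prop
  | base {u u' : G × P.V} : P.Vr c r u u' → Sim c r H u u'
  | symm {u u' : G × P.V} : Sim c r H u u' → Sim c r H u' u
  | trans {u m u' : G × P.V} : Sim c r H u m → Sim c r H m u' → Sim c r H u u'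
  | r2 {γ γ' : G} {e e' : P.E} {τ : Fin 3} : P.SK γ e γ' e' → P.kind e = .inr τ →
      ¬ P.Big c r H (γ, P.tgt e) → Sim c r H (γ, P.tgt e) (γ', P.tgt e') →
      Sim c r H (γ, P.src e) (γ', P.src e')
  | r3 {γ γ' : G} {e e' : P.E} {τ : Fin 3} : P.SK γ e γ' e' → P.kind e = .inr τ →
      P.Big c r H (γ, P.tgt e) → P.Big c r H (γ', P.tgt e') →
      Sim c r H (γ, P.src e) (γ', P.src e') → Sim c r H (γ, P.tgt e) (γ', P.tgt e')
  | r4 {γ γ' : G} {e e' : P.E} {x : Bool} : P.SK γ e γ' e' → P.kind e = .inl x →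
      P.SL c r H (P.pos (γ, P.tgt e)) (P.tgt e) → P.SL c r H (P.pos (γ', P.tgt e')) (P.tgt e') →
      Sim c r H (γ, P.src e) (γ', P.src e') → Sim c r H (γ, P.tgt e) (γ', P.tgt e')

variable {P} {c : P.Cfg} {r H : ℕ}

theorem Sim.refl (u : G × P.V) : P.Sim c r H u u := Sim.base (Vr_refl c r u)

theorem Sim.equivalence : Equivalence (P.Sim c r H) := ⟨Sim.refl, Sim.symm, Sim.trans⟩

theorem Sim.of_cl {u u' : G × P.V} (h : P.Cl c r u u') : P.Sim c r H u u' := by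
  induction h with
  | rel a b h => exact Sim.base h
  | refl => exact Sim.refl _
  | symm _ _ _ ih => exact ih.symm
  | trans _ _ _ _ _ ih1 ih2 => exact ih1.trans ih2

theorem pos_mk (u : G × P.V) : ((P.off u.2)⁻¹ * P.pos u, u.2) = u := by
  simp [pos]

theorem SL.of_eqv {p : G} {j j' : P.V} (h : P.SL c r H p j) (h' : EqvGen (P.rho c r H p) j j') :
    P.SL c r H p j' := by
  obtain ⟨⟨e, a1, a2, a3⟩, ⟨e', b1, b2, b3⟩⟩ := h
  exact ⟨⟨e, a1, a2, a3.trans _ _ _ h'⟩, ⟨e', b1, b2, b3.trans _ _ _ h'⟩⟩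

theorem Sim.inv {u u' : G × P.V} (h : P.Sim c r H u u') :
    (P.blob u.2 ↔ P.blob u'.2) ∧
    (¬ P.blob u.2 → P.pos u = P.pos u' ∧ (EqvGen (P.rho c r H (P.pos u)) u.2 u'.2 ∨
      (P.SL c r H (P.pos u) u.2 ∧ P.SL c r H (P.pos u) u'.2))) ∧
    (P.blob u.2 → P.Cl c r u u' ∨ (P.Big c r H u ∧ P.Big c r H u')) := by
  induction h with
  | @base u u' h =>
    refine ⟨(Vr_inv h).1, fun hb => ⟨(Vr_inv h).2 hb, Or.inl (EqvGen.rel _ _
      ⟨hb, fun h' => hb ((Vr_inv h).1.mpr h'), Or.inl ?_⟩)⟩, fun _ => Or.inl (EqvGen.rel _ _ h)⟩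
    rw [pos_mk, (Vr_inv h).2 hb, pos_mk]; exact h
  | @symm u u' _ ih =>
    obtain ⟨i1, i2, i3⟩ := ih
    refine ⟨i1.symm, fun hb => ?_, fun hb => ?_⟩
    · obtain ⟨a, b⟩ := i2 (fun h => hb (i1.mp h))
      rw [← a]
      exact ⟨rfl, b.imp (fun h => h.symm _ _) And.symm⟩
    · exact (i3 (i1.mpr hb)).imp (fun h => EqvGen.symm _ _ h) And.symm
  | @trans u m u' _ _ ih1 ih2 =>
    obtain ⟨i1, i2, i3⟩ := ih1
    obtain ⟨j1, j2, j3⟩ := ih2
    refine ⟨i1.trans j1, fun hb => ?_, fun hb => ?_⟩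
    · obtain ⟨a, b⟩ := i2 hb
      obtain ⟨a', b'⟩ := j2 (fun h => hb (i1.mpr h))
      rw [← a] at a' b'
      refine ⟨a', ?_⟩
      rcases b with b | b <;> rcases b' with b' | b'
      · exact Or.inl (b.trans _ _ _ b')
      · exact Or.inr ⟨b'.1.of_eqv (b.symm _ _), b'.2⟩
      · exact Or.inr ⟨b.1, b.2.of_eqv b'⟩
      · exact Or.inr ⟨b.1, b'.2⟩
    · rcases i3 hb with b | b <;> rcases j3 (i1.mp hb) with b' | b'
      · exact Or.inl (EqvGen.trans _ _ _ b b')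
      · exact Or.inr ⟨b'.1.of_cl (EqvGen.symm _ _ b), b'.2⟩
      · exact Or.inr ⟨b.1, b.2.of_cl b'⟩
      · exact Or.inr ⟨b.1, b'.2⟩
  | @r2 γ γ' e e' τ h1 h2 h3 _ ih =>
    refine ⟨by simp [P.src_nb], fun _ => ⟨h1.2, Or.inl (EqvGen.rel _ _
      ⟨P.src_nb _, P.src_nb _, Or.inr ⟨e, e', τ, h2, h1.1 ▸ h2, rfl, rfl, ?_, ?_⟩⟩)⟩,
      fun h => absurd h (P.src_nb _)⟩
    · simpa [pos] using h3
    · have := (ih.2.2 (P.kind_c e τ h2)).resolve_right (fun h => h3 h.1)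
      have e1 : (P.off (P.src e'))⁻¹ * P.pos (γ, P.src e) = γ' := by
        simp only [pos]; rw [h1.2]; simp
      simp only [e1]
      simpa [pos] using this
  | @r3 γ γ' e e' τ h1 h2 h3 h4 _ _ =>
    have b1 := P.kind_c e τ h2
    have b2 := P.kind_c e' τ (h1.1 ▸ h2)
    exact ⟨by simp [b1, b2], fun h => absurd b1 h, fun _ => Or.inr ⟨h3, h4⟩⟩
  | @r4 γ γ' e e' x h1 h2 h3 h4 _ _ =>
    have b1 := (P.kind_h e x h2).1
    have b2 := (P.kind_h e' x (h1.1 ▸ h2)).1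
    have b3 := (SK_tgt h1).2 b1
    refine ⟨by simp [b1, b2], fun _ => ⟨b3, Or.inr ⟨h3, ?_⟩⟩, fun h => absurd h b1⟩
    rw [b3]; exact h4

theorem Sim.pos_eq {u u' : G × P.V} (h : P.Sim c r H u u') (hb : ¬ P.blob u.2) :
    P.pos u = P.pos u' := (h.inv.2.1 hb).1

theorem Sim.big {u u' : G × P.V} (h : P.Sim c r H u u') (hb : P.blob u.2) (hB : P.Big c r H u) :
    P.Big c r H u' := by
  rcases h.inv.2.2 hb with a | a
  · exact hB.of_cl a
  · exact a.2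

theorem Sim.cl {u u' : G × P.V} (h : P.Sim c r H u u') (hb : P.blob u.2) (hB : ¬ P.Big c r H u) :
    P.Cl c r u u' := (h.inv.2.2 hb).resolve_right fun a => hB a.1

theorem Sim.of_rho {p : G} {j j' : P.V} (h : EqvGen (P.rho c r H p) j j') :
    P.Sim c r H ((P.off j)⁻¹ * p, j) ((P.off j')⁻¹ * p, j') := by
  induction h with
  | rel a b h =>
    obtain ⟨-, -, h | ⟨e, e', τ, k1, k2, rfl, rfl, k5, k6⟩⟩ := h
    · exact Sim.base h
    · exact Sim.r2 ⟨k1.trans k2.symm, by simp⟩ k1 k5 (Sim.of_cl k6)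
  | refl => exact Sim.refl _
  | symm _ _ _ ih => exact ih.symm
  | trans _ _ _ _ _ ih1 ih2 => exact ih1.trans ih2

variable (P c r H) in
/-- big mark upstairs -/
def BM (τ : Fin 3) (u : G × P.V) : Prop :=
  ∃ γ e, P.kind e = .inr τ ∧ P.Big c r H (γ, P.tgt e) ∧ P.Sim c r H (γ, P.src e) u

theorem BM.of_mark {p : G} {τ : Fin 3} {j : P.V} (h : P.Mark c r H p τ j) :
    P.BM c r H τ ((P.off j)⁻¹ * p, j) := by
  obtain ⟨e, a1, a2, a3⟩ := h
  exact ⟨_, e, a1, a2, Sim.of_rho a3⟩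

theorem SL.of_BM {u : G × P.V} (h0 : P.BM c r H 0 u) (h1 : P.BM c r H 1 u) :
    P.SL c r H (P.pos u) u.2 := by
  have key : ∀ τ, P.BM c r H τ u → P.Mark c r H (P.pos u) τ u.2 ∨ P.SL c r H (P.pos u) u.2 := by
    rintro τ ⟨γ, e, a1, a2, a3⟩
    obtain ⟨b1, b2⟩ := a3.inv.2.1 (P.src_nb _)
    rw [b1] at b2
    rcases b2 with b2 | b2
    · refine Or.inl ⟨e, a1, ?_, b2⟩
      rw [← b1]; simpa [pos] using a2
    · exact Or.inr b2.2
  rcases key 0 h0 with a | a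
  · rcases key 1 h1 with b | b
    · exact ⟨a, b⟩
    · exact b
  · exact a

variable (P c r H) in
/-- identified edges -/
def SE (u u' : G × P.E) : Prop :=
  P.kind u.2 = P.kind u'.2 ∧ P.Sim c r H (u.1, P.src u.2) (u'.1, P.src u'.2) ∧
    P.Sim c r H (u.1, P.tgt u.2) (u'.1, P.tgt u'.2)

variable (P c r H) in
/-- identified triangles -/
def ST (u u' : G × P.T) : Prop :=
  P.tk u.2 = P.tk u'.2 ∧ P.SE c r H (u.1, P.th u.2) (u'.1, P.th u'.2) ∧
    P.Sim c r H (u.1, P.tgt (P.c1 u.2)) (u'.1, P.tgt (P.c1 u'.2))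

theorem SE.equivalence : Equivalence (P.SE c r H) :=
  ⟨fun _ => ⟨rfl, Sim.refl _, Sim.refl _⟩, fun h => ⟨h.1.symm, h.2.1.symm, h.2.2.symm⟩,
    fun h h' => ⟨h.1.trans h'.1, h.2.1.trans h'.2.1, h.2.2.trans h'.2.2⟩⟩

theorem ST.equivalence : Equivalence (P.ST c r H) :=
  ⟨fun _ => ⟨rfl, SE.equivalence.refl _, Sim.refl _⟩,
    fun h => ⟨h.1.symm, SE.equivalence.symm h.2.1, h.2.2.symm⟩,
    fun h h' => ⟨h.1.trans h'.1, SE.equivalence.trans h.2.1 h'.2.1, h.2.2.trans h'.2.2⟩⟩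

theorem ST.c1 {u u' : G × P.T} (h : P.ST c r H u u') :
    P.SE c r H (u.1, P.c1 u.2) (u'.1, P.c1 u'.2) :=
  ⟨by simp only [P.c1_kind, h.1], by simpa only [P.src_c1] using h.2.1.2.1, h.2.2⟩

theorem ST.c2 {u u' : G × P.T} (h : P.ST c r H u u') :
    P.SE c r H (u.1, P.c2 u.2) (u'.1, P.c2 u'.2) :=
  ⟨by simp only [P.c2_kind, h.1], by simpa only [P.src_c2] using h.2.1.2.2,
    by simpa only [P.tgt_c] using h.2.2⟩

theorem SK_of_sim {γ γ' : G} {e e' : P.E} (hk : P.kind e = P.kind e')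
    (h : P.Sim c r H (γ, P.src e) (γ', P.src e')) : P.SK γ e γ' e' :=
  ⟨hk, h.pos_eq (P.src_nb _)⟩

/-- folding -/
theorem Sim.fold (φ : G × P.V → ZMod 2)
    (hE : ∀ u u', P.SE c r H u u' → φ (u.1, P.src u.2) + φ (u.1, P.tgt u.2) =
      φ (u'.1, P.src u'.2) + φ (u'.1, P.tgt u'.2))
    (hG : ∀ γ j, (c γ).1 j → φ (γ, P.ge j) = φ (P.off (P.ge j) * γ, P.root))
    {u u' : G × P.V} (h : P.Sim c r H u u') : φ u = φ u' := by
  have hV : ∀ k, k ≤ r → ∀ u u', P.Vr c k u u' → φ u = φ u' := by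
    intro k
    induction k with
    | zero =>
      rintro - ⟨γ, v⟩ u' (rfl | ⟨j, h1, h2, rfl⟩)
      · rfl
      · simp only at h2
        subst h2
        exact hG γ j h1
    | succ k ih =>
      intro hk u u' h0
      have hs : P.Sim c r H u u' := Sim.base (Vr_mono hk h0)
      have hk' : k ≤ r := by omega
      rcases h0 with h | h | ⟨m, h1, h2⟩ | ⟨e, e', h1, -, ⟨h2, h3, h4⟩ | ⟨h2, h3, h4⟩⟩
      · exact ih hk' _ _ h
      · exact (ih hk' _ _ h).symm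
      · exact (ih hk' _ _ h1).trans (ih hk' _ _ h2)
      · obtain ⟨γ, v⟩ := u
        obtain ⟨γ', v'⟩ := u'
        simp only at h1 h2 h3 h4
        subst h2 h3
        have a := hE (γ, e) (γ', e') ⟨h1.1, Sim.base (Vr_mono hk' h4), hs⟩
        simp only [ih hk' _ _ h4] at a
        exact add_left_cancel a
      · obtain ⟨γ, v⟩ := u
        obtain ⟨γ', v'⟩ := u'
        simp only at h1 h2 h3 h4
        subst h2 h3
        have a := hE (γ, e) (γ', e') ⟨h1.1, hs, Sim.base (Vr_mono hk' h4)⟩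
        simp only [ih hk' _ _ h4] at a
        exact add_right_cancel a
  induction h with
  | base h => exact hV r le_rfl _ _ h
  | symm _ ih => exact ih.symm
  | trans _ _ ih1 ih2 => exact ih1.trans ih2
  | @r2 γ γ' e e' τ h1 h2 h3 h4 ih =>
    have a := hE (γ, e) (γ', e') ⟨h1.1, Sim.r2 h1 h2 h3 h4, h4⟩
    simp only [ih] at a
    exact add_right_cancel a
  | @r3 γ γ' e e' τ h1 h2 h3 h4 h5 ih =>
    have a := hE (γ, e) (γ', e') ⟨h1.1, h5, Sim.r3 h1 h2 h3 h4 h5⟩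
    simp only [ih] at a
    exact add_left_cancel a
  | @r4 γ γ' e e' x h1 h2 h3 h4 h5 ih =>
    have a := hE (γ, e) (γ', e') ⟨h1.1, h5, Sim.r4 h1 h2 h3 h4 h5⟩
    simp only [ih] at a
    exact add_left_cancel a

variable [Finite P.V]

theorem Big.per {g : G} (hg : ∀ γ, c (γ * g) = c γ) (u : G × P.V) :
    P.Big c r H (u.1 * g, u.2) ↔ P.Big c r H u := by
  obtain ⟨T, -, h⟩ := Big_tr (P := P) r H
  exact (h c c g u fun t _ => (hg _).symm).symm

theorem SL.per {g : G} (hg : ∀ γ, c (γ * g) = c γ) (p : G) (j : P.V) :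
    P.SL c r H (p * g) j ↔ P.SL c r H p j := by
  obtain ⟨T, -, h⟩ := SL_tr (P := P) r H
  exact (h c c g p j fun t _ => (hg _).symm).symm

theorem Sim.per {g : G} (hg : ∀ γ, c (γ * g) = c γ) {u u' : G × P.V} (h : P.Sim c r H u u') :
    P.Sim c r H (u.1 * g, u.2) (u'.1 * g, u'.2) := by
  have sk : ∀ {γ γ' : G} {e e' : P.E}, P.SK γ e γ' e' → P.SK (γ * g) e (γ' * g) e' :=
    fun h => ⟨h.1, by rw [← mul_assoc, h.2, mul_assoc]⟩
  induction h with
  | base h =>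
    obtain ⟨T, -, h'⟩ := Vr_tr (P := P) r
    exact Sim.base (h' c c g _ _ (fun t _ => (hg _).symm) h)
  | symm _ ih => exact ih.symm
  | trans _ _ ih1 ih2 => exact ih1.trans ih2
  | @r2 γ γ' e e' τ h1 h2 h3 h4 ih =>
    exact Sim.r2 (sk h1) h2 (fun h => h3 ((Big.per hg (γ, _)).mp h)) ih
  | @r3 γ γ' e e' τ h1 h2 h3 h4 h5 ih =>
    exact Sim.r3 (sk h1) h2 ((Big.per hg (γ, _)).mpr h3) ((Big.per hg (γ', _)).mpr h4) ih
  | @r4 γ γ' e e' x h1 h2 h3 h4 h5 ih =>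
    refine Sim.r4 (sk h1) h2 ?_ ?_ ih
    · simpa [pos, mul_assoc] using (SL.per hg _ _).mpr h3
    · simpa [pos, mul_assoc] using (SL.per hg _ _).mpr h4

theorem SE.per {g : G} (hg : ∀ γ, c (γ * g) = c γ) {u u' : G × P.E} (h : P.SE c r H u u') :
    P.SE c r H (u.1 * g, u.2) (u'.1 * g, u'.2) :=
  ⟨h.1, h.2.1.per hg, h.2.2.per hg⟩

theorem ST.per {g : G} (hg : ∀ γ, c (γ * g) = c γ) {u u' : G × P.T} (h : P.ST c r H u u') :
    P.ST c r H (u.1 * g, u.2) (u'.1 * g, u'.2) :=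
  ⟨h.1, h.2.1.per hg, h.2.2.per hg⟩

end Piece

end Crest.Agent.R191
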