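import Crest.Agent.R191.Gap
import Crest.Prelude.Def_Cost

/-! Actions of cost close to one. -/

namespace Crest.Agent.R191

open MeasureTheory ProbabilityTheory Relation Crest.Dynamics

theorem upper (M : ℕ) (hM : 100 < M) :
    ∃ (Y : Type) (_ : MeasurableSpace Y) (_ : StandardBorelSpace Y) (ν : Measure Y)
      (_ : IsProbabilityMeasure ν) (_ : MulAction G Y),
      IsFreePMPAction G Y ν ∧ actionCost G Y ν ≤ 1 + 99 / (M : ENNReal) := by
  classical
  have : NeZero M := ⟨by omega⟩
  obtain ⟨χ, hχ⟩ := exists_hom_comm (C := Multiplicative (ZMod M))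
    fun o => Multiplicative.ofAdd (if o = some true then 2 else 1)
  let _ : MulAction G (ZMod M) :=
    { smul := fun γ k => (χ γ).toAdd + k
      one_smul := fun k => by change (χ 1).toAdd + k = k; simp
      mul_smul := fun a b k => by
        change (χ (a * b)).toAdd + k = (χ a).toAdd + ((χ b).toAdd + k); simp [add_assoc] }
  have hs : ∀ (γ : G) (x : Om × ZMod M), (γ • x).2 = (χ γ).toAdd + x.2 := fun _ _ => rfl
  let u : Measure (ZMod M) := uniformOn Set.univ
  have hu : ∀ k, u {k} = (M : ENNReal)⁻¹ := fun k => by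
    simp only [u]; rw [uniformOn_univ]; simp
  refine ⟨Om × ZMod M, inferInstance, inferInstance, mu.prod u, inferInstance, inferInstance,
    ⟨fun g => ?_, fun g hg => ?_⟩, ?_⟩
  · refine (mp_smul g).prod (g := fun k => (χ g).toAdd + k) ⟨measurable_of_finite _, ?_⟩
    apply Measure.ext_of_singleton
    intro k
    rw [Measure.map_apply (measurable_of_finite _) (measurableSet_singleton _)]
    have : (fun k => (χ g).toAdd + k) ⁻¹' {k} = {k - (χ g).toAdd} := by
      ext x; exact eq_sub_iff_add_eq'.symm
    rw [this, hu, hu]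
  · refine measure_mono_null (t := {y : Om | g • y = y} ×ˢ Set.univ)
      (fun x hx => ⟨congrArg Prod.fst hx, trivial⟩) ?_
    rw [Measure.prod_prod, fix_null g hg, zero_mul]
  let a := ga false
  let b := ga true
  let res : ZMod M → Set (Om × ZMod M) := fun k => Set.univ ×ˢ {k}
  let Φ : ℕ → G × Set (Om × ZMod M) := fun i => match i with
    | 0 => (zz, Set.univ)
    | 1 => (a * b, res 0)
    | 2 => (a * a * b⁻¹, res 0)
    | 3 => (a, res 0)
    | 4 => (a, res 1)
    | _ + 5 => (1, ∅)
  have hres : ∀ k, MeasurableSet (res k) := fun k =>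
    MeasurableSet.univ.prod (measurableSet_singleton k)
  have mres : ∀ k, (mu.prod u) (res k) = (M : ENNReal)⁻¹ := fun k => by
    simp [res, Measure.prod_prod, hu]
  refine le_trans (sInf_le ⟨Φ, ⟨?_, ∅, measure_empty, ?_⟩, rfl⟩) ?_
  · rintro (_ | _ | _ | _ | _ | i)
    · exact MeasurableSet.univ
    · exact hres _
    · exact hres _
    · exact hres _
    · exact hres _
    · exact MeasurableSet.empty
  · let R := EqvGen (GraphingStep Φ)
    let S : Subgroup G :=
      { carrier := {g | ∀ x, R x (g • x)}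
        one_mem' := fun x => by rw [one_smul]; exact EqvGen.refl _
        mul_mem' := fun {g h} hg hh x => by
          rw [mul_smul]; exact EqvGen.trans _ _ _ (hh x) (hg _)
        inv_mem' := fun {g} hg x => by
          have := hg (g⁻¹ • x)
          rw [smul_inv_smul] at this
          exact EqvGen.symm _ _ this }
    have hz : zz ∈ S := fun x => EqvGen.rel _ _ ⟨0, trivial, rfl⟩
    have cz : (χ zz).toAdd = 1 := congrArg Multiplicative.toAdd (hχ none)
    have ca : (χ a).toAdd = 1 := congrArg Multiplicative.toAdd (hχ (some false))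
    have cb : (χ b).toAdd = 2 := congrArg Multiplicative.toAdd (hχ (some true))
    have hw : ∀ w : G, w * zz = zz * w → (∀ x : Om × ZMod M, x.2 = 0 → R x (w • x)) → w ∈ S := by
      intro w hc h x
      have hc' : Commute w zz := hc
      have h1 := S.pow_mem hz (-x.2).val
      have h2 := h (zz ^ (-x.2).val • x) (by simp [hs, cz])
      rw [← mul_smul, (hc'.pow_right _).eq, mul_smul] at h2
      exact EqvGen.trans _ _ _ (EqvGen.trans _ _ _ (h1 x) h2) (EqvGen.symm _ _ (h1 _))
    have w1 : a * b ∈ S := hw _ (by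
      simpa [a, b, ga, gen, al, be] using inr_mul_zz (al * be) (Subgroup.subset_closure (by simp)))
      fun x hx => EqvGen.rel _ _ ⟨1, ⟨trivial, hx⟩, rfl⟩
    have w2 : a * a * b⁻¹ ∈ S := hw _ (by
      simpa [a, b, ga, gen, al, be] using
        inr_mul_zz (al * al * be⁻¹) (Subgroup.subset_closure (by simp)))
      fun x hx => EqvGen.rel _ _ ⟨2, ⟨trivial, hx⟩, rfl⟩
    have key : ∀ n : ℕ, (∀ x : Om × ZMod M, x.2 = n → R x (a • x)) ∧
        (∀ x : Om × ZMod M, x.2 = (n + 1 : ℕ) → R x (a • x)) := by
      intro n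
      induction n with
      | zero =>
        exact ⟨fun x hx => EqvGen.rel _ _ ⟨3, ⟨trivial, by simpa using hx⟩, rfl⟩,
          fun x hx => EqvGen.rel _ _ ⟨4, ⟨trivial, by simpa using hx⟩, rfl⟩⟩
      | succ n ih =>
        refine ⟨ih.2, fun x hx => ?_⟩
        have e1 := ih.1 (b⁻¹ • x) (by simp [hs, cb, hx]; ring)
        have e2 := ih.2 (a • b⁻¹ • x) (by simp [hs, ca, cb, hx]; ring)
        have e3 := w2 x
        have e4 := w1 (b⁻¹ • x)
        simp only [mul_smul, smul_inv_smul] at e3 e4
        exact EqvGen.trans _ _ _ (EqvGen.trans _ _ _ e3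
          (EqvGen.symm _ _ (EqvGen.trans _ _ _ e1 e2))) e4
    have ha : a ∈ S := fun x => (key x.2.val).1 x (by simp)
    have hb : b ∈ S := by simpa using S.mul_mem (S.inv_mem ha) w1
    have : ⊤ ≤ S := by
      rw [← closure_gen, Subgroup.closure_le]
      rintro _ ⟨_ | _ | _, rfl⟩
      exacts [hz, ha, hb]
    exact fun x _ g => this (Subgroup.mem_top g) x
  · rw [graphingCost, tsum_eq_sum (s := Finset.range 5)]
    · simp only [Finset.sum_range_succ, Finset.range_zero, Finset.sum_empty, Φ, mres, measure_univ,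
        zero_add, add_assoc, div_eq_mul_inv]
      gcongr
      calc _ = 4 * (M : ENNReal)⁻¹ := by ring
        _ ≤ _ := by gcongr; norm_num
    · intro i hi
      obtain ⟨i, rfl⟩ : ∃ j, i = j + 5 := ⟨i - 5, by simp at hi; omega⟩
      exact measure_empty

end Crest.Agent.R191
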